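import Vale.Agent.P280Z.Co.Defs

/-!
# P280Z, block Hr: the Todd class and the formal statements
-/

open PowerSeries
open Vale.Agent.P272.K Vale.Agent.P285.H281.FD Vale.Agent.P281Z
open Vale.Agent.P231.ChW (NewtonRec)

noncomputable section

namespace Vale.Agent.P280Z

section
variable {B : Type} [CommRing B] [Algebra ℝ B]

/-- the coefficients of the solution of `E' = W E`, `E 0 = 1` -/
def exc (W : PowerSeries B) : ℕ → B
  | 0 => 1
  | d + 1 => ((d : ℝ) + 1)⁻¹ • ∑ i : Fin (d + 1), coeff (d - i) W * exc W i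
decreasing_by exact i.2

/-- the exponential of the primitive of `W` -/
def Ex (W : PowerSeries B) : PowerSeries B := PowerSeries.mk (exc W)

/-- the logarithmic derivative of the Todd class with the power sums `ps` -/
def TL (ps : ℕ → B) : PowerSeries B :=
  PowerSeries.mk fun k => ((-bernoulli (k + 1) / (k + 1).factorial : ℚ) : ℝ) • ps (k + 1)

end

/-- `∫ exp (m) td (V)` -/
def CT.RR (T : CT) {n : ℕ} (V : Mf n) (m : T.H V) : ℝ :=
  T.int V (coeff n (Ex (C m + TL (T.ps V (VB.tan n V.X)))))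

namespace Hr

/-- dimension zero -/
def RR0 (T : CT) : Prop := ∀ (V : Mf 0) (m : T.H V), T.RR V m = Nat.card V.X

/-- the formal adjunction formula -/
def ADJF (T : CT) : Prop := ∀ {m n : ℕ} {V : Mf m} {Z : Mf n} {L : Bd V.X} {s : L.ι → V.X → ℂ}
  {i : Z.X → V.X} (h : Cut L s i),
  (∀ k, T.ps Z (VB.tan n Z.X) (k + 1) =
    T.pull h.emb.hol (T.ps V (VB.tan m V.X) (k + 1) - T.c1 V L ^ (k + 1))) →
  ∀ a, T.RR Z (T.pull h.emb.hol (a + T.c1 V L)) = T.RR V (a + T.c1 V L) - T.RR V a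

/-- the cohomological data of the projectivised tangent bundle, `ξ = c₁ (O (1))` -/
structure PT (T : CT) {d : ℕ} (V : Mf (d + 1)) (E : Mf (d + 1 + d)) (π : E.X → V.X) (ξ : T.H E) :
    Prop where
  sub : Sub (d + 1 + d) (d + 1) π
  dg : T.Dg E 1 ξ
  tan : ∀ k, T.ps E (VB.tan (d + 1 + d) E.X) (k + 1) =
    T.pull sub.hol (T.ps V (VB.tan (d + 1) V.X) (k + 1)) + ∑ j ∈ Finset.range (k + 2),
      ((k + 1).choose j : ℝ) • (T.pull sub.hol (T.ps V (VB.tan (d + 1) V.X) j) * ξ ^ (k + 1 - j))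
  rk : ∀ e, NewtonRec ℝ (fun k => T.pull sub.hol (T.ps V (VB.tan (d + 1) V.X) k) - (-ξ) ^ k) e →
    e (d + 1) = 0
  one : T.push π (ξ ^ d) = 1

/-- the formal Riemann-Roch computations on the projectivised tangent bundle -/
def PRJF (T : CT) : Prop := ∀ {d : ℕ} {V : Mf (d + 1)} {E : Mf (d + 1 + d)} {π : E.X → V.X}
  {ξ : T.H E} (h : PT T V E π ξ) (l : T.H V),
  T.RR E (T.pull h.sub.hol l) = T.RR V l ∧
  (∀ j : ℕ, 1 ≤ j → j ≤ d → T.RR E (T.pull h.sub.hol l - (j : ℝ) • ξ) = 0) ∧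
  ∃ q : Polynomial ℝ, q.eval 0 = T.RR V l ∧ ∀ j : ℝ,
    q.eval j + q.eval (j + 1) = T.RR E (T.pull h.sub.hol ((2 : ℝ) • l) + j • ξ)

end Hr

end Vale.Agent.P280Z
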