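import Vale.Agent.P280Z.Hr.TopB

/-!
# P280Z, block Hr: the theorem of Hirzebruch, Riemann and Roch from the rows
-/

open scoped Manifold ContDiff Topology
open Set Filter
open Vale.Agent.P272.K Vale.Agent.P285.H281.FD Vale.Agent.P281Z Vale.Agent.P280Z.Ld
open Vale.Agent.P277Z.Slc (lin dd isLB_can)
open Vale.Agent.P277.HD (pull)

noncomputable section

namespace Vale.Agent.P280Z.Hr.Tp

variable {T : CT}

section
variable {n : ℕ} {W : Mf n} {α : Type} [Fintype α] {N L : Bd W.X} {H : α → Bd W.X}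

theorem ml_add (hN : IsLB n N) (hH : ∀ j, IsLB n (H j)) (k u : α → ℤ) :
    Ml n (N.mul (lin H (k + u))) (N.mul (lin H k)) (lin H u) (fun a => (a.1, a.2)) fun a => a.2 :=
  ⟨lb_mul hN (lb_lin hH _), lb_mul hN (lb_lin hH _), lb_lin hH _, fun _ _ h => h, fun _ _ h => h.2,
    fun a b x ha hb => by
      show _ * ∏ l, _ ^ (k l + u l) = _ * (∏ l, _ ^ k l) * ∏ l, _ ^ u l
      rw [mul_assoc, ← Finset.prod_mul_distrib]
      exact congrArg _ (Finset.prod_congr rfl fun l _ =>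
        zpow_add₀ ((hH l).ne_zero _ _ x (ha.2 l) (hb.2 l)) _ _)⟩

theorem fix_g {σ : W.X → W.X} {u : L.ι → L.ι → W.X → ℂ} {z : W.X}
    (h : ∃ w ∈ Γs n σ L u, NZ L w z) (e : σ z = z) {a b : L.ι} (ha : z ∈ L.U a) (hb : z ∈ L.U b) :
    u a b z = L.g a b z := by
  obtain ⟨w, h1, h2⟩ := h
  have k := h1.2 a b z ha (e.symm ▸ hb)
  rw [e, h1.1.1.change a b z ha hb] at k
  exact (mul_right_cancel₀ (h2 b hb) k).symm

theorem bpf_pow (h : Bpf n L) (k : ℕ) : Bpf n (L.pow k) := fun x => (h x).elim fun s e =>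
  ⟨fun a y => s a y ^ k, isSec_of (fun _ _ ha => (sec_hol e.1 ha).pow k) fun a b y ha hb => by
    rw [e.1.change a b y ha hb, mul_pow]
    rfl, fun a ha => pow_ne_zero _ (e.2 a ha)⟩

theorem sw_fix {Y : Type} {a b : Y → W.X} (h : IsLB n L) (ε : ℂ) {y : Y} (e : a y = b y)
    {i j : (bx a b L).ι} (hi : y ∈ (bx a b L).U i) (hj : y ∈ (bx a b L).U j) :
    sw a b L ε i j y = ε * (bx a b L).g i j y := by
  have i1 : b y ∈ L.U i.1 := e ▸ hi.1
  have j1 : b y ∈ L.U j.1 := e ▸ hj.1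
  show ε * (L.g i.1 j.2 (a y) * L.g i.2 j.1 (b y)) = ε * (L.g i.1 j.1 (a y) * L.g i.2 j.2 (b y))
  rw [e, ← h.cocycle _ j.1 _ _ i1 j1 hj.2, ← h.cocycle i.2 j.1 j.2 _ hi.2 j1 hj.2]
  ring

end

/-- the exponents of `m H₀ - j E` -/
def kk (m j : ℤ) : Bool → ℤ := fun l => cond l j (m - j)

theorem kk_succ (m j : ℤ) : kk m j = kk m (j + 1) + ek := funext fun l => by
  cases l <;> simp only [kk, ek, cond, Pi.add_apply] <;> ring

variable {d : ℕ} {V : Mf (d + 1)} {A M : Bd V.X} (D : Bl V A)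

/-- the two systems -/
abbrev HH : Bool → Bd D.B.X := two (bx D.a D.b A) D.H₁

/-- their lifts -/
abbrev uu := twu (sw D.a D.b A 1) D.u₁

/-- the bundles on the blow up -/
abbrev NN (M : Bd V.X) (k : Bool → ℤ) : Bd D.B.X := (bx D.a D.b M).mul (lin (HH D) k)

/-- the dimension of the space of the invariant sections -/
def rr (M : Bd V.X) (ε : ℂ) (k : Bool → ℤ) : ℕ :=
  hs (d + 1 + (d + 1)) D.σ (NN D M k) (tl (sw D.a D.b M ε) (uu D) k)

theorem lb_bx (h : IsLB (d + 1) M) : IsLB (d + 1 + (d + 1)) (bx D.a D.b M) :=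
  lb_mul (D.ha.lb h) (D.hb.lb h)

theorem lz_sw (hS : SWP) (h : IsLB (d + 1) M) {ε : ℂ} (e : ε * ε = 1) :
    Lz (d + 1 + (d + 1)) D.σ (bx D.a D.b M) (sw D.a D.b M ε) :=
  (hS V D.B D.a D.b D.σ M D.ha D.hb D.lz.hol D.lz.inv D.sa D.sb h).1 ε e

theorem lz_H (hS : SWP) (h : IsLB (d + 1) A) : ∀ l, Lz (d + 1 + (d + 1)) D.σ (HH D l) (uu D l)
  | false => lz_sw D hS h (one_mul 1)
  | true => D.lz

theorem ib_H (hS : SWP) (h : IsLB (d + 1) A) (hb : Bpf (d + 1) A) :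
    ∀ l z, ∃ w ∈ Γs (d + 1 + (d + 1)) D.σ (HH D l) (uu D l), NZ (HH D l) w z
  | false => (hS V D.B D.a D.b D.σ A D.ha D.hb D.lz.hol D.lz.inv D.sa D.sb h).2 hb
  | true => D.bpf

theorem bpf_H (hS : SWP) (h : IsLB (d + 1) A) (hb : Bpf (d + 1) A) (l : Bool) :
    Bpf (d + 1 + (d + 1)) (HH D l) := fun z => (ib_H D hS h hb l z).imp fun _ k => ⟨k.1.1.1, k.2⟩

theorem ap_N (hT : T.OK) (hS : SWP) (h : IsLB (d + 1) A) (hb : Bpf (d + 1) A)
    (hM : IsLB (d + 1) M) (hA : Ap T V M) {k : Bool → ℤ} (h1 : 1 + (d : ℤ) ≤ k false)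
    (h2 : 1 - (d : ℤ) ≤ k true) : Ap T D.B (NN D M k) := by
  have lH := fun l => (lz_H D hS h l).lb
  have nH := fun l => hT.c1.bpf _ _ (lH l) (bpf_H D hS h hb l)
  have k0 := hT.c1.pos _ _ (lb_mul (lH false) (lH true)) D.pos
  have r1 : (0 : ℝ) ≤ k false - d - 1 := by exact_mod_cast (by omega : (0 : ℤ) ≤ k false - d - 1)
  have r2 : (0 : ℝ) ≤ k true + d - 1 := by exact_mod_cast (by omega : (0 : ℤ) ≤ k true + d - 1)
  have k1 := kc_add hT k0 (nn_add hT (nn_add hT (nn_pull hT D.ha (nn_of hT hA))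
    (nn_pull hT D.hb (nn_of hT hA))) (nn_add hT (nn_smul hT (nH false) r1)
      (nn_smul hT (nH true) r2)))
  rw [hT.c1.mul _ _ _ (lH false) (lH true)] at k1
  rw [Ap, hT.c1.mul _ _ _ (lb_bx D hM) (lb_lin lH _), D.can T hT, hT.c1.lin _ _ _ lH,
    hT.c1.lin _ _ _ lH, bx, hT.c1.mul _ _ _ (D.ha.lb hM) (D.hb.lb hM), hT.c1.pull D.ha _ hM,
    hT.c1.pull D.hb _ hM]
  refine (congrArg (T.Kc D.B) ?_).mp k1
  simp only [Fintype.sum_bool, ek, map_sub, Int.cast_one, Int.cast_neg]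
  module

theorem rr_step (hL : LD) (hT : T.OK) (hS : SWP) (hR : REF) (h : IsLB (d + 1) A)
    (hb : Bpf (d + 1) A) (hM : IsLB (d + 1) M) {k : Bool → ℤ} (hA : Ap T D.B (NN D M k)) :
    rr D M 1 (k + ek) = rr D M (-1) k + h0 (d + 1 + d) (pull D.i (NN D M (k + ek))) ∧
      rr D M (-1) (k + ek) = rr D M 1 k := by
  have zH := lz_H D hS h
  have lH := fun l => (zH l).lb
  have key : ∀ ε : ℂ, ε * ε = 1 → ∃ τ : D.P.P.X → D.P.P.X, (∀ p, τ p = p) ∧
      rr D M ε (k + ek) = rr D M (-ε) k + hs (d + 1 + d) τ (pull D.i (NN D M (k + ek)))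
        fun a b z => tl (sw D.a D.b M ε) (uu D) (k + ek) a b (D.i z) := fun ε e => by
    have e' : -ε * -ε = 1 := by rw [neg_mul_neg, e]
    have z3 := ((hR D.B D.σ).2.1 Bool _ _ _ _ ek (-1) (by ring) (lz_sw D hS hM e) zH).2
    simp only [neg_one_mul] at z3
    obtain ⟨τ, t1, -, t2⟩ := hL.steps T hT D.cut _ _ _ _ (ml_add (lb_bx D hM) lH k ek) hA D.σ _ _ _
      (lz_lin (lz_sw D hS hM e) zH (k + ek)) (lz_lin (lz_sw D hS hM e') zH k) z3
      (fun a b x ha hb => by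
        show ε * _ * ∏ l, _ ^ (k l + ek l) = -ε * _ * (∏ l, _ ^ k l) * -∏ l, _ ^ ek l
        rw [Finset.prod_congr rfl fun l _ =>
          zpow_add₀ ((zH l).rel.ne _ _ x (ha.2 l) (hb.2 l)) (k l) (ek l), Finset.prod_mul_distrib]
        ring) D.anti
    exact ⟨τ, fun p => D.cut.emb.inj ((t1 p).trans (D.fix p)), t2⟩
  have tg : ∀ (ε : ℂ) a b z, z ∈ (pull D.i (NN D M (k + ek))).U a →
      z ∈ (pull D.i (NN D M (k + ek))).U b → tl (sw D.a D.b M ε) (uu D) (k + ek) a b (D.i z) =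
        ε * (pull D.i (NN D M (k + ek))).g a b z := fun ε a b z ha hb' => by
    show sw D.a D.b M ε a.1 b.1 (D.i z) * ∏ l, uu D l (a.2 l) (b.2 l) (D.i z) ^ (k + ek) l = _
    rw [sw_fix hM ε ((D.ia z).trans (D.ib z).symm) ha.1 hb'.1, Finset.prod_congr rfl
      fun l _ => congrArg (· ^ (k + ek) l) (fix_g (ib_H D hS h hb l _) (D.fix z) (ha.2 l) (hb'.2 l)),
      mul_assoc]
    rfl
  have lE := D.cut.emb.hol.lb (lb_mul (lb_bx D hM) (lb_lin lH (k + ek)))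
  obtain ⟨τ, t1, t2⟩ := key 1 (one_mul 1)
  obtain ⟨τ', t3, t4⟩ := key (-1) (by ring)
  rw [((hR D.P.P τ).2.2 _ _ t1 lE).1 fun a b z ha hb' => (tg 1 a b z ha hb').trans (one_mul _)] at t2
  rw [((hR D.P.P τ').2.2 _ _ t3 lE).2 fun a b z ha hb' =>
    (tg (-1) a b z ha hb').trans (neg_one_mul _), neg_neg] at t4
  exact ⟨t2, t4⟩

theorem rr_zero (hS : SWP) (hR : REF) (h : IsLB (d + 1) A) (hM : IsLB (d + 1) M) (m : ℕ) {ε : ℂ}
    (e : ε * ε = 1) : rr D M ε (kk m 0) = hs (d + 1 + (d + 1)) D.σ (bx D.a D.b (M.mul (A.pow m)))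
      (sw D.a D.b (M.mul (A.pow m)) ε) := by
  refine (hR D.B D.σ).1 _ _ _ _ (fun a => ((a.1.1, (a.2 false).1), (a.1.2, (a.2 false).2)))
    (lz_lin (lz_sw D hS hM e) (lz_H D hS h) _) (lz_sw D hS (lb_mul hM (lb_pow h m)) e)
    (fun a x k => ⟨⟨k.1.1, (k.2 false).1⟩, k.1.2, (k.2 false).2⟩) (fun a b x _ _ => ?_)
    fun a b x _ _ => ?_
  · show (_ : ℂ) * _ * ∏ l, (_ : ℂ) ^ kk m 0 l = (_ : ℂ) * (_ : ℂ) ^ m * (_ * (_ : ℂ) ^ m)
    rw [Fintype.prod_bool]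
    show (_ : ℂ) * _ * ((_ : ℂ) ^ (0 : ℤ) * ((_ : ℂ) * _) ^ ((m : ℤ) - 0)) = _
    rw [sub_zero, zpow_natCast, zpow_zero, one_mul, mul_pow, mul_mul_mul_comm]
    rfl
  · show ε * (_ * _) * ∏ l, _ ^ kk m 0 l = ε * (_ * _ ^ m * (_ * _ ^ m))
    rw [Fintype.prod_bool]
    show ε * (_ * _) * (_ ^ (0 : ℤ) * (1 * (_ * _)) ^ ((m : ℤ) - 0)) = _
    rw [sub_zero, zpow_natCast, zpow_zero, one_mul, one_mul, mul_pow, mul_assoc, mul_mul_mul_comm]

theorem iso_E (hS : SWP) (h : IsLB (d + 1) A) (hM : IsLB (d + 1) M) (m : ℕ) (j : ℤ) :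
    LIso (d + 1 + d) (pull D.i (NN D M (kk m j)))
      ((pull D.P.pr ((M.mul (A.pow m)).mul (M.mul (A.pow m)))).mul (zp D.P.H j)) := by
  have lH := fun l => (lz_H D hS h l).lb
  have hi := D.cut.emb.hol
  have lL := lb_mul hM (lb_pow h m)
  have pb : ∀ {L : Bd V.X}, IsLB (d + 1) L → hi.pic (cls _ (bx D.a D.b L)) =
      D.P.hol.pic (cls _ L) + D.P.hol.pic (cls _ L) := fun {L} k => by
    rw [bx, cls_mul (D.ha.lb k) (D.hb.lb k), map_add, ← cls_pull hi (D.ha.lb k),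
      ← cls_pull hi (D.hb.lb k), ← cls_pull D.P.hol k]
    show cls _ (pull (fun p => D.a (D.i p)) L) + cls _ (pull (fun p => D.b (D.i p)) L) = _
    rw [funext D.ia, funext D.ib]
  have nr := (cls_eq (hi.lb (lb_lin lH ek)) (lb_zp D.P.lb _)).2 D.nrm
  rw [cls_pull hi (lb_lin lH ek), cls_lin lH, cls_zp D.P.lb, Fintype.sum_bool, map_add, map_zsmul,
    map_zsmul] at nr
  have n0 : hi.pic (cls _ (HH D false)) = _ := pb h
  have n1 : hi.pic (cls _ (HH D true)) = hi.pic (cls _ (HH D false)) + cls _ D.P.H := by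
    simp only [ek, neg_smul, one_smul] at nr
    rw [neg_add_eq_iff_eq_add] at nr
    rw [nr, neg_add_cancel_right]
  rw [← cls_eq (hi.lb (lb_mul (lb_bx D hM) (lb_lin lH _)))
    (lb_mul (D.P.hol.lb (lb_mul lL lL)) (lb_zp D.P.lb j)),
    cls_pull hi (lb_mul (lb_bx D hM) (lb_lin lH _)), cls_mul (lb_bx D hM) (lb_lin lH _),
    cls_lin lH, Fintype.sum_bool, map_add, map_add, map_zsmul, map_zsmul, n1, n0, pb hM,
    cls_mul (D.P.hol.lb (lb_mul lL lL)) (lb_zp D.P.lb j), cls_zp D.P.lb,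
    cls_pull D.P.hol (lb_mul lL lL), cls_mul lL lL, cls_mul hM (lb_pow h m), cls_pow h]
  simp only [map_add, map_nsmul, kk, cond]
  module

theorem hd_succ (hL : LD) (hv : VBL) (hB : BLW) (hT : T.OK) (hP : PTX T) (hN : NRM) (hF : FIB)
    (hS : SWP) (hK : KUN) (hR : REF) (ih : HD T d) : HD T (d + 1) := by
  intro V M hM hA
  have l0 : ∀ l, IsLB (d + 1) (two M (Bd.can (d + 1) V.X) l) := fun l => by
    cases l
    exacts [hM, isLB_can]
  have c0 : T.Kc V (T.c1 V (lin (two M (Bd.can (d + 1) V.X)) ek)) := by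
    rw [hT.c1.lin V _ _ l0, Fintype.sum_bool]
    simpa only [ek, two, Int.cast_one, Int.cast_neg, one_smul, neg_smul, neg_add_eq_sub, Ap] using hA
  have p0 := hT.kp V _ (lb_lin l0 ek) c0
  obtain ⟨k, r, s, -, hs⟩ := hL.va V _ (lb_lin l0 ek) p0
  generalize (lin (two M (Bd.can (d + 1) V.X)) ek).pow k = A at s hs
  have h := hs.lb
  have hb : Bpf (d + 1) A := fun x => by
    have : x ∉ Bs A s := hs.bpf ▸ notMem_empty x
    obtain ⟨j, hj⟩ := not_forall.1 this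
    exact ⟨s j, (hs.sec j).1, not_not.1 hj⟩
  obtain ⟨D⟩ := hB ⟨T, hT⟩ V A r s hs
  have pt := hP V D.P ⟨_, lb_lin l0 ek, p0⟩
  obtain ⟨J, hJ⟩ : ∃ J, J = 2 * d + 3 := ⟨_, rfl⟩
  obtain ⟨m, hm⟩ : ∃ m, m = J + d + 2 := ⟨_, rfl⟩
  have lL := lb_mul hM (lb_pow h m)
  have mL := ml_mul hM (lb_pow h m)
  have aL := ap_ml hL hT mL hA (bpf_pow hb m)
  have bL : Bpf (d + 1) (M.mul (A.pow m)) := by
    refine hL.gg T hT V A _ (Fin r) s hs lL ?_
    have := kc_add hT hA (nn_smul hT (hT.c1.bpf V A h hb) (c := (J : ℝ) + 1) (by positivity))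
    rw [c1_ml hL hT mL, hT.c1.pow V A m h]
    refine (congrArg (T.Kc V) ?_).mp this
    rw [hm]
    push_cast
    module
  rw [← cc_inv hL hT hN ih mL hA (bpf_pow hb m)]
  have c2 := cc_inv hL hT hN ih (ml_mul lL lL) aL bL
  set L := M.mul (A.pow m)
  have lH := fun l => (lz_H D hS h l).lb
  have hi := D.cut.emb.hol
  have lE := fun j : ℤ => hi.lb (lb_mul (lb_bx D hM) (lb_lin lH (kk m j)))
  have lE' := fun j : ℤ => lb_mul (D.P.hol.lb (lb_mul lL lL)) (lb_zp D.P.lb j)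
  have cE : ∀ j : ℤ, T.c1 D.P.P (pull D.i (NN D M (kk m j))) =
      T.pull pt.sub.hol ((2 : ℝ) • T.c1 V L) + (j : ℝ) • T.c1 D.P.P D.P.H := fun j => by
    rw [c1_iso hL hT (lE j) (lE' j) (iso_E D hS h hM m j), hT.c1.mul _ _ _
      (D.P.hol.lb (lb_mul lL lL)) (lb_zp D.P.lb j), c1_zp hL hT D.P.lb,
      hT.c1.pull D.P.hol _ (lb_mul lL lL), hT.c1.mul V _ _ lL lL, two_smul]
  have aN := fun k => ap_N D hT hS h hb hM hA (k := k)
  have po : ∀ ε : ℂ, ε * ε = 1 → ∃ ρ : Polynomial ℝ, ρ.natDegree ≤ d + 1 + (d + 1) ∧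
      ∀ j : ℕ, 1 ≤ j → j ≤ J + 1 → (rr D M ε (kk m j) : ℝ) = ρ.eval ↑j := fun ε e => by
    obtain ⟨ρ, r1, r2⟩ := seg (dr_of _ _ (hL.poly T hT D.B Bool D.σ _ _ _ _ (lz_sw D hS hM e)
      (lz_H D hS h) (ib_H D hS h hb) (fun l => cond l 1 (m - 1 - J))
      (aN _ (by simp only [cond]; omega) (by simp only [cond]; omega)))) J 1
    refine ⟨ρ, r1, fun j a b => ?_⟩
    obtain ⟨j, rfl⟩ : ∃ j', j = j' + 1 := ⟨j - 1, by omega⟩
    have := r2 (J - j) j (by omega)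
    rw [show (fun l => cond l 1 ((m : ℤ) - 1 - J) + ((cond l j (J - j) : ℕ) : ℤ)) =
      kk m ((j + 1 : ℕ) : ℤ) from funext fun l => by
        cases l <;> simp only [kk, cond] <;> omega, Rat.cast_natCast] at this
    rw [Nat.cast_succ j (R := ℝ)]
    exact this
  obtain ⟨ρ, r1, r2⟩ := po 1 (one_mul 1)
  obtain ⟨ρ', r3, r4⟩ := po (-1) (by ring)
  have aE : Ap T D.P.P (pull D.i (NN D M fun l => cond l (-d) (m - J))) := by
    rw [show (fun l => cond l (-(d : ℤ)) ((m : ℤ) - J)) =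
      (fun l => cond l (1 - (d : ℤ)) ((m : ℤ) - J - 1)) + ek from funext fun l => by
        cases l <;> simp only [ek, cond, Pi.add_apply] <;> omega]
    exact ap_cut hL hT D.cut (ml_add (lb_bx D hM) lH _ ek)
      (aN _ (by simp only [cond]; omega) (by simp only [cond]; omega))
  obtain ⟨G, g1, g2⟩ := seg (ladc hL hT hN ih (d + 1) (d + 1 + d) (by omega) D.P.P
    (pull D.i (bx D.a D.b M)) (fun l => pull D.i (HH D l)) _ (hi.lb (lb_bx D hM))
    (fun l => hi.lb (lH l)) (fun l => bpf_pull hi (bpf_H D hS h hb l)) aE) (J + d) (-d)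
  have g3 : ∀ j : ℤ, -(d : ℤ) ≤ j → j ≤ J →
      cc T D.P.P (pull D.i (NN D M (kk m j))) = G.eval (j : ℝ) := fun j a b => by
    obtain ⟨c, rfl⟩ : ∃ c : ℕ, j = c - d := ⟨(j + d).toNat, by omega⟩
    have := g2 (J + d - c) c (by omega)
    rw [show (fun l => cond l (-(d : ℤ)) ((m : ℤ) - J) + ((cond l c (J + d - c) : ℕ) : ℤ)) =
      kk m (c - d) from funext fun l => by cases l <;> simp only [kk, cond] <;> omega] at this
    rw [Int.cast_sub, Int.cast_natCast, Int.cast_natCast, sub_eq_add_neg (c : ℝ)]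
    exact this
  obtain ⟨p, p1, p2⟩ := rr_poly T D.P.P (T.pull pt.sub.hol ((2 : ℝ) • T.c1 V L)) (T.c1 D.P.P D.P.H)
  obtain ⟨-, -, q, q1, q2⟩ := prjf hT hv pt (T.c1 V L)
  obtain ⟨f1, f2, -⟩ := prjf hT hv pt ((2 : ℝ) • T.c1 V L)
  have R0 : (rr D M 1 (kk m (0 : ℕ)) : ℝ) - rr D M (-1) (kk m (0 : ℕ)) = h0 (d + 1) L := by
    rw [Nat.cast_zero, rr_zero D hS hR h hM m (one_mul 1), rr_zero D hS hR h hM m (by ring),
      hK V D.B D.a D.b D.σ L _ ((hT.po.kah V).2 ⟨_, hA⟩) D.mod D.sa D.sb lL]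
    push_cast
    ring
  have := fin (J := J) (fun j => (rr D M 1 (kk m j) : ℝ) - rr D M (-1) (kk m j))
    (fun j => h0 (d + 1 + d) (pull D.i (NN D M (kk m j)))) (ρ - ρ') G p q (by omega)
    ((Polynomial.natDegree_sub_le _ _).trans (by omega)) g1 (by omega) (fun j a => ?_)
    (fun j a b => by rw [Polynomial.eval_sub, ← r2 j a b, ← r4 j a b]) (fun j a => ?_)
    (fun j a b => ?_) (fun x => (q2 x).trans (p2 x)) ?_
  · rw [cc, ← q1, ← this, R0, sub_self]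
  · obtain ⟨s1, s2⟩ := rr_step D hL hT hS hR h hb hM
      (aN (kk m (j + 1)) (by simp only [kk, cond]; omega) (by simp only [kk, cond]; omega))
    rw [← kk_succ] at s1 s2
    rw [s1, s2]
    push_cast
    ring
  · have := g3 j (by omega) (by omega)
    rw [cc, cE, p2, Int.cast_natCast] at this
    linarith
  · have := g3 (-j) (by omega) (by omega)
    rw [cc, cE, h0_iso hL (lE _) (lE' _) (iso_E D hS h hM m _),
      (hF D.P _ (lb_mul lL lL)).2 j a (a.trans b), Int.cast_neg, Int.cast_natCast, neg_smul,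
      ← sub_eq_add_neg, f2 j a b] at this
    rw [← this, Nat.cast_zero, sub_zero]
  · have := g3 0 (by omega) (by omega)
    have i0 : LIso (d + 1 + d) ((pull D.P.pr (L.mul L)).mul (zp D.P.H 0)) (pull D.P.pr (L.mul L)) :=
      (cls_eq (lE' 0) (D.P.hol.lb (lb_mul lL lL))).1 (by
        rw [cls_mul (D.P.hol.lb (lb_mul lL lL)) (lb_zp D.P.lb 0), cls_zp D.P.lb, zero_smul, add_zero])
    rw [cc, cE, h0_iso hL (lE _) (lE' _) (iso_E D hS h hM m _),
      h0_iso hL (lE' 0) (D.P.hol.lb (lb_mul lL lL)) i0, (hF D.P _ (lb_mul lL lL)).1, Int.cast_zero,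
      zero_smul, add_zero, f1] at this
    rw [cc, cc, hT.c1.mul V _ _ lL lL, ← two_smul ℝ] at c2
    rw [← this, c2, R0, q1]

end Tp

open Tp in
/-- the theorem from the rows -/
theorem hrr_of (hL : LD) (hv : VBL) (hB : BLW) (hP : ∀ T : CT, T.OK → PTX T) (hN : NRM) (hF : FIB)
    (hS : SWP) (hK : KUN) (hR : REF) : HRR := by
  intro T hT n V M h k
  have : ∀ n, HD T n := fun n => by
    induction n with
    | zero => exact hd_zero hL hT
    | succ n ih => exact hd_succ hL hv hB hT (hP T hT) hN hF hS hK hR ih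
  exact sub_eq_zero.1 (this n V M h k)

end Vale.Agent.P280Z.Hr
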