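import Vale.Agent.P280Z.Hr.BlS

/-!
# P280Z, block Hr: the canonical bundle of the blow up
-/

open scoped Manifold ContDiff Topology Matrix
open Set Filter Function Matrix
open Vale.Agent.P272.K Vale.Agent.P285.H281.FD Vale.Agent.P281Z Vale.Agent.P272.K.Prod
open Vale.Agent.P277Z (Hol at_chart hol_const)
open Vale.Agent.P277Z.Slc (isLB_can)
open Vale.Agent.P277.HD (pull)

noncomputable section

namespace Vale.Agent.P280Z.Hr

namespace Can

section gen

variable {n : ℕ} {X : Type} [TopologicalSpace X] [ChartedSpace (Cm n) X] {L L' : Bd X}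
  {D : Set X} {x : X}

omit [ChartedSpace (Cm n) X] in
theorem uniq (hD : Dense D) {f g : X → ℂ} (hf : ContinuousAt f x) (hg : ContinuousAt g x)
    (h : ∀ᶠ y in 𝓝 x, y ∈ D → f y = g y) : f x = g x :=
  tendsto_nhds_unique_of_frequently_eq hf hg
    (((mem_closure_iff_frequently.1 (hD x)).and_eventually h).mono fun _ k => k.2 k.1)

/-- an isomorphism over a dense set which extends locally -/
theorem liso_of_dense [IsManifold 𝓘(ℂ, Cm n) ω X] (hL : IsLB n L) (hL' : IsLB n L') (hD : Dense D)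
    (t : L.ι → L'.ι → X → ℂ)
    (chg : ∀ a a' b b' x, x ∈ D → x ∈ L.U a → x ∈ L.U a' → x ∈ L'.U b → x ∈ L'.U b' →
      t a b x * L'.g b b' x = L.g a a' x * t a' b' x)
    (loc : ∀ x, ∃ a b θ, x ∈ L.U a ∧ x ∈ L'.U b ∧ Hol n θ x ∧ θ x ≠ 0 ∧
      ∀ᶠ y in 𝓝 x, y ∈ D → t a b y = θ y) : LIso n L L' := by
  have h1 : ∀ a b x, x ∈ L.U a → x ∈ L'.U b → ∃ θ, Hol n θ x ∧ θ x ≠ 0 ∧
      ∀ᶠ y in 𝓝 x, y ∈ D → t a b y = θ y := fun a b x ha hb => by
    obtain ⟨a', b', θ, ha', hb', k1, k2, k3⟩ := loc x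
    refine ⟨fun y => L.g a a' y * θ y / L'.g b b' y, ((lb_hol hL ha ha').mul k1).div
      (lb_hol hL' hb hb') (hL'.ne_zero _ _ _ hb hb'),
      div_ne_zero (mul_ne_zero (hL.ne_zero _ _ _ ha ha') k2) (hL'.ne_zero _ _ _ hb hb'), ?_⟩
    filter_upwards [k3, lb_near hL ha, lb_near hL ha', lb_near hL' hb, lb_near hL' hb']
      with y l1 l2 l3 l4 l5 hy
    rw [← l1 hy, ← chg a a' b b' y hy l2 l3 l4 l5, mul_div_cancel_right₀ _ (hL'.ne_zero _ _ _ l4 l5)]
  choose! Θ k1 k2 k3 using h1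
  refine ⟨fun a b x => Θ a b x x, fun a b x ha hb => (k1 a b x ha hb).congr ?_,
    fun a b x ha hb => k2 a b x ha hb, fun a a' b b' x ha ha' hb hb' => ?_⟩
  · filter_upwards [(k1 a b x ha hb).near, (k3 a b x ha hb).eventually_nhds, lb_near hL ha,
      lb_near hL' hb] with y l1 l2 l3 l4
    refine uniq hD l1.cont (k1 a b y l3 l4).cont ?_
    filter_upwards [l2, k3 a b y l3 l4] with z m1 m2 hz using (m1 hz).symm.trans (m2 hz)
  · refine uniq hD (f := fun y => Θ a b x y * L'.g b b' y) (g := fun y => L.g a a' y * Θ a' b' x y)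
      ((k1 a b x ha hb).mul (lb_hol hL' hb hb')).cont
      ((lb_hol hL ha ha').mul (k1 a' b' x ha' hb')).cont ?_
    filter_upwards [k3 a b x ha hb, k3 a' b' x ha' hb', lb_near hL ha, lb_near hL ha',
      lb_near hL' hb, lb_near hL' hb'] with y l1 l2 l3 l4 l5 l6 hy
    rw [← l1 hy, ← l2 hy, chg a a' b b' y hy l3 l4 l5 l6]

end gen

section alg

variable {n p d : ℕ} (σ : Fin p ⊕ Fin d ≃ Fin n)

theorem detR_right (T : Matrix (Fin d) (Fin d) ℂ) (A : Matrix (Fin p) (Fin n) ℂ)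
    (R : Matrix (Fin d) (Fin n) ℂ) : detR σ A (T * R) = T.det * detR σ A R := by
  have h : fromRows A (T * R) =
      (fromBlocks 1 0 0 T : Matrix (Fin p ⊕ Fin d) (Fin p ⊕ Fin d) ℂ) * fromRows A R := by
    simp [fromBlocks_mul_fromRows]
  rw [detR, detR, h, submatrix_mul _ _ _ σ.symm _ σ.symm.bijective, det_mul,
    det_submatrix_equiv_self, det_fromBlocks_zero₁₂, det_one, one_mul]

theorem detR_ne {A : Matrix (Fin p) (Fin n) ℂ} {R : Matrix (Fin d) (Fin n) ℂ}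
    (h : ∀ v, A *ᵥ v = 0 → R *ᵥ v = 0 → v = 0) : detR σ A R ≠ 0 := fun h0 => by
  obtain ⟨v, hv, h1⟩ := exists_mulVec_eq_zero_iff.2 h0
  refine hv (h v (funext fun i => ?_) (funext fun i => ?_))
  · simpa [mulVec, dotProduct] using congrFun h1 (σ (Sum.inl i))
  · simpa [mulVec, dotProduct] using congrFun h1 (σ (Sum.inr i))

theorem fd_fst (w v : Cm (n + n)) : fderiv ℂ (fstP : Cm (n + n) → Cm n) w v = fstP v := by
  have h : HasFDerivAt (fstP : Cm (n + n) → Cm n)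
      (ContinuousLinearMap.pi fun a => ContinuousLinearMap.proj (R := ℂ) (Fin.castAdd n a)) w :=
    hasFDerivAt_pi.2 fun a => hasFDerivAt_apply _ w
  rw [h.fderiv]
  rfl

theorem fd_yw (l : Fin n) (w v : Cm (n + n)) (a : Fin n) : fderiv ℂ (yw l) w v a =
    fstP v a + sndP v l * Xw l w a + tw l w * update (sndP v) l 0 a := by
  have h : ∀ a, ∃ L : Cm (n + n) →L[ℂ] ℂ, HasFDerivAt (fun w => yw l w a) L w ∧
      L v = fstP v a + sndP v l * Xw l w a + tw l w * update (sndP v) l 0 a := fun a => by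
    by_cases h : a = l
    · subst h
      refine ⟨_, ((hasFDerivAt_apply (Fin.castAdd n a) w).add
        (hasFDerivAt_apply (Fin.natAdd n a) w)).congr_of_eventuallyEq (.of_forall fun w => ?_), ?_⟩
      · simp [yw, tw, Xw, fstP, sndP]
      · simp [Xw, fstP, sndP]
    · refine ⟨_, ((hasFDerivAt_apply (Fin.castAdd n a) w).add
        ((hasFDerivAt_apply (Fin.natAdd n l) w).mul (hasFDerivAt_apply (Fin.natAdd n a) w))
        ).congr_of_eventuallyEq (.of_forall fun w => ?_), ?_⟩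
      · simp [yw, tw, Xw, fstP, sndP, h]
      · simp [tw, Xw, fstP, sndP, h]
        ring
  choose L h1 h2 using h
  rw [(hasFDerivAt_pi.2 h1 : HasFDerivAt (yw l) _ w).fderiv]
  exact h2 a

theorem det_mod {d : ℕ} (l : Fin (d + 1)) (w : Cm (d + 1 + (d + 1)))
    {A R : Matrix (Fin (d + 1)) (Fin (d + 1 + (d + 1))) ℂ}
    (hA : ∀ a b, A a b = fderiv ℂ fstP w (Pi.single b 1) a)
    (hR : ∀ a b, R a b = fderiv ℂ (yw l) w (Pi.single b 1) a) :
    detR finSumFinEquiv A R = tw l w ^ d := by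
  have h : ((fromRows A R).submatrix finSumFinEquiv.symm id).submatrix finSumFinEquiv
      finSumFinEquiv = fromBlocks 1 0 1 (updateCol (tw l w • 1) l (Xw l w)) := by
    ext (a | a) (b | b) <;> rw [submatrix_apply, submatrix_apply, Equiv.symm_apply_apply]
    · refine (hA a (Fin.castAdd _ b)).trans ?_
      rw [fd_fst, fstP_single_castAdd]
      simp [Pi.single_apply, one_apply]
    · refine (hA a (Fin.natAdd _ b)).trans ?_
      rw [fd_fst, fstP_single_natAdd]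
      rfl
    · refine (hR a (Fin.castAdd _ b)).trans ?_
      rw [fd_yw, fstP_single_castAdd, sndP_single_castAdd]
      simp [Pi.single_apply, one_apply]
    · refine (hR a (Fin.natAdd _ b)).trans ?_
      rw [fd_yw, fstP_single_natAdd, sndP_single_natAdd]
      by_cases h1 : b = l <;> by_cases h2 : a = l <;>
        simp [Pi.single_apply, one_apply, h1, h2, eq_comm (a := l)]
  rw [detR, ← det_submatrix_equiv_self finSumFinEquiv, h, det_fromBlocks_zero₁₂, det_one, one_mul,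
    ← cramer_apply, cramer_eq_adjugate_mulVec, adjugate_smul, adjugate_one, smul_mulVec, one_mulVec]
  simp [Xw]

end alg

variable {n : ℕ} {V : Mf n} {B : Mf (n + n)} {p q : B.X → V.X} {z : B.X} {E : Chart (n + n) B.X}
  {e₁ e₂ : Chart n V.X}

/-- the Jacobian determinant of the blow down -/
def Jc (p q : B.X → V.X) (E : Chart (n + n) B.X) (e₁ e₂ : Chart n V.X) (z : B.X) : ℂ :=
  detR finSumFinEquiv (dfM p E e₁ z) (dfM q E e₂ z)

theorem J_hol (hp : HolM (n + n) n p) (hq : HolM (n + n) n q) (h : At E z) (h₁ : At e₁ (p z))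
    (h₂ : At e₂ (q z)) : Hol (n + n) (Jc p q E e₁ e₂) z := by
  refine hol_det fun a b => ?_
  simp only [submatrix_apply, id]
  rcases finSumFinEquiv.symm a with a | a
  · exact hol_dfM (hp.at z) h h₁ a b
  · exact hol_dfM (hq.at z) h h₂ a b

end Can

open Can in
/-- **CAN** -/
theorem can : CAN := by
  intro d V B p q N ε hp hq hN hε hD hI hP
  refine liso_of_dense isLB_can (lb_mul (lb_mul (hp.lb isLB_can) (hq.lb isLB_can)) (lb_pow hN d))
    hD (fun E b z => Jc p q E b.1.1 b.1.2 z / ε b.2 z ^ d) ?_ fun z => ?_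
  · rintro E E' ⟨⟨e₁, e₂⟩, c⟩ ⟨⟨e₁', e₂'⟩, c'⟩ z hz h h' ⟨⟨h₁, h₂⟩, hc⟩ ⟨⟨h₁', h₂'⟩, hc'⟩
    have k1 : Jc p q E e₁' e₂' z = Jc p q E' e₁' e₂' z * (jacM E E' z).det := by
      simp only [Jc]
      rw [dfM_chg (hp.at z) h' h h₁', dfM_chg (hq.at z) h' h h₂', detR_mul]
    have k2 : Jc p q E e₁' e₂' z =
        (jacM e₁ e₁' (p z)).det * ((jacM e₂ e₂' (q z)).det * Jc p q E e₁ e₂ z) := by
      simp only [Jc]
      rw [dfM_chg' (hp.at z) h h₁ h₁', dfM_chg' (hq.at z) h h₂ h₂', detR_left, detR_right]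
    have k3 := hN.ne_zero c c' z hc hc'
    have k4 := hz c' hc'
    show Jc p q E e₁ e₂ z / ε c z ^ d * ((jacM e₁ e₁' (p z)).det * (jacM e₂ e₂' (q z)).det *
      N.g c c' z ^ d) = (jacM E E' z).det * (Jc p q E' e₁' e₂' z / ε c' z ^ d)
    rw [hε.change c c' z hc hc', mul_pow]
    field_simp
    linear_combination k1 - k2
  by_cases hz : NZ N ε z
  · obtain ⟨c, hc⟩ := hN.cover z
    have h := at_chart (n := d + 1 + (d + 1)) z
    have h₁ := at_chart (n := d + 1) (p z)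
    have h₂ := at_chart (n := d + 1) (q z)
    refine ⟨_, ((_, _), c), _, h, ⟨⟨h₁, h₂⟩, hc⟩, (J_hol hp hq h h₁ h₂).div
      ((sec_hol hε hc).pow d) (pow_ne_zero d (hz c hc)), div_ne_zero (detR_ne _ fun v k1 k2 => ?_)
      (pow_ne_zero d (hz c hc)), .of_forall fun _ _ => rfl⟩
    rw [dfM_mulVec] at k1 k2
    exact (imm_pair (hp.at z) (hq.at z) h h₁ h₂).1 (hI z hz) v k1 k2
  · obtain ⟨c, e, l, Ψ, w₀, u, hc, hΨ⟩ := hP z hz
    obtain rfl := hΨ.pt
    have h := at_chart (n := d + 1 + (d + 1)) (Ψ w₀)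
    set E := chartAt (Cm (d + 1 + (d + 1))) (Ψ w₀)
    have hr : ∀ w : Cm (d + 1 + (d + 1)), At (OpenPartialHomeomorph.refl _) w :=
      fun w => at_chart w
    set δ : Cm (d + 1 + (d + 1)) → ℂ := fun w => u w ^ d *
      (dfM Ψ (OpenPartialHomeomorph.refl _) E w).det with hδ
    have d1 : Hol (d + 1 + (d + 1)) δ w₀ :=
      (hΨ.hu.pow d).mul (hol_det fun a b => hol_dfM hΨ.hol (hr w₀) h a b)
    have d2 : δ w₀ ≠ 0 :=
      mul_ne_zero (pow_ne_zero d hΨ.u0) ((imm_iff_det hΨ.hol (hr w₀) h).1 hΨ.imm)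
    have key : ∀ᶠ w in 𝓝 w₀, ε c (Ψ w) ≠ 0 → Jc p q E e e (Ψ w) / ε c (Ψ w) ^ d = (δ w)⁻¹ := by
      filter_upwards [hΨ.near.eventually_nhds, hΨ.hol.near, hΨ.hol.cont.eventually (at_near h),
        ((hp.at _).cmp hΨ.hol).cont.eventually (at_near hΨ.a1),
        ((hq.at _).cmp hΨ.hol).cont.eventually (at_near hΨ.a2), d1.ne_near d2]
        with w k1 k2 k3 k4 k5 k6 k7
      have k8 : Jc p q E e e (Ψ w) * (dfM Ψ (OpenPartialHomeomorph.refl _) E w).det =
          tw l w ^ d := by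
        rw [Jc, ← detR_mul, ← dfM_comp (hp.at _) k2 (hr w) k3 k4,
          ← dfM_comp (hq.at _) k2 (hr w) k3 k5]
        refine det_mod l w (fun a b => ?_) fun a b => ?_
        · rw [dfM_apply, ← EventuallyEq.fderiv_eq (k1.mono fun _ k => k.1)]
          rfl
        · rw [dfM_apply, ← EventuallyEq.fderiv_eq (k1.mono fun _ k => k.2.1)]
          rfl
      refine eq_inv_of_mul_eq_one_left ?_
      rw [div_mul_eq_mul_div, div_eq_one_iff_eq (pow_ne_zero d k7), k1.self_of_nhds.2.2, mul_pow,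
        ← k8, hδ]
      ring
    obtain ⟨g, g1, g2, -, -, g3⟩ := hΨ.imm.inv hΨ.hol
    have g4 : Tendsto g (𝓝 (Ψ w₀)) (𝓝 w₀) := by simpa only [ContinuousAt, g1] using g2.cont
    refine ⟨E, ((e, e), c), fun y => (δ (g y))⁻¹, h, ⟨⟨hΨ.a1, hΨ.a2⟩, hc⟩,
      (g2.hol (g1.symm ▸ d1)).inv (g1.symm ▸ d2), inv_ne_zero (g1.symm ▸ d2), ?_⟩
    filter_upwards [g4.eventually key, g3, lb_near hN hc] with y k1 k2 k3 hy
    rw [k2] at k1
    exact k1 (hy c k3)

end Vale.Agent.P280Z.Hr
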