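import Vale.Agent.P280Z.Hr.BlB
import Vale.Agent.P280Z.Hr.Can
import Vale.Agent.P281Z.Pb.Ps

/-!
# P280Z, block Hr: the blow up of the diagonal exists
-/

open scoped Manifold ContDiff Topology Matrix
open Set Filter Function
open Vale.Agent.P272.K Vale.Agent.P285.H281.FD Vale.Agent.P281Z Vale.Agent.P272.K.Prod
open Vale.Agent.P277Z (Hol at_chart hol_const)
open Vale.Agent.P277Z.Slc (dd dd_congr dd_mul dd_chart Ind)
open Vale.Agent.P277.HD (pull)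

noncomputable section

namespace Vale.Agent.P280Z.Hr.Bx

section par

variable {n : ℕ} {V : Mf n} {B : Mf (n + n)} {p q : B.X → V.X} {f : B.X → ℂ} {z : B.X}
  {e : Chart n V.X} {l : Fin n} {Ψ : Cm (n + n) → B.X} {w : Cm (n + n)} {u : Cm (n + n) → ℂ}

theorem par_dd (h : Par p q f z e l Ψ w u) (hf : Hol (n + n) f z) {c : Chart (n + n) B.X}
    (hc : At c z) : dd f c z ≠ 0 := fun k => by
  obtain rfl := h.pt
  have h1 := dd_comp hf h.hol (at_R w) hc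
  rw [k, dd_congr (h.near.mono fun _ k => k.2.2) (at_R w),
    dd_mul h.hu (hol_R (an_tw l w)) h.zero (at_R w)] at h1
  have h2 : u w * fderiv ℂ (tw l) w (Pi.single (Fin.natAdd n l) 1) = 0 := DFunLike.congr_fun h1 _
  rw [fd_tw, tw, sndP_single_natAdd, Pi.single_eq_same, mul_one] at h2
  exact h.u0 h2

theorem par_freq (h : Par p q f z e l Ψ w u) : ∃ᶠ z' in 𝓝 z, f z' ≠ 0 :=
  h.pt ▸ h.hol.cont.tendsto.frequently (((tw_freq l w).and_eventually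
    (h.near.and (h.hu.ne_near h.u0))).mono fun _ k => k.2.1.2.2 ▸ mul_ne_zero k.2.2 k.1)

theorem alg {A B C D G H S s s' : ℂ} (h1 : s * S = H * A ^ 2 * s') (h2 : B * A = C) (h3 : D * G = C)
    (h4 : S ≠ 0) (h5 : H ≠ 0) : B * s * H ^ (-1 : ℤ) = A * D * S ^ (-1 : ℤ) * (G * s') := by
  rw [zpow_neg_one, zpow_neg_one]
  field_simp
  linear_combination B * h1 + H * A * s' * (h2 - h3)

end par

variable {d : ℕ} {V : Mf (d + 1)} {L : Bd V.X} {ι : Type} (E : BlD V) (s : ι → L.ι → V.X → ℂ)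
  (κ : Fin (E.M + 1) → ι × ι)

/-- the embedding -/
def JJ (z : E.B.X) : ((V.prod V).prod E.S.P).X := (V.prod V).pair E.S.P (E.β z) (E.l z)

/-- the equation of the divisor -/
def eps (c : (E.OE L).ι) (z : E.B.X) : ℂ :=
  om s κ c.1.1 c.1.2 (E.p z) (E.q z) (Classical.epsilon fun m => E.S.x c.2 (E.l z) m ≠ 0) /
    E.S.x c.2 (E.l z) (Classical.epsilon fun m => E.S.x c.2 (E.l z) m ≠ 0)

/-- the output of the construction -/
structure Pre (T : E.P.P.X → E.S.P.X) (γ : V.X → V.X → E.S.P.X) : Prop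
    extends Dat E.P s κ T γ where
  hσ : HolM (d + 1 + (d + 1)) (d + 1 + (d + 1)) E.σ
  σσ : ∀ z, E.σ (E.σ z) = z
  lσ : ∀ z, E.l (E.σ z) = E.l z
  emb : Emb (d + 1 + (d + 1)) (d + 1 + (d + 1) + E.M) (JJ E) (BB E.P T γ)
  ji : ∀ z, JJ E (E.i z) = II E.P T z

variable {E s κ} {T : E.P.P.X → E.S.P.X} {γ : V.X → V.X → E.S.P.X} {z : E.B.X} {a b : L.ι}
  {h : E.S.H.ι}

theorem eps_eq (hh : E.l z ∈ E.S.H.U h) {c : ℂ}
    (k : om s κ a b (E.p z) (E.q z) = c • E.S.x h (E.l z)) : eps E s κ ((a, b), h) z = c := by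
  have h1 := Classical.epsilon_spec (Function.ne_iff.1 (E.S.xnz h _ hh))
  exact (div_eq_iff h1).2 (congrFun k _)

namespace Pre

variable (D : Pre E s κ T γ)
include D

theorem hβ : HolM (d + 1 + (d + 1)) (d + 1 + (d + 1)) E.β := hol_p1.comp D.emb.hol

theorem hp : HolM (d + 1 + (d + 1)) (d + 1) E.p := hol_p1.comp D.hβ

theorem hq : HolM (d + 1 + (d + 1)) (d + 1) E.q := hol_p2.comp D.hβ

theorem hl : HolM (d + 1 + (d + 1)) E.M E.l := hol_p2.comp D.emb.hol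

theorem pi (y : E.P.P.X) : E.p (E.i y) = E.P.pr y := (pair_inj.1 (pair_inj.1 (D.ji y)).1).1

theorem qi (y : E.P.P.X) : E.q (E.i y) = E.P.pr y := (pair_inj.1 (pair_inj.1 (D.ji y)).1).2

theorem li (y : E.P.P.X) : E.l (E.i y) = T y := (pair_inj.1 (D.ji y)).2

theorem hi : HolM (d + 1 + d) (d + 1 + (d + 1)) E.i := fun y =>
  D.emb.lift_at ((D.hI.at y).cng (.of_forall fun y => (D.ji y).symm))

theorem σi (y : E.P.P.X) : E.σ (E.i y) = E.i y := D.emb.inj (pair_inj.2 ⟨pair_inj.2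
  ⟨(D.qi y).trans (D.pi y).symm, (congrArg E.p (D.σσ _)).trans ((D.pi y).trans (D.qi y).symm)⟩,
    D.lσ _⟩)

theorem cases (z : E.B.X) : z ∈ range E.i ∨ E.p z ≠ E.q z ∧ JJ E z = GG γ (E.β z) := by
  rcases D.emb.mem z with ⟨y, k⟩ | ⟨u, k, k'⟩
  · exact .inl ⟨y, D.emb.inj ((D.ji y).trans k)⟩
  · obtain rfl : u = E.β z := (pair_inj.1 k').1
    exact .inr ⟨k, k'.symm⟩

theorem rng (z : E.B.X) : z ∈ range E.i ↔ E.p z = E.q z :=
  ⟨fun ⟨y, k⟩ => k ▸ (D.pi y).trans (D.qi y).symm, fun k => (D.cases z).resolve_right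
    fun c => c.1 k⟩

theorem off (k : E.p z ≠ E.q z) : JJ E z = GG γ (E.β z) :=
  ((D.cases z).resolve_left (mt (D.rng z).1 k)).2

theorem spec (ha : E.p z ∈ L.U a) (hb : E.q z ∈ L.U b) (hh : E.l z ∈ E.S.H.U h) :
    om s κ a b (E.p z) (E.q z) = eps E s κ ((a, b), h) z • E.S.x h (E.l z) := by
  suffices ∃ c : ℂ, om s κ a b (E.p z) (E.q z) = c • E.S.x h (E.l z) from
    this.elim fun c k => by rwa [eps_eq hh k]
  by_cases k : E.p z = E.q z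
  · exact ⟨0, by rw [← k, D.om_self ha (k ▸ hb), zero_smul]⟩
  · have h1 : E.l z = E.S.pt (om s κ a b (E.p z) (E.q z)) :=
      (pair_inj.1 (D.off k)).2.trans (D.γ_eq a b _ _ ha hb k)
    exact ⟨_, h1 ▸ E.S.sc_spec (fun c => k (D.pts _ _ a b ha hb c)) (h1 ▸ hh)⟩

theorem lbE : IsLB (d + 1 + (d + 1)) (E.OE L) :=
  lb_mul (lb_mul (D.hp.lb D.lb) (D.hq.lb D.lb)) (lb_zp (D.hl.lb E.S.lb) _)

theorem sec' : IsSec (d + 1 + (d + 1)) (E.OE L) (eps E s κ) := by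
  refine isSec_of ?_ ?_
  · rintro ⟨⟨a, b⟩, h⟩ z k
    exact hol_fac (D.om_hol (D.hp.at z) (D.hq.at z) k.1.1 k.1.2)
      (fun m => D.hl.hol (E.S.xhol k.2 m)) (E.S.xnz h _ k.2)
      ((lb_near D.lbE k).mono fun _ k' => D.spec k'.1.1 k'.1.2 k'.2)
  · rintro ⟨⟨a, b⟩, h⟩ ⟨⟨a', b'⟩, h'⟩ z k k'
    refine eps_eq k.2 ?_
    rw [D.om_chg k.1.1 k'.1.1 k.1.2 k'.1.2, D.spec k'.1.1 k'.1.2 k'.2, E.S.x_chg k.2 k'.2,
      smul_smul, smul_smul]
    refine congrArg (· • _) ?_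
    show _ = _ * _ * E.S.H.g h h' (E.l z) ^ (-1 : ℤ) * _ * _
    rw [zpow_neg_one, mul_right_comm _ _⁻¹, inv_mul_cancel_right₀ (E.S.lb.ne_zero _ _ _ k.2 k'.2)]
    rfl

theorem nz (z : E.B.X) : NZ (E.OE L) (eps E s κ) z ↔ E.p z ≠ E.q z := by
  obtain ⟨⟨⟨a, b⟩, h⟩, k⟩ := D.lbE.cover z
  refine (nz_iff D.lbE (fun a b => D.sec'.change a b z) k).trans (not_congr ⟨fun c => ?_, fun c => ?_⟩)
  · exact D.pts _ _ a b k.1.1 k.1.2 (by rw [D.spec k.1.1 k.1.2 k.2, c, zero_smul])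
  · have h1 : E.q z ∈ L.U b := k.1.2
    exact eps_eq k.2 ((congrArg _ c.symm).trans
      ((D.om_self k.1.1 (c ▸ h1)).trans (zero_smul _ _).symm))

theorem par (k : E.p z = E.q z) : ∃ a e l Ψ w u, z ∈ (E.OE L).U a ∧
    Par E.p E.q (eps E s κ a) z e l Ψ w u := by
  obtain ⟨y, rfl⟩ := (D.rng z).2 k
  obtain ⟨a, ha⟩ := D.lb.cover (E.P.pr y)
  obtain ⟨h, hh⟩ := E.S.lb.cover (E.l (E.i y))
  obtain ⟨e, he⟩ := (tanV V).cover (E.P.pr y)
  obtain ⟨h', l, Φ, C⟩ := D.ch he ha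
  have : Nonempty E.B.X := ⟨E.i y⟩
  have h1 : ∀ᶠ w in 𝓝 (rho E.P e h' l y), Ps E.S e l Φ w = JJ E (invFun (JJ E) (Ps E.S e l Φ w)) :=
    (D.ps_mem C.dv).mono fun w k => (invFun_eq (D.emb.ex k)).symm
  have h2 := (D.ps_rho C).self_of_nhds.trans (D.ji y).symm
  have h3 := D.emb.lift_at ((C.dv.hol E.S).cng h1)
  have h4 : E.S.pt (Φ (rho E.P e h' l y)) ∈ E.S.H.U h := (pair_inj.1 h2).2 ▸ hh
  have h6 : E.p (E.i y) ∈ L.U a := (D.pi y).symm ▸ ha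
  have h7 : E.q (E.i y) ∈ L.U a := (D.qi y).symm ▸ ha
  have h5 := C.dv.near.self_of_nhds.2.2.2.2.1
  refine ⟨((a, a), h), e, l, _, _, fun w => E.S.sc h (Φ w), ⟨⟨h6, h7⟩, hh⟩,
    D.emb.inj (h1.self_of_nhds.symm.trans h2), h3,
    .of_comp (D.emb.hol.at _) h3 ((C.dv.imm D.toHy E.S).cng h1), (D.pi y).symm ▸ C.he,
    (D.qi y).symm ▸ C.he, C.dv.zero, E.S.sc_hol (fun m => hol_R (C.dv.an m)) h5 h4,
    E.S.sc_ne h5 h4, ?_⟩
  filter_upwards [h1, C.dv.near, (C.dv.h3 E.S).cont.eventually (lb_near E.S.lb h4)]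
    with w k1 ⟨k2, k3, _, _, k4, k5, _⟩ k6
  obtain ⟨k7, k8⟩ := pair_inj.1 k1
  obtain ⟨k9, k10⟩ := pair_inj.1 k7
  refine ⟨k9 ▸ OpenPartialHomeomorph.right_inv e k2, k10 ▸ OpenPartialHomeomorph.right_inv e k3,
    eps_eq (k8 ▸ k6) ?_⟩
  rw [← k8, ← k9, ← k10, k5, mul_comm, mul_smul, ← E.S.sc_spec k4 k6]

theorem dense : Dense {z | NZ (E.OE L) (eps E s κ) z} := fun z => by
  by_cases k : E.p z = E.q z
  · obtain ⟨a, e, l, Ψ, w, u, h1, h2⟩ := D.par k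
    exact mem_closure_iff_frequently.2 (((par_freq h2).and_eventually (lb_near D.lbE h1)).mono
      fun z' c => (nz_iff D.lbE (fun a b => D.sec'.change a b z') c.2).2 c.1)
  · exact subset_closure ((D.nz z).2 k)

theorem cut : Cut (E.OE L) (eps E s κ) E.i where
  dim := rfl
  lb := D.lbE
  sec := D.sec'
  emb := ⟨D.hi, fun y y' k => D.injI ((D.ji y).symm.trans (k ▸ D.ji y')),
    fun y => .of_comp (D.emb.hol.at _) (D.hi.at y)
      ((D.immI y).cng (.of_forall fun y => (D.ji y).symm)),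
    Set.ext fun z => (D.rng z).trans (not_not.symm.trans (not_congr (D.nz z).symm))⟩
  tr y c hc e he := by
    have k := (D.rng _).1 (mem_range_self y)
    obtain ⟨a, e', l, Ψ, w, u, h1, h2⟩ := D.par k
    rw [dd_congr (b := fun z => (E.OE L).g c a z * eps E s κ a z) (by
      filter_upwards [lb_near D.lbE hc, lb_near D.lbE h1] with z k1 k2
        using D.sec'.change c a z k1 k2) he, dd_mul (lb_hol D.lbE hc h1) (sec_hol D.sec' h1)
      (of_not_not fun c => (D.nz _).1 ((nz_iff D.lbE (fun a b => D.sec'.change a b _) h1).2 c) k)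
      he]
    exact smul_ne_zero (D.lbE.ne_zero _ _ _ hc h1) (par_dd h2 (sec_hol D.sec' h1) he)

theorem immβ (k : E.p z ≠ E.q z) : Imm (d + 1 + (d + 1)) (d + 1 + (d + 1)) E.β z :=
  .of_comp (D.hG k) (D.hβ.at z) ((D.emb.imm z).cng
    ((D.hβ.cont.continuousAt.eventually (oo_open.eventually_mem k)).mono fun _ => D.off))

theorem mod : Modif (d + 1 + (d + 1)) E.β {w | V.p1 V w = V.p2 V w} := by
  have h1 : Dense (E.β ⁻¹' {w | V.p1 V w = V.p2 V w})ᶜ := D.dense.mono fun z => (D.nz z).1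
  refine ⟨⟨an_eq hol_p1 hol_p2, fun u => ?_⟩, D.hβ, fun _ => trivial, h1, fun u _ hu => ?_,
    fun _ => D.immβ⟩
  · by_cases k : V.p1 V u = V.p2 V u
    · obtain ⟨y, hy⟩ := E.P.surj (V.p1 V u)
      exact (prod_ext ((D.pi y).trans hy) ((D.qi y).trans (hy.trans k)) : E.β (E.i y) = u) ▸
        map_mem_closure D.hβ.cont (h1 _) fun _ => id
    · exact subset_closure k
  · obtain ⟨z, hz⟩ := D.emb.ex (.inr ⟨u, hu, rfl⟩)
    refine ⟨z, (pair_inj.1 hz).1, fun z' k => D.emb.inj ?_⟩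
    rw [hz, ← k]
    exact D.off (k ▸ hu :)

theorem nor : LIso (d + 1 + d) (pull E.i (E.OE L)) (zp E.P.H (-1)) := by
  let W : L.ι → E.P.H.ι → E.P.P.X → Cm (E.M + 1) := fun a h y =>
    Aw s κ (chartAt _ (E.P.pr y)) a (E.P.pr y) (E.P.x (chartAt _ (E.P.pr y)) h y)
  have w1 : ∀ e a a' h h' y, At e (E.P.pr y) → E.P.pr y ∈ L.U a → E.P.pr y ∈ L.U a' →
      y ∈ E.P.H.U h → y ∈ E.P.H.U h' → W a h y = (E.P.H.g h h' y * L.g a a' (E.P.pr y) ^ 2) •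
        Aw s κ e a' (E.P.pr y) (E.P.x e h' y) := fun e a a' h h' y k1 k2 k3 k4 k5 => by
    simp only [W]
    rw [E.P.xH _ h h' y (at_chart _) k4 k5, E.P.xE _ e h' y (at_chart _) k1 k5, map_smul,
      D.Aw_chg k2 k3 (at_chart _) k1, smul_smul]
  have w2 : ∀ a h y, E.P.pr y ∈ L.U a → y ∈ E.P.H.U h → W a h y ≠ 0 := fun a h y k1 k2 k =>
    E.P.xnz _ h y (at_chart _) k2 (D.tan _ a _ _ k1 (at_chart _) k)
  have w3 : ∀ a h y, E.P.pr y ∈ L.U a → y ∈ E.P.H.U h → E.S.pt (W a h y) = E.l (E.i y) :=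
    fun a h y k1 k2 => ((D.li y).trans (D.T_eq _ a h y (at_chart _) k1 k2)).symm
  have w4 : ∀ (c : (E.OE L).ι) y, E.i y ∈ (E.OE L).U c →
      E.P.pr y ∈ L.U c.1.1 ∧ E.P.pr y ∈ L.U c.1.2 := fun c y k => ⟨D.pi y ▸ k.1.1, D.qi y ▸ k.1.2⟩
  have w5 : ∀ (c : (E.OE L).ι) h y, E.i y ∈ (E.OE L).U c → y ∈ E.P.H.U h →
      E.S.pt (W c.1.1 h y) ∈ E.S.H.U c.2 := fun c h y k k' => (w3 _ h y (w4 c y k).1 k').symm ▸ k.2
  refine ⟨fun c h y => L.g c.1.2 c.1.1 (E.P.pr y) * E.S.sc c.2 (W c.1.1 h y), fun c h y k k' => ?_,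
    fun c h y k k' => mul_ne_zero (D.lb.ne_zero _ _ _ (w4 c y k).2 (w4 c y k).1)
      (E.S.sc_ne (w2 _ h y (w4 c y k).1 k') (w5 c h y k k')),
    fun c c' h h' y k1 k2 k3 k4 => ?_⟩
  · obtain ⟨l1, l2⟩ := w4 c y k
    refine (E.P.hol.hol (lb_hol D.lb l2 l1)).mul (E.S.sc_hol (fun m => ?_) (w2 _ h y l1 k')
      (w5 c h y k k'))
    have he := at_chart (n := d + 1) (E.P.pr y)
    refine (((E.P.hol.hol (sec_hol (D.sec (κ m).1) l1)).mul (hol_app (sec_hol (D.sec (κ m).2) l1)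
      (E.P.hol.at y) he (E.P.xhol _ h y he k'))).sub ((E.P.hol.hol (sec_hol (D.sec (κ m).2) l1)).mul
      (hol_app (sec_hol (D.sec (κ m).1) l1) (E.P.hol.at y) he (E.P.xhol _ h y he k')))).congr ?_
    filter_upwards [E.P.near (i := chartAt _ (E.P.pr y)) he k',
      E.P.hol.cont.continuousAt.eventually (lb_near D.lb l1)] with y' m1 m2
    rw [w1 _ _ _ h h y' m1.1 m2 m2 m1.2 m1.2, lb_self E.P.lb m1.2, lb_self D.lb m2, one_pow,
      mul_one, one_smul]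
    rfl
  · obtain ⟨l1, l2⟩ := w4 c y k1
    obtain ⟨l3, l4⟩ := w4 c' y k2
    have m1 := E.S.sc_spec (w2 _ h y l1 k3) (w5 c h y k1 k3)
    have m2 := E.S.sc_spec (w2 _ h' y l3 k4) (w5 c' h' y k2 k4)
    rw [w3 _ h y l1 k3] at m1
    rw [w3 _ h' y l3 k4] at m2
    have m3 := m1.symm.trans ((w1 _ _ _ h h' y (at_chart _) l1 l3 k3 k4).trans
      (congrArg (_ • ·) m2))
    rw [E.S.x_chg k1.2 k2.2, smul_smul, smul_smul] at m3
    refine (alg (smul_left_injective ℂ (E.S.xnz _ _ k2.2) m3) (D.lb.cocycle _ _ _ _ l2 l1 l3)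
      (D.lb.cocycle _ _ _ _ l2 l4 l3) (E.S.lb.ne_zero _ _ _ k1.2 k2.2)
      (E.P.lb.ne_zero _ _ _ k3 k4)).trans ?_
    show _ = L.g c.1.1 c'.1.1 (E.p (E.i y)) * L.g c.1.2 c'.1.2 (E.q (E.i y)) * _ * _
    rw [D.pi, D.qi]
    rfl

theorem ok : E.Ok L (eps E s κ) where
  hp := D.hp
  hσ := D.hσ
  hl := D.hl
  σσ := D.σσ
  lσ := D.lσ
  σi := D.σi
  pi := D.pi
  imm z v k1 k2 k3 := (imm_pair (D.hβ.at z) (D.hl.at z) (at_chart z)
    (at_prod (at_chart _) (at_chart _)) (at_chart _)).1 (D.emb.imm z) v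
    ((df_pair (D.hp.at z) (D.hq.at z) (at_chart z) (at_chart _) (at_chart _) v).trans
      ((congrArg₂ glue k1 k2).trans (glue_fst_snd 0))) k3
  cut := D.cut
  anti a b h z := by
    unfold eps
    rw [D.lσ, show E.q (E.σ z) = E.p z from congrArg E.p (D.σσ z), ← neg_div]
    exact congrArg (· / _) (om_swap _)
  rng := D.rng
  mod := D.mod
  can := can V E.B E.p E.q _ _ D.hp D.hq D.lbE D.sec' D.dense
    (fun z k => D.immβ ((D.nz z).1 k)) fun z k => D.par (of_not_not (mt (D.nz z).2 k))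
  nor := D.nor

end Pre

theorem Dat.pre {M : ℕ} {P : PB (tanV V) (d + 1 + d)} {S : PS M} {κ : Fin (M + 1) → ι × ι}
    {T : P.P.X → S.P.X} {γ : V.X → V.X → S.P.X} (D : Dat P s κ T γ) :
    ∃ (E : BlD V) (ε : (E.OE L).ι → E.B.X → ℂ), E.Ok L ε := by
  obtain ⟨B, j, hj⟩ := D.subM.emb D.closed.isCompact
  obtain ⟨σ, h1, h2⟩ := hj.lift (g := fun z => (V.prod V).pair S.P
    (V.pair V (V.p2 V ((V.prod V).p1 S.P (j z))) (V.p1 V ((V.prod V).p1 S.P (j z))))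
    ((V.prod V).p2 S.P (j z))) (((hol_p2.comp (hol_p1.comp hj.hol)).pair
      (hol_p1.comp (hol_p1.comp hj.hol))).pair (hol_p2.comp hj.hol)) fun z => by
    rcases hj.mem z with ⟨y, k⟩ | ⟨u, k, k'⟩
    · exact .inl ⟨y, k ▸ rfl⟩
    · obtain ⟨a, ha⟩ := D.lb.cover (V.p1 V u)
      obtain ⟨b, hb⟩ := D.lb.cover (V.p2 V u)
      refine .inr ⟨V.pair V (V.p2 V u) (V.p1 V u), Ne.symm k, k' ▸ prod_ext rfl ?_⟩
      show γ (V.p2 V u) (V.p1 V u) = γ (V.p1 V u) (V.p2 V u)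
      rw [D.γ_eq b a _ _ hb ha (Ne.symm k), D.γ_eq a b _ _ ha hb k,
        ← S.pt_smul (neg_ne_zero.2 one_ne_zero) fun c => k (D.pts _ _ a b ha hb c)]
      exact congrArg S.pt (funext fun m => (om_swap m).trans (neg_one_mul _).symm)
  obtain ⟨i, -, h3⟩ := hj.lift D.hI fun z => .inl ⟨z, rfl⟩
  let E : BlD V := ⟨B, P, M, S, fun z => V.p1 V ((V.prod V).p1 S.P (j z)), σ,
    fun z => (V.prod V).p2 S.P (j z), i⟩
  have h4 : JJ E = j := funext fun z =>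
    prod_ext (prod_ext rfl (congrArg (fun b => V.p1 V ((V.prod V).p1 S.P b)) (h2 z))) rfl
  exact ⟨E, _, Pre.ok (E := E) (κ := κ) (T := T) (γ := γ) ⟨D, h1,
    fun z => hj.inj (by rw [h2, h2]; rfl), fun z => (congrArg ((V.prod V).p2 S.P) (h2 z) :), h4 ▸ hj,
    fun z => h4 ▸ h3 z⟩⟩

end Bx

open Bx in
theorem blx : BLX := fun {d} V L ι _ s h => by
  obtain ⟨M, hM⟩ := Nat.exists_eq_succ_of_ne_zero
    (Fintype.card_ne_zero (α := Option ι × Option ι))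
  let κ := (Fintype.equivFinOfCardEq hM).symm
  have h1 : Hy (fun j => j.elim 0 s) κ := ⟨h.lb, fun j => by
    cases j
    exacts [(Ld.Γ (d + 1) L).zero_mem.1, (h.sec _).1],
    fun x y a b ha hb k => h.pts x y a b ha hb fun j j' => by
      have k' := congrFun k (κ.symm (some j, some j'))
      simp only [om, Equiv.apply_symm_apply] at k'
      exact sub_eq_zero.1 k',
    fun x a e v ha he k => h.tan x a e v ha he fun j j' => by
      have k' := congrFun k (κ.symm (some j', some j))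
      simp only [Aw_apply, Equiv.apply_symm_apply] at k'
      exact (mul_comm _ _).trans ((sub_eq_zero.1 k').trans (mul_comm _ _))⟩
  obtain ⟨P⟩ := Pb.pbex (d + 1) d (d + 1 + d) V (tanV V) rfl
  obtain ⟨T, γ, D⟩ := h1.dat P (Pb.Ps.ps M)
  exact D.pre

end Vale.Agent.P280Z.Hr
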