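import Vale.Agent.P280Z.Hr.Sk
import Vale.Agent.P280Z.Ld.Api
import Vale.Agent.P280Z.Ld.Iso
import Vale.Agent.P280Z.Ld.Va

/-!
# P280Z, block Hr: the blow up of the diagonal in the form which is used by the ladder
-/

open scoped Manifold ContDiff Topology
open Set Filter
open Vale.Agent.P272.K Vale.Agent.P285.H281.FD Vale.Agent.P281Z Vale.Agent.P280Z.Ld
open Vale.Agent.P277Z (Hol at_chart)
open Vale.Agent.P277Z.Slc (lin dd dd_congr isLB_can)
open Vale.Agent.P277.HD (pull)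

noncomputable section

namespace Vale.Agent.P280Z.Hr

namespace BrgH

/-- isomorphic line bundles have the same class -/
theorem c1_iso {T : CT} (hT : T.C1) {n : ℕ} {V : Mf n} {L L' : Bd V.X} (h : IsLB n L)
    (h' : IsLB n L') (k : LIso n L L') : T.c1 V L = T.c1 V L' :=
  k.elim fun t k => (iso V L L' t h h' k).1 T hT

/-- a very ample line bundle is the pull back of the hyperplane bundle by an immersion -/
theorem va_imm {n : ℕ} {V : Mf n} {A : Bd V.X} {ι : Type} [Fintype ι] {s : ι → A.ι → V.X → ℂ}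
    (h : Va n A s) : ∃ (r : ℕ) (S : PS r) (φ : V.X → S.P.X), HolM n r φ ∧ (∀ x, Imm n r φ x) ∧
      LIso n A (pull φ S.H) := by
  obtain ⟨S⟩ := Pb.psex (Fintype.card ι)
  set e := Fintype.equivFin ι
  set w : A.ι → V.X → Cm (Fintype.card ι + 1) := fun b y => Fin.cons 0 fun j => s (e.symm j) b y
    with hw
  have e1 : ∀ j b y, w b y (e j).succ = s j b y := fun j b y => by
    simp only [hw, Fin.cons_succ, Equiv.symm_apply_apply]
  have h1 : ∀ a, IsSec n A fun b y => w b y a := fun a => by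
    induction a using Fin.cases with
    | zero => exact (zero_mem (Γ n A)).1
    | succ j => exact (h.sec (e.symm j)).1
  have h2 : ∀ b, ∀ y ∈ A.U b, ∃ j, s j b y ≠ 0 := fun b y hy =>
    (not_forall.1 (show y ∉ Bs A s from h.bpf ▸ notMem_empty y)).imp fun j k =>
      (of_not_not k : NZ A (s j) y) b hy
  have h3 : ∀ b, ∀ y ∈ A.U b, w b y ≠ 0 := fun b y hy =>
    (h2 b y hy).elim fun j k => Function.ne_iff.2 ⟨_, (e1 j b y).trans_ne k⟩
  obtain ⟨φ, hφ, he⟩ := S.lift_sec h.lb h1 h3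
  have h4 : ∀ {b c y}, y ∈ A.U b → φ y ∈ S.H.U c → S.pt (w b y) ∈ S.H.U c := fun k k' =>
    he _ _ k ▸ k'
  refine ⟨_, S, φ, hφ, fun x => ?_, fun b c y => S.sc c (w b y),
    fun b c y k k' => S.sc_hol (fun a => sec_hol (h1 a) k) (h3 b y k) (h4 k k'),
    fun b c y k k' => S.sc_ne (h3 b y k) (h4 k k'), fun b b' c c' y k1 k2 k3 k4 => ?_⟩
  · obtain ⟨b, hb⟩ := h.lb.cover x
    obtain ⟨l, hl⟩ := h2 b x hb
    have hh : ∀ a, Hol n (fun y => w b y a) x := fun a => sec_hol (h1 a) hb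
    have hl' := (e1 l b x).trans_ne hl
    refine ((S.imm_iff hh hl' (at_chart x)).2 fun v hv => of_not_not fun k =>
      hv (h.tan x b _ v hb (at_chart x) fun j m => ?_)).cng
        ((lb_near h.lb hb).mono fun y hy => (he b y hy).symm)
    have h5 : ∀ j, s l b x * dd (s j b) (chartAt (Cm n) x) x v =
        s j b x * dd (s l b) (chartAt (Cm n) x) x v := fun j => by
      have k1 := of_not_not (not_exists.1 k (e j).succ)
      rw [dd_div (hh _) (hh _) hl' (at_chart x)] at k1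
      simp only [e1] at k1
      exact sub_eq_zero.1 ((mul_eq_zero.1 k1).resolve_left (inv_ne_zero (pow_ne_zero 2 hl)))
    refine mul_left_cancel₀ hl ?_
    rw [← mul_assoc, ← mul_assoc, h5, h5]
    ring
  · refine smul_left_injective ℂ (S.xnz c' _ k4) ?_
    have k5 := S.sc_spec (h3 b y k1) (h4 k1 k3)
    have k6 := S.sc_spec (h3 b' y k2) (h4 k2 k4)
    rw [← he b y k1] at k5
    rw [← he b' y k2] at k6
    show (_ * S.H.g c c' (φ y)) • _ = (_ * _) • _
    rw [mul_smul, mul_smul, ← S.x_chg k3 k4, ← k5, ← k6]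
    exact funext fun a => (h1 a).change b b' y k1 k2

/-- the class of a very ample line bundle is a Kähler class -/
theorem va_kc {T : CT} (hT : T.OK) {n : ℕ} {V : Mf n} {A : Bd V.X} {ι : Type} [Fintype ι]
    {s : ι → A.ι → V.X → ℂ} (h : Va n A s) : T.Kc V (T.c1 V A) := by
  obtain ⟨r, S, φ, hφ, h1, h2⟩ := va_imm h
  rw [c1_iso hT.c1 h.lb (hφ.lb S.lb) h2, hT.c1.pull hφ _ S.lb]
  exact hT.po.mono (hT.po.pull hφ (hT.c1.pos _ _ S.lb S.pos)) fun y v hv =>
    (injective_iff_map_eq_zero _).1 (h1 y _ _ (at_chart _) (at_chart _)) v hv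

/-- refinement of the cover -/
theorem cut_ref {m n : ℕ} {V : Mf m} {Z : Mf n} {L L' : Bd V.X} {s : L.ι → V.X → ℂ}
    {i : Z.X → V.X} (h : Cut L s i) (hL : IsLB m L') (φ : L'.ι → L.ι)
    (hU : ∀ a, L'.U a ⊆ L.U (φ a))
    (hg : ∀ a b x, x ∈ L'.U a → x ∈ L'.U b → L.g (φ a) (φ b) x = L'.g a b x) :
    Cut L' (fun a => s (φ a)) i := by
  have h1 : IsSec m L' fun a => s (φ a) := isSec_of (fun a x ha => sec_hol h.sec (hU a ha))
    fun a b x ha hb => by
      rw [← hg a b x ha hb]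
      exact h.sec.change _ _ x (hU a ha) (hU b hb)
  refine ⟨h.dim, hL, h1, ?_, fun z a ha => h.tr z _ (hU a ha)⟩
  rw [show {x | ¬ NZ L' (fun a => s (φ a)) x} = {x | ¬ NZ L s x} from Set.ext fun x =>
    (hL.cover x).elim fun a ha => (not_nz hL h1 ha).trans (not_nz h.lb h.sec (hU a ha)).symm]
  exact h.emb

end BrgH

open BrgH

/-- **BRG** -/
theorem brg (hX : BLX) : BLW := by
  rintro ⟨T₀, h₀⟩ d V A r s hA
  obtain ⟨D, ε, h⟩ := hX V A _ s hA
  have hq : HolM (d + 1 + (d + 1)) (d + 1) D.q := h.hp.comp h.hσ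
  have qσ : ∀ z, D.q (D.σ z) = D.p z := fun z => congrArg D.p (h.σσ z)
  have lH : IsLB (d + 1 + (d + 1)) D.H1 := h.hl.lb D.S.lb
  have lB : ∀ {L}, IsLB (d + 1) L → IsLB (d + 1 + (d + 1)) (D.box L) := fun k =>
    lb_mul (h.hp.lb k) (hq.lb k)
  have cB : ∀ {T : CT}, T.C1 → ∀ {L}, IsLB (d + 1) L →
      T.c1 D.B (D.box L) = T.pull h.hp (T.c1 V L) + T.pull hq (T.c1 V L) := fun hT _ k =>
    (hT.mul _ _ _ (h.hp.lb k) (hq.lb k)).trans (by rw [hT.pull h.hp _ k, hT.pull hq _ k])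
  have lO : IsLB (d + 1 + (d + 1)) (lin (two (D.box A) D.H1) ek) :=
    lb_lin (fun j => by cases j; exacts [lB hA.lb, lH]) ek
  have k : ∀ {z b}, D.σ z ∈ D.H1.U b → z ∈ D.H1.U b := fun {z b} k => by
    show D.l z ∈ D.S.H.U b
    rw [← h.lσ]
    exact k
  have hU : ∀ j : (lin (two (D.box A) D.H1) ek).ι,
      (lin (two (D.box A) D.H1) ek).U j ⊆ (D.OE A).U (j false, j true) := fun _ _ k =>
    ⟨k false, k true⟩
  have hg : ∀ (j j' : (lin (two (D.box A) D.H1) ek).ι) x,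
      (D.OE A).g (j false, j true) (j' false, j' true) x =
        (lin (two (D.box A) D.H1) ek).g j j' x := fun j j' x => by
    show _ = ∏ l, (two (D.box A) D.H1 l).g (j l) (j' l) x ^ ek l
    rw [Fintype.prod_bool, mul_comm]
    exact congrArg (· * _) (zpow_one _).symm
  have hc := (cut_ref h.cut lO _ hU fun j j' x _ _ => hg j j' x).nm
  have hI := liso_of_map' h.cut.lb _ hU fun j j' x _ _ => hg j j' x
  have hi := h.cut.emb.hol
  refine ⟨⟨D.P, D.B, D.p, D.q, D.σ, D.H1, D.H1.g, _, D.i, h.hp, hq, h.mod, fun _ => rfl, qσ, h.pi,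
    fun z => (congrArg D.p (h.σi z)).trans (h.pi z), h.σi,
    ⟨h.hσ, h.σσ, lH, ⟨fun _ _ _ ha hb => lb_hol lH ha (k hb),
      fun a b x ha hb => lH.ne_zero a b x ha (k hb), fun a a' b b' x h1 h2 h3 h4 => ?_⟩,
      fun a b c x h1 h2 h3 => ?_⟩, fun z => ?_, hc,
    ⟨nm_mem lO (cut_ref h.cut lO _ hU fun j j' x _ _ => hg j j' x).sec, fun a b x ha hb => ?_⟩, ?_,
    (hI.pull hi).trans (hi.lb lO) (hi.lb h.cut.lb) (lb_zp D.P.lb _) h.nor, fun T hT => ?_⟩⟩
  · show _ * D.S.H.g b b' (D.l (D.σ x)) = _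
    rw [h.lσ]
    exact (lH.cocycle a b b' x h1 (k h3) (k h4)).trans (lH.cocycle a a' b' x h1 h2 (k h4)).symm
  · show _ * D.S.H.g b c (D.l (D.σ x)) = _
    rw [h.lσ]
    exact lH.cocycle a b c x h1 (k h2) h3
  · obtain ⟨w, hw, h0⟩ := D.S.bpf (D.l z)
    refine ⟨nm D.H1 fun a z => w a (D.l z), ⟨nm_mem lH (h.hl.sec hw), fun a b x ha hb => ?_⟩,
      nm_nz.2 h0⟩
    rw [nm_of ha, nm_of hb, h.lσ]
    exact hw.change a b _ ha (k hb)
  · have h1 := h.cut.sec.change (a false, a true) (((b false).2, (b false).1), b true) x (hU a ha)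
      ⟨⟨by
        show D.p x ∈ A.U _
        rw [← qσ]
        exact (hb false).2, (hb false).1⟩, k (hb true)⟩
    have h2 := h.anti (b false).1 (b false).2 (b true) x
    refine ((nm_of ha).trans h1).trans (Eq.trans ?_ (congrArg (_ * ·) ((nm_of hb).trans h2).symm))
    beta_reduce
    rw [Fintype.prod_bool, neg_mul_neg, mul_comm (_ ^ ek true)]
    exact congrArg (· * _ * _) ((zpow_one _).trans (one_mul _)).symm
  · refine h₀.kp _ ((D.box A).mul D.H1) (lb_mul (lB hA.lb) lH) ?_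
    rw [h₀.c1.mul _ _ _ (lB hA.lb) lH, cB h₀.c1 hA.lb, BlD.H1, h₀.c1.pull h.hl _ D.S.lb]
    exact h₀.po.mono (h₀.po.add (h₀.po.add (h₀.po.pull h.hp (va_kc h₀ hA))
      (h₀.po.pull hq (va_kc h₀ hA))) (h₀.po.pull h.hl (h₀.c1.pos _ _ D.S.lb D.S.pos)))
      fun z v hv => h.imm z v hv.1.1 hv.1.2 hv.2
  · rw [c1_iso hT.c1 isLB_can (lb_mul (lB isLB_can) (lb_pow h.cut.lb d)) h.can,
      hT.c1.mul _ _ _ (lB isLB_can) (lb_pow h.cut.lb d), cB hT.c1 isLB_can,
      hT.c1.pow _ _ _ h.cut.lb, ← c1_iso hT.c1 lO h.cut.lb hI]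
    rfl

end Vale.Agent.P280Z.Hr
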