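import Vale.Agent.P280Z.Hr.Sk
import Vale.Agent.P280Z.Ld.Api
import Vale.Agent.P281Z.Pb.Api2

/-!
# P280Z, block Hr: sections on a projective bundle
-/

open scoped Manifold ContDiff Topology
open Set Filter
open Vale.Agent.P272.K Vale.Agent.P285.H281.FD Vale.Agent.P281Z Vale.Agent.P280Z.Ld
open Vale.Agent.P277Z (Hol at_chart)
open Vale.Agent.P277.HD (pull)

noncomputable section

namespace Vale.Agent.P280Z.Hr

namespace FibA

variable {n r N : ℕ} {V : Mf n} {E : P281Z.VB (r + 1) V} (P : PB E N) {f : P.P.X → ℂ} {i : E.ι}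
  {y : V.X} {v w : Cm (r + 1)}

theorem an_fib (hi : y ∈ E.U i) (hv : v ≠ 0) (hf : Hol N f (P.pt i y v)) :
    AnalyticAt ℂ (fun w => f (P.pt i y w)) v := by
  have he := at_chart (n := n) y
  have he' := at_chart (n := N) (P.pt i y v)
  have h1 := (P.an i y hi v hv _ _ he he').comp (f := fun w => (chartAt (Cm n) y y, w))
    (analyticAt_const.prod analyticAt_id)
  have h2 : AnalyticAt ℂ (fun w => chartAt (Cm N) (P.pt i y v) (P.pt i y w)) v := by
    refine h1.congr (Eventually.of_forall fun w => ?_)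
    simp only [Function.comp, (chartAt (Cm n) y).left_inv he.2]
  refine ((hf _ he').comp_of_eq h2 rfl).congr ?_
  have hc : ContinuousAt (fun w => P.pt i y w) v :=
    ContinuousAt.comp (f := fun w => (y, w)) (P.cont i y hi v hv) (by fun_prop)
  filter_upwards [hc.eventually ((chartAt (Cm N) (P.pt i y v)).open_source.mem_nhds he'.2)]
    with w hw
  simp only [Function.comp, (chartAt (Cm N) (P.pt i y v)).left_inv hw]

theorem pt_const (hi : y ∈ E.U i) (hf : ∀ p, P.pr p = y → Hol N f p) (hv : v ≠ 0) (hw : w ≠ 0) :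
    f (P.pt i y v) = f (P.pt i y w) := by
  by_cases h : ∃ c : ℂ, v = c • w
  · rw [(P.pt_eq_iff hi hv hw).2 h]
  have h0 : ∀ t : ℂ, v + t • w ≠ 0 := fun t e =>
    h ⟨-t, by rw [neg_smul]; exact eq_neg_of_add_eq_zero_left e⟩
  have hG : ∀ u ≠ 0, AnalyticAt ℂ (fun w => f (P.pt i y w)) u := fun u hu =>
    an_fib P hi hu (hf _ (P.pr_pt i y hi u))
  have h1 : Differentiable ℂ fun t : ℂ => f (P.pt i y (v + t • w)) := fun t =>
    DifferentiableAt.comp (f := fun t : ℂ => v + t • w) t (hG _ (h0 t)).differentiableAt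
      (by fun_prop)
  have h2 : Tendsto (fun t : ℂ => f (P.pt i y (v + t • w))) (cocompact ℂ)
      (𝓝 (f (P.pt i y w))) := by
    have h3 : Tendsto (fun t : ℂ => t⁻¹ • v + w) (cocompact ℂ) (𝓝 w) := by
      have : Tendsto (fun t : ℂ => t⁻¹) (cocompact ℂ) (𝓝 0) := by
        rw [← Metric.cobounded_eq_cocompact]
        exact tendsto_inv₀_cobounded
      simpa using (this.smul_const v).add_const w
    refine ((hG w hw).continuousAt.tendsto.comp h3).congr' ?_
    filter_upwards [(isCompact_singleton (x := (0 : ℂ))).compl_mem_cocompact] with t ht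
    have ht' : t ≠ 0 := ht
    have e : t⁻¹ • v + w = t⁻¹ • (v + t • w) := by
      rw [smul_add, smul_smul, inv_mul_cancel₀ ht', one_smul]
    simp only [Function.comp, e, P.pt_smul hi (inv_ne_zero ht') (h0 t)]
  simpa using h1.apply_eq_of_tendsto_cocompact 0 h2

theorem fib_const {p q : P.P.X} (hq : P.pr q = P.pr p) (hf : ∀ z, P.pr z = P.pr p → Hol N f z) :
    f q = f p := by
  obtain ⟨i, hi⟩ := E.cover (P.pr p)
  obtain ⟨v, hv, e⟩ := P.surj' hi
  obtain ⟨w, hw, e'⟩ := P.surj' (p := q) (i := i) (hq ▸ hi)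
  rw [hq] at e'
  have := pt_const P hi hf hw hv
  rwa [e, e'] at this

theorem onto {M : Bd V.X} {u : (pull P.pr M).ι → P.P.X → ℂ}
    (hu : u ∈ Γ N (pull P.pr M)) : ∃ s ∈ Γ n M, res P.pr M s = u := by
  obtain ⟨σ, hσ⟩ := P.surj.hasRightInverse
  have h1 : ∀ a p, u a (σ (P.pr p)) = u a p := by
    intro a p
    by_cases ha : P.pr p ∈ M.U a
    · exact fib_const P (hσ _) fun z hz => sec_hol hu.1 (show P.pr z ∈ M.U a from hz ▸ ha)
    · rw [hu.2 a p ha, hu.2 a _ (show P.pr (σ (P.pr p)) ∉ M.U a by rwa [hσ])]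
  refine ⟨fun a y => u a (σ y), ⟨isSec_of (fun a y ha => ?_) fun a b y ha hb => ?_,
    fun a y ha => hu.2 a _ (show P.pr (σ y) ∉ M.U a by rwa [hσ])⟩, funext₂ h1⟩
  · obtain ⟨i, hi⟩ := E.cover y
    have hv : (fun _ => 1 : Cm (r + 1)) ≠ 0 := fun e => one_ne_zero (congrFun e 0)
    have h2 : HolA n N (fun z => P.pt i z fun _ => 1) y :=
      P.holA (g := fun z => z) (s := fun _ _ => 1) (holM_id.at y) hi
        (fun _ _ _ => analyticAt_const) hv
    have h3 : Hol N (u a) (P.pt i y fun _ => 1) :=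
      sec_hol hu.1 (show P.pr _ ∈ M.U a by rwa [P.pr_pt i y hi])
    refine (h2.hol h3).congr ?_
    filter_upwards [(E.isOpen i).mem_nhds hi] with z hz
    have h4 := h1 a (P.pt i z fun _ => 1)
    rw [P.pr_pt i z hz] at h4
    exact h4.symm
  · have := hu.1.change a b (σ y) (show P.pr (σ y) ∈ M.U a by rwa [hσ])
      (show P.pr (σ y) ∈ M.U b by rwa [hσ])
    rw [this]
    show M.g a b (P.pr (σ y)) * _ = _
    rw [hσ]

theorem vanish {M : Bd V.X} (hM : IsLB n M) {j : ℕ} (hj : 1 ≤ j) (hr : 1 ≤ r)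
    {u : ((pull P.pr M).mul (zp P.H (-(j : ℤ)))).ι → P.P.X → ℂ}
    (hu : u ∈ Γ N ((pull P.pr M).mul (zp P.H (-(j : ℤ))))) : u = 0 := by
  refine funext₂ fun b p => ?_
  obtain ⟨a, h⟩ := b
  by_cases hb : p ∈ ((pull P.pr M).mul (zp P.H (-(j : ℤ)))).U (a, h)
  swap
  · exact hu.2 _ p hb
  have ha : P.pr p ∈ M.U a := hb.1
  have hh : p ∈ P.H.U h := hb.2
  obtain ⟨i, hi⟩ := E.cover (P.pr p)
  obtain ⟨k, hk⟩ := Function.ne_iff.1 (P.xnz i h p hi hh)
  have hk' : P.x i h p k ≠ 0 := hk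
  choose c hc using P.lb.cover
  have h1 : ∀ z h', P.pr z ∈ M.U a → P.pr z ∈ E.U i → z ∈ P.H.U h' →
      u (a, c z) z * P.x i (c z) z k ^ j = u (a, h') z * P.x i h' z k ^ j := by
    intro z h' z1 z2 z3
    have e1 := hu.1.change (a, c z) (a, h') z ⟨z1, hc z⟩ ⟨z1, z3⟩
    have e2 : ((pull P.pr M).mul (zp P.H (-(j : ℤ)))).g (a, c z) (a, h') z =
        M.g a a (P.pr z) * P.H.g (c z) h' z ^ (-(j : ℤ)) := rfl
    have e3 := P.lb.ne_zero (c z) h' z (hc z) z3
    rw [e1, e2, lb_self hM z1, P.xH i (c z) h' z z2 (hc z) z3, Pi.smul_apply, smul_eq_mul,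
      zpow_neg, zpow_natCast, mul_pow]
    field_simp
  have h2 : ∀ z, P.pr z = P.pr p → Hol N (fun z => u (a, c z) z * P.x i (c z) z k ^ j) z := by
    intro z hz
    have z1 : P.pr z ∈ M.U a := hz ▸ ha
    have z2 : P.pr z ∈ E.U i := hz ▸ hi
    have h3 : Hol N (fun q => u (a, c z) q * P.x i (c z) q k ^ j) z := fun e he =>
      (sec_hol hu.1 (a := (a, c z)) ⟨z1, hc z⟩ e he).mul
        ((P.xhol i (c z) z z2 (hc z) k e he).pow j)
    refine h3.congr ?_
    filter_upwards [P.near z2 (hc z),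
      P.hol.cont.continuousAt.eventually ((hM.isOpen a).mem_nhds z1)] with q q1 q2
    exact (h1 q (c z) q2 q1.1 q1.2).symm
  obtain ⟨k', hkk⟩ : ∃ k' : Fin (r + 1), k ≠ k' := by
    have : Nontrivial (Fin (r + 1)) := Fin.nontrivial_iff_two_le.2 (by omega)
    exact (exists_ne k).imp fun _ e => e.symm
  have hv : (Pi.single k' 1 : Cm (r + 1)) ≠ 0 := fun e => by
    simpa using congrFun e k'
  have h4 := fib_const P (q := P.pt i (P.pr p) (Pi.single k' 1)) (P.pr_pt i _ hi _) h2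
  obtain ⟨d, hd⟩ := P.x_pt i _ hi _ hv _ (hc _)
  rw [hd, Pi.smul_apply, Pi.single_eq_of_ne hkk, smul_zero, zero_pow (by omega), mul_zero,
    h1 p h ha hi hh] at h4
  exact (mul_eq_zero.1 h4.symm).resolve_right (pow_ne_zero _ hk')

end FibA

open FibA in
theorem fib : FIB := fun {n r N V E} P M hM => by
  refine ⟨?_, fun j hj hr => ?_⟩
  · refine (LinearEquiv.ofBijective ((res P.pr M).restrict
      (p := Γ n M) (q := Γ N (pull P.pr M)) fun s hs => res_mem P.hol hs)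
        ⟨fun s t e => Subtype.ext (funext₂ fun a y => ?_), fun u => ?_⟩).finrank_eq.symm
    · obtain ⟨p, rfl⟩ := P.surj y
      exact congrFun (congrFun (congrArg Subtype.val e) a) p
    · obtain ⟨s, hs, e⟩ := onto P u.2
      exact ⟨⟨s, hs⟩, Subtype.ext e⟩
  · have e : Γ N ((pull P.pr M).mul (zp P.H (-(j : ℤ)))) = ⊥ :=
      eq_bot_iff.2 fun u hu => (Submodule.mem_bot ℂ).2 (vanish P hM hj hr hu)
    rw [h0, e, finrank_bot]

end Vale.Agent.P280Z.Hr
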