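import Vale.Agent.P280Z.Hr.Sk
import Vale.Agent.P280Z.Ld.Api
import Vale.Agent.P281Z.En.Kap2
import Mathlib.LinearAlgebra.Dual.Lemmas

/-!
# P280Z, block Hr: row KUN
-/

open scoped Manifold ContDiff Topology Matrix
open Set Filter
open Vale.Agent.P272.K Vale.Agent.P285.H281.FD Vale.Agent.P281Z Vale.Agent.P280Z.Ld
open Vale.Agent.P277.HD (pull)

set_option linter.all false

noncomputable section

namespace Vale.Agent.P280Z.Hr

namespace Kun

/-- matrices with `m = ε mᵀ` -/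
def Sy (h : ℕ) (ε : ℂ) : Submodule ℂ (Matrix (Fin h) (Fin h) ℂ) where
  carrier := {m | ∀ k l, m k l = ε * m l k}
  add_mem' ha hb k l := by rw [Matrix.add_apply, Matrix.add_apply, ha k l, hb k l, mul_add]
  zero_mem' k l := (mul_zero _).symm
  smul_mem' c m hm k l := by
    rw [Matrix.smul_apply, Matrix.smul_apply, hm k l, smul_eq_mul, smul_eq_mul, mul_left_comm]

/-- the sign of a pair -/
def sg {h : ℕ} (k l : Fin h) : ℂ := if k < l then 1 else if l < k then -1 else 0

theorem sg_self {h : ℕ} (k : Fin h) : sg k k = 0 := by simp [sg]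

theorem sg_swap {h : ℕ} (k l : Fin h) : sg k l = -sg l k := by
  rcases lt_trichotomy k l with c | rfl | c
  · simp [sg, c, c.not_gt]
  · simp [sg]
  · simp [sg, c, c.not_gt]

theorem sg_sq {h : ℕ} {k l : Fin h} (c : k ≠ l) : sg k l * sg k l = 1 := by
  rcases lt_or_gt_of_ne c with c | c
  · simp [sg, c]
  · simp [sg, c, c.not_gt]

/-- symmetric matrices are antisymmetric matrices and diagonals -/
def eqv (h : ℕ) : Sy h 1 ≃ₗ[ℂ] Sy h (-1) × (Fin h → ℂ) where
  toFun m := (⟨Matrix.of fun k l => sg k l * m.1 k l, fun k l => by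
    rw [Matrix.of_apply, Matrix.of_apply, m.2 k l, sg_swap]; ring⟩, fun k => m.1 k k)
  map_add' a b := Prod.ext (Subtype.ext (Matrix.ext fun k l => mul_add _ _ _)) rfl
  map_smul' c a := Prod.ext (Subtype.ext (Matrix.ext fun k l => mul_left_comm _ _ _)) rfl
  invFun p := ⟨Matrix.of fun k l => sg k l * p.1.1 k l + if k = l then p.2 k else 0, fun k l => by
    rw [Matrix.of_apply, Matrix.of_apply, p.1.2 k l, sg_swap]
    by_cases c : k = l
    · subst c; simp [sg_self]
    · rw [if_neg c, if_neg (Ne.symm c)]; ring⟩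
  left_inv m := Subtype.ext (Matrix.ext fun k l => by
    show sg k l * (sg k l * m.1 k l) + (if k = l then m.1 k k else 0) = m.1 k l
    by_cases c : k = l
    · subst c; simp [sg_self]
    · rw [if_neg c, ← mul_assoc, sg_sq c]; ring)
  right_inv p := Prod.ext (Subtype.ext (Matrix.ext fun k l => by
    show sg k l * (sg k l * p.1.1 k l + if k = l then p.2 k else 0) = p.1.1 k l
    by_cases c : k = l
    · subst c
      have := p.1.2 k k
      rw [sg_self, zero_mul]
      linear_combination (-1 / 2 : ℂ) * this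
    · rw [if_neg c, add_zero, ← mul_assoc, sg_sq c, one_mul])) (funext fun k => by
    show sg k k * p.1.1 k k + (if k = k then p.2 k else 0) = p.2 k
    simp [sg_self])

theorem sy_rank (h : ℕ) : Module.finrank ℂ (Sy h 1) = Module.finrank ℂ (Sy h (-1)) + h := by
  rw [(eqv h).finrank_eq, Module.finrank_prod, Module.finrank_fin_fun]

variable {n h : ℕ} {V : Mf n} {B : Mf (n + n)} {a b : B.X → V.X} {σ : B.X → B.X} {L : Bd V.X}
  {D : Set (V.prod V).X}

/-- the section of a matrix -/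
def Ph (a b : B.X → V.X) (s : Fin h → Γ n L) :
    Matrix (Fin h) (Fin h) ℂ →ₗ[ℂ] ((bx a b L).ι → B.X → ℂ) where
  toFun m i z := ∑ l, (∑ k, m k l * (s k).1 i.1 (a z)) * (s l).1 i.2 (b z)
  map_add' m m' := funext fun i => funext fun z => by
    simp only [Matrix.add_apply, Pi.add_apply, add_mul, Finset.sum_add_distrib]
  map_smul' c m := funext fun i => funext fun z => by
    simp only [Matrix.smul_apply, Pi.smul_apply, smul_eq_mul, RingHom.id_apply, Finset.mul_sum,
      Finset.sum_mul, mul_assoc]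

theorem Ph_apply (s : Fin h → Γ n L) (m : Matrix (Fin h) (Fin h) ℂ) (i : (bx a b L).ι) (z : B.X) :
    Ph a b s m i z = ∑ l, (∑ k, m k l * (s k).1 i.1 (a z)) * (s l).1 i.2 (b z) := rfl

theorem Ph_mem (ha : HolM (n + n) n a) (hb : HolM (n + n) n b) (s : Fin h → Γ n L)
    (m : Matrix (Fin h) (Fin h) ℂ) : Ph a b s m ∈ Γ (n + n) (bx a b L) := by
  have h1 : Ph a b s m = ∑ l, ∑ k, m k l •
      fun (i : (bx a b L).ι) z => (s k).1 i.1 (a z) * (s l).1 i.2 (b z) := by
    funext i z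
    simp only [Ph_apply, Finset.sum_apply, Pi.smul_apply, smul_eq_mul, Finset.sum_mul, mul_assoc]
  rw [h1]
  refine Submodule.sum_mem _ fun l _ => Submodule.sum_mem _ fun k _ => Submodule.smul_mem _ _ ?_
  refine ⟨isSec_of (fun i z hz => (ha.hol (sec_hol (s k).2.1 hz.1)).mul
    (hb.hol (sec_hol (s l).2.1 hz.2))) fun i j z hi hj => ?_, fun i z hz => ?_⟩
  · show _ = L.g i.1 j.1 (a z) * L.g i.2 j.2 (b z) * _
    rw [(s k).2.1.change i.1 j.1 _ hi.1 hj.1, (s l).2.1.change i.2 j.2 _ hi.2 hj.2]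
    ring
  · rcases not_and_or.1 hz with c | c
    · exact mul_eq_zero_of_left ((s k).2.2 _ _ c) _
    · exact mul_eq_zero_of_right _ ((s l).2.2 _ _ c)

theorem ind {s : Fin h → Γ n L} (hs : LinearIndependent ℂ s) {c : Fin h → ℂ}
    (k : ∀ i x, ∑ l, c l * (s l).1 i x = 0) (l : Fin h) : c l = 0 := by
  refine Fintype.linearIndependent_iff.1 hs c (Subtype.ext (funext fun i => funext fun x => ?_)) l
  rw [Submodule.coe_sum, Finset.sum_apply, Finset.sum_apply]
  exact k i x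

theorem Ph_inj (hm : Modif (n + n) (fun z => V.pair V (a z) (b z)) D) {s : Fin h → Γ n L}
    (hs : LinearIndependent ℂ s) : Function.Injective (Ph a b s) := by
  refine (injective_iff_map_eq_zero _).2 fun m h0 => Matrix.ext fun k l => ?_
  refine ind hs (c := fun k => m k l) (fun i x => ?_) k
  refine ind hs (c := fun l => ∑ k, m k l * (s k).1 i x) (fun j y => ?_) l
  obtain ⟨z, hz⟩ := hm.surj (V.pair V x y)
  obtain ⟨rfl, rfl⟩ := pair_inj.1 hz
  exact congrFun (congrFun h0 (i, j)) z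

theorem Ph_onto (hm : Modif (n + n) (fun z => V.pair V (a z) (b z)) D) (ha : HolM (n + n) n a)
    (hb : HolM (n + n) n b) (hL : IsLB n L) [FiniteDimensional ℂ (Γ n L)]
    (s : Module.Basis (Fin h) ℂ (Γ n L)) {t} (ht : t ∈ Γ (n + n) (bx a b L)) :
    ∃ m, Ph a b s m = t := by
  classical
  obtain ⟨u, hu, hut⟩ := En.push (n + n) (V.prod V) B _ D (bx (V.p1 V) (V.p2 V) L) t hm
    (lb_mul (hol_p1.lb hL) (hol_p2.lb hL)) ht.1
  have s2 : ∀ i x, x ∈ L.U i → IsSec n L fun j y => u (i, j) (V.pair V x y) := fun i x hx =>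
    isSec_of (fun j y hy => (emb_slice2 x).hol.hol (sec_hol hu ⟨hx, hy⟩)) fun j j' y hy hy' => by
      rw [hu.change (i, j) (i, j') _ ⟨hx, hy⟩ ⟨hx, hy'⟩]
      show L.g i i x * L.g j j' y * _ = _
      rw [lb_self hL hx, one_mul]
  have s1 : ∀ j y, y ∈ L.U j → IsSec n L fun i x => u (i, j) (V.pair V x y) := fun j y hy =>
    isSec_of (fun i x hx => (emb_slice1 y).hol.hol (sec_hol hu ⟨hx, hy⟩)) fun i i' x hx hx' => by
      rw [hu.change (i, j) (i', j) _ ⟨hx, hy⟩ ⟨hx', hy⟩]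
      show L.g i i' x * L.g j j y * _ = _
      rw [lb_self hL hy, mul_one]
  obtain ⟨sl, hsl, hsl'⟩ : ∃ sl : L.ι → V.X → Γ n L, (∀ i x j y, x ∈ L.U i → y ∈ L.U j →
      (sl i x).1 j y = u (i, j) (V.pair V x y)) ∧ ∀ i x, x ∉ L.U i → sl i x = 0 :=
    ⟨fun i x => if c : x ∈ L.U i then ⟨_, nm_mem hL (s2 i x c)⟩ else 0,
      fun i x j y hx hy => by simp only [dif_pos hx, nm_of hy], fun i x hx => dif_neg hx⟩
  let ev : L.ι → V.X → Γ n L →ₗ[ℂ] ℂ := fun j y =>
    { toFun := fun w => w.1 j y, map_add' := fun _ _ => rfl, map_smul' := fun _ _ => rfl }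
  have hsp : Submodule.span ℂ {f | ∃ j y, y ∈ L.U j ∧ f = ev j y} = ⊤ :=
    Submodule.span_eq_top_of_ne_zero fun w hw => by
      by_contra c
      refine hw (Subtype.ext (Γ_ext w.2 (Submodule.zero_mem _) fun j y hy => ?_))
      by_contra c'
      exact c ⟨ev j y, ⟨j, y, hy, rfl⟩, c'⟩
  have hc : ∀ f : Γ n L →ₗ[ℂ] ℂ, (fun i x => f (sl i x)) ∈ Γ n L := fun f => by
    have hf : f ∈ Submodule.span ℂ {f | ∃ j y, y ∈ L.U j ∧ f = ev j y} := hsp ▸ Submodule.mem_top
    induction hf using Submodule.span_induction with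
    | mem f hf =>
      obtain ⟨j, y, hy, rfl⟩ := hf
      exact ⟨isSec_congr hL (s1 j y hy) fun i x hx => hsl i x j y hx hy,
        fun i x hx => (congrArg (ev j y) (hsl' i x hx)).trans (map_zero _)⟩
    | zero => exact Submodule.zero_mem _
    | add f g _ _ hf hg => exact Submodule.add_mem _ hf hg
    | smul c f _ hf => exact Submodule.smul_mem _ c hf
  have hr : ∀ (w : Γ n L) i x, ∑ k, s.repr w k * (s k).1 i x = w.1 i x := fun w i x => by
    conv_rhs => rw [← s.sum_repr w, Submodule.coe_sum, Finset.sum_apply, Finset.sum_apply]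
    rfl
  refine ⟨Matrix.of fun k l => s.repr ⟨_, hc (s.coord l)⟩ k,
    Γ_ext (Ph_mem ha hb _ _) ht fun i z hz => ?_⟩
  refine Eq.trans ?_ (((hr (sl i.1 (a z)) i.2 (b z)).trans
    (hsl i.1 (a z) i.2 (b z) hz.1 hz.2)).trans (hut i z hz))
  rw [Ph_apply]
  refine Finset.sum_congr rfl fun l _ => ?_
  have h1 := hr ⟨_, hc (s.coord l)⟩ i.1 (a z)
  exact congrArg (· * (s l).1 i.2 (b z)) h1

theorem Ph_sw (sa : ∀ z, a (σ z) = b z) (sb : ∀ z, b (σ z) = a z) (s : Fin h → Γ n L)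
    (m : Matrix (Fin h) (Fin h) ℂ) (ε : ℂ) {i j : (bx a b L).ι} {z : B.X}
    (hi : z ∈ (bx a b L).U i) (hj : σ z ∈ (bx a b L).U j) :
    sw a b L ε i j z * Ph a b s m j (σ z) = Ph a b s (ε • mᵀ) i z := by
  have h1 : b z ∈ L.U j.1 := sa z ▸ hj.1
  have h2 : a z ∈ L.U j.2 := sb z ▸ hj.2
  simp only [Ph_apply, sw, sa, sb, Finset.mul_sum, Finset.sum_mul, Matrix.smul_apply,
    Matrix.transpose_apply, smul_eq_mul]
  rw [Finset.sum_comm]
  refine Finset.sum_congr rfl fun k _ => Finset.sum_congr rfl fun l _ => ?_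
  rw [(s l).2.1.change i.1 j.2 _ hi.1 h2, (s k).2.1.change i.2 j.1 _ hi.2 h1]
  ring

end Kun

open Kun in
/-- **row KUN** -/
theorem kun (hF : Ld.FIN) : KUN := by
  intro n V B a b σ L D hK hm sa sb hL
  haveI := hF V L hK hL
  have ha : HolM (n + n) n a := hol_p1.comp hm.hol
  have hb : HolM (n + n) n b := hol_p2.comp hm.hol
  have hl : IsLB (n + n) (bx a b L) := lb_mul (ha.lb hL) (hb.lb hL)
  let s : Module.Basis (Fin (h0 n L)) ℂ (Γ n L) := Module.finBasis ℂ (Γ n L)
  have hi := Ph_inj hm s.linearIndependent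
  have key : ∀ ε, hs (n + n) σ (bx a b L) (sw a b L ε) = Module.finrank ℂ (Sy (h0 n L) ε) := by
    intro ε
    have h1 : Γs (n + n) σ (bx a b L) (sw a b L ε) = (Sy (h0 n L) ε).map (Ph a b s) := by
      refine le_antisymm (fun t ht => ?_) ?_
      · obtain ⟨m, rfl⟩ := Ph_onto hm ha hb hL s ht.1
        have h2 : m = ε • mᵀ := hi (Γ_ext ht.1 (Ph_mem ha hb _ _) fun i z hz => by
          obtain ⟨j, hj⟩ := hl.cover (σ z)
          rw [← Ph_sw sa sb s m ε hz hj]
          exact ht.2 i j z hz hj)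
        exact ⟨m, fun k l => congrFun (congrFun h2 k) l, rfl⟩
      · rintro _ ⟨m, hm', rfl⟩
        refine ⟨Ph_mem ha hb _ _, fun i j z hz hj => ?_⟩
        rw [Ph_sw sa sb s m ε hz hj, ← show m = ε • mᵀ from Matrix.ext hm']
    rw [hs, h1]
    exact (LinearEquiv.finrank_eq (Submodule.equivMapOfInjective (Ph a b s) hi
      (Sy (h0 n L) ε))).symm
  rw [key, key, sy_rank]

end Vale.Agent.P280Z.Hr
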