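import Vale.Agent.P280Z.Hr.Nrm

/-!
# P280Z, block Hr: the Euler sequence on the projectivised tangent bundle
-/

open scoped Manifold ContDiff Topology Matrix
open Set Filter Function
open Vale.Agent.P272.K Vale.Agent.P285.H281.FD Vale.Agent.P281Z
open Vale.Agent.P277Z (Hol at_chart hol_const)
open Vale.Agent.P277Z.Slc (dd)
open Vale.Agent.P231.ChW (NewtonRec)

noncomputable section

namespace Vale.Agent.P280Z.Hr

namespace PtaH

open NrmH

variable {d N : ℕ} {V : Mf (d + 1)} (P : PB (tanV V) N) {p : P.P.X} {a : P.H.ι}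
  {e : Chart (d + 1) V.X}

/-- the preferred chart of the base -/
abbrev e0 (p : P.P.X) : Chart (d + 1) V.X := chartAt (Cm (d + 1)) (P.pr p)

/-- the model space -/
abbrev r0 (d : ℕ) : Chart (d + 1) (Cm (d + 1)) := OpenPartialHomeomorph.refl _

theorem at_r0 (v : Cm (d + 1)) : At (r0 d) v := at_chart v

/-- the tautological vector -/
def tau (p : P.P.X) : Cm (d + 1) := P.x (e0 P p) (P.lb.cover p).choose p

theorem tau_eq (he : At e (P.pr p)) (ha : p ∈ P.H.U a) :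
    tau P p = cf P.H a p • df (fun y => y) e (e0 P p) (P.pr p) (P.x e a p) := by
  have h0 := at_chart (n := d + 1) (P.pr p)
  rw [tau, P.xH _ _ a p h0 (P.lb.cover p).choose_spec ha, P.xE _ e a p h0 he ha, cf,
    dif_pos (P.lb.cover p), ← dfM_mulVec]
  rfl

theorem tau_ne (p : P.P.X) : tau P p ≠ 0 :=
  P.xnz _ _ p (at_chart (n := d + 1) (P.pr p)) (P.lb.cover p).choose_spec

theorem pt_tau (p : P.P.X) : P.pt (e0 P p) (P.pr p) (tau P p) = p :=
  P.pt_x' (at_chart (n := d + 1) (P.pr p)) (P.lb.cover p).choose_spec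

theorem hol_id (v : Cm (d + 1)) (j : Fin (d + 1)) : Hol (d + 1) (fun z : Cm (d + 1) => z j) v :=
  Hol.of_chart (at_r0 v) ((ContinuousLinearMap.proj j : Cm (d + 1) →L[ℂ] ℂ).analyticAt v)

theorem holA_pt {y : V.X} (he : At e y) {v : Cm (d + 1)} (hv : v ≠ 0) :
    HolA (d + 1) N (fun z : Cm (d + 1) => P.pt e y z) v :=
  P.holA (g := fun _ => y) ((holM_const y).at v) he (hol_id v) hv

/-- the Euler map -/
def phi (p : P.P.X) : Cm (d + 1) →ₗ[ℂ] Cm N :=
  (df (fun z : Cm (d + 1) => P.pt (e0 P p) (P.pr p) z) (r0 d) (chartAt (Cm N) p) (tau P p) :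
    Cm (d + 1) →L[ℂ] Cm N)

/-- the tautological section -/
def sig (p : P.P.X) : (Fin 1 → ℂ) →ₗ[ℂ] Cm (d + 1) := (LinearMap.proj 0).smulRight (tau P p)

theorem at_tau (p : P.P.X) : At (chartAt (Cm N) p) (P.pt (e0 P p) (P.pr p) (tau P p)) := by
  rw [pt_tau]
  exact at_chart p

theorem phi_ker (p : P.P.X) (w : Cm (d + 1)) :
    phi P p w ∈ LinearMap.ker (Df N (d + 1) P.pr p) := by
  have h0 := at_chart (n := d + 1) (P.pr p)
  have k := df_comp (g := P.pr) (e'' := e0 P p) (P.hol.at _) (holA_pt P h0 (tau_ne P p)) (at_r0 _)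
    (at_tau P p) (by rw [pt_tau]; exact h0)
  rw [pt_tau, df_congr (f' := fun _ => P.pr p) (.of_forall fun z => P.pr_pt _ _ h0 z) (at_r0 _)] at k
  exact (DFunLike.congr_fun k w).symm.trans (by simp [df])

theorem phi_zero (p : P.P.X) (w : Cm (d + 1)) : phi P p w = 0 ↔ ∃ c : ℂ, c • tau P p = w := by
  obtain ⟨l, hl⟩ := Function.ne_iff.1 (tau_ne P p)
  have hl' : tau P p l ≠ 0 := hl
  have k := P.df_eq_zero (g := fun _ => P.pr p) (s := fun z => z) ((holM_const _).at _)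
    (at_chart (n := d + 1) (P.pr p)) (hol_id (tau P p)) hl' (at_r0 _) (at_chart _) (at_tau P p)
    (ξ := w)
  have e1 : ∀ j, dd (fun z : Cm (d + 1) => z j / z l) (r0 d) (tau P p) w =
      (w j * tau P p l - tau P p j * w l) / tau P p l ^ 2 := fun j => by
    have := ((hasFDerivAt_apply (𝕜 := ℂ) j (tau P p)).mul
      ((hasFDerivAt_inv' hl').comp (f := fun z : Cm (d + 1) => z l) (tau P p)
        (hasFDerivAt_apply (𝕜 := ℂ) l (tau P p)))).fderiv
    refine (DFunLike.congr_fun (show _ = _ from this) w).trans ?_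
    simp
    field_simp
    ring
  refine k.trans ⟨fun h => ⟨w l / tau P p l, funext fun j => ?_⟩, ?_⟩
  · have := h.2 j
    rw [e1, div_eq_zero_iff, or_iff_left (pow_ne_zero 2 hl'), sub_eq_zero] at this
    rw [Pi.smul_apply, smul_eq_mul, div_mul_eq_mul_div, div_eq_iff hl', this, mul_comm]
  · rintro ⟨c, rfl⟩
    refine ⟨by simp [df], fun j => ?_⟩
    rw [e1, Pi.smul_apply, Pi.smul_apply, smul_eq_mul, smul_eq_mul, div_eq_zero_iff]
    exact .inl (by ring)

theorem sig_hom : IsHom N (VB.triv P.P.X 1) (((VB.tan (d + 1) V.X).pull P.pr).tw P.H) (sig P) := by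
  intro p
  obtain ⟨a, ha⟩ := P.lb.cover p
  have he := at_chart (n := d + 1) (P.pr p)
  refine ⟨(), (e0 P p, a), trivial, ⟨he, ha⟩, fun q => Matrix.of fun j _ => P.x (e0 P p) a q j,
    fun c hc j k => ((P.xhol _ a p he ha j c hc).restrictScalars (𝕜 := ℝ)).contDiffAt, ?_⟩
  filter_upwards [P.near he ha] with q hq
  refine LinearMap.ext fun (v : Fin 1 → ℂ) => ?_
  show v 0 • tau P q = cf P.H a q • df (fun y => y) (e0 P p) (e0 P q) (P.pr q)
    (Matrix.toLin' (Matrix.of fun j (_ : Fin 1) => P.x (e0 P p) a q j) v)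
  rw [tau_eq P hq.1 hq.2, smul_comm, ← map_smul]
  refine congrArg (fun w => cf P.H a q • df _ _ _ _ w) (funext fun j => ?_)
  simp [Matrix.mulVec, dotProduct, mul_comm]

theorem phi_hom : IsHom N (((VB.tan (d + 1) V.X).pull P.pr).tw P.H) (VB.tan N P.P.X) (phi P) := by
  intro p
  obtain ⟨a, ha⟩ := P.lb.cover p
  have he := at_chart (n := d + 1) (P.pr p)
  have hc := at_chart (n := N) p
  set e := e0 P p
  set c := chartAt (Cm N) p
  set F := fun q : Cm (d + 1) × Cm (d + 1) => c (P.pt e (e.symm q.1) q.2)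
  have hF : ∀ q, P.pr q ∈ (tanV V).U e → q ∈ P.H.U a → At c q →
      AnalyticAt ℂ F (e (P.pr q), P.x e a q) := fun q h1 h2 h3 =>
    P.an' h1 (P.xnz _ _ _ h1 h2) h1 (by rwa [P.pt_x' h1 h2])
  refine ⟨(e, a), c, ⟨he, ha⟩, hc, fun q => LinearMap.toMatrix'
    (((fderiv ℂ F (e (P.pr q), P.x e a q)).comp (ContinuousLinearMap.inr ℂ _ _) :
      Cm (d + 1) →L[ℂ] Cm N) : Cm (d + 1) →ₗ[ℂ] Cm N), fun c' hc' j k => ?_, ?_⟩
  · have h1 := (((P.hol.at p).anV he).prod (AnV.pi (P.xhol e a p he ha))).cmp (hF p he ha hc).fderiv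
    have h2 := (h1.cmp (((ContinuousLinearMap.apply ℂ (Cm N)
      ((0, Pi.single k 1) : Cm (d + 1) × Cm (d + 1))).analyticAt _))).hol j c' hc'
    exact (h2.restrictScalars (𝕜 := ℝ)).contDiffAt
  · filter_upwards [P.near he ha, at_near hc] with q hq hq'
    refine LinearMap.ext fun (w : Cm (d + 1)) => ?_
    have h0 := at_chart (n := d + 1) (P.pr q)
    have hx := P.xnz _ _ _ hq.1 hq.2
    have hA := holA_pt P hq.1 hx
    have k0 := P.pt_x' hq.1 hq.2
    let Λ : Cm (d + 1) →L[ℂ] Cm (d + 1) := cf P.H a q • df (fun y => y) e (e0 P q) (P.pr q)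
    have k1 : Λ (P.x e a q) = tau P q := (tau_eq P hq.1 hq.2).symm
    have k2 : ∀ᶠ v in 𝓝 (P.x e a q), P.pt (e0 P q) (P.pr q) (Λ v) = P.pt e (P.pr q) v := by
      filter_upwards [isOpen_ne.mem_nhds hx] with v hv
      rw [← P.pt_chg h0 hq.1 hv, ← P.pt_smul h0 (cf_ne P.lb hq.2) ((tanV V).mv_ne h0 hq.1 hv)]
      exact congrArg (fun u => P.pt _ _ (cf P.H a q • u)) (dfM_mulVec v).symm
    have k3 : HolA (d + 1) (d + 1) Λ (P.x e a q) := Λ.contMDiff.contMDiffAt
    have k4 := df_comp (g := fun z => P.pt (e0 P q) (P.pr q) z) (e'' := chartAt (Cm N) q)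
      (by rw [k1]; exact holA_pt P h0 (tau_ne P q)) k3 (at_r0 _) (at_r0 _)
      (by rw [k1]; exact at_tau P q)
    rw [df_congr k2 (at_r0 _), k1, show df Λ (r0 d) (r0 d) (P.x e a q) = Λ from Λ.fderiv] at k4
    have k5 := df_comp (g := fun z => z) (e' := c) (e'' := chartAt (Cm N) q) (holM_id.at _) hA
      (at_r0 _) (by rwa [k0]) (by rw [k0]; exact at_chart q)
    rw [k0] at k5
    have k6 : df (fun z : Cm (d + 1) => P.pt e (P.pr q) z) (r0 d) c (P.x e a q) =
        (fderiv ℂ F (e (P.pr q), P.x e a q)).comp (ContinuousLinearMap.inr ℂ _ _) := by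
      have := ((hF q hq.1 hq.2 hq').differentiableAt.hasFDerivAt.comp (P.x e a q)
        (hasFDerivAt_prodMk_right (e (P.pr q)) (P.x e a q))).fderiv
      rw [← this]
      have k7 : e.symm (e (P.pr q)) = P.pr q := e.left_inv hq.1.2
      simp only [df, F, Function.comp_def, k7]
      rfl
    refine ((DFunLike.congr_fun k4 w).symm.trans ((DFunLike.congr_fun k5 w).trans
      (congrArg (fun u : Cm (d + 1) →L[ℂ] Cm N => df _ _ _ _ (u w)) k6))).trans ?_
    exact congrArg (fun u : Cm (d + 1) →ₗ[ℂ] Cm N => df (fun z => z) c (chartAt (Cm N) q) q (u w))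
      (Matrix.toLin'_toMatrix' _).symm

theorem ses_tw (hv : VBL) {n : ℕ} {W : Mf n} {E' E E'' : VB W.X} {φ ψ} (h : Ses n E' E E'' φ ψ)
    {L : Bd W.X} (hL : IsLB n L) : Ses n (E'.tw L) (E.tw L) (E''.tw L) φ ψ :=
  ⟨hv.tw W _ L h.v1 hL, hv.tw W _ L h.v2 hL, hv.tw W _ L h.v3 hL, hv.htw L hL h.h1,
    hv.htw L hL h.h2, h.inj, h.ex, h.surj⟩

theorem tw_tw {n : ℕ} {W : Mf n} {E : VB W.X} (hE : IsVB n E) {L : Bd W.X} (hL : IsLB n L) :
    IsHom n ((E.tw L).tw (zp L (-1))) E fun _ => LinearMap.id := by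
  intro x
  obtain ⟨i, hi⟩ := hE.cover x
  obtain ⟨a, ha⟩ := hL.cover x
  refine ⟨((i, a), a), i, ⟨⟨hi, ha⟩, ha⟩, hi, fun _ => (1 : Matrix (Fin E.r) (Fin E.r) ℂ),
    fun _ _ _ _ => contDiffAt_const, ?_⟩
  filter_upwards [lb_near hL ha] with y hy
  have k : cf (zp L (-1)) a y * cf L a y = 1 := by
    have h : ∃ c, y ∈ L.U c := ⟨a, hy⟩
    have h1 : cf (zp L (-1)) a y = L.g h.choose a y ^ (-1 : ℤ) := dif_pos h
    have h2 : cf L a y = L.g h.choose a y := dif_pos h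
    rw [h1, h2, zpow_neg_one, inv_mul_cancel₀ (hL.ne_zero _ _ y h.choose_spec hy)]
  show LinearMap.id.comp (cf (zp L (-1)) a y • cf L a y • E.b i y) =
    (E.b i y).comp (Matrix.toLin' (1 : Matrix (Fin E.r) (Fin E.r) ℂ))
  rw [Matrix.toLin'_one, smul_smul, k, one_smul]
  rfl

/-- the relative tangent bundle -/
theorem rel (hv : VBL) (P : PB (tanV V) (d + 1 + d)) : ∃ (K : VB P.P.X) (φ ψ χ : _), K.r = d ∧
    Ses (d + 1 + d) K (VB.tan (d + 1 + d) P.P.X) ((VB.tan (d + 1) V.X).pull P.pr) φ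
      (Df (d + 1 + d) (d + 1) P.pr) ∧
    Ses (d + 1 + d) (VB.triv P.P.X 1) (((VB.tan (d + 1) V.X).pull P.pr).tw P.H) K ψ χ := by
  have hG := hv.pull _ P.hol (hv.tan V)
  have hs : ∀ p, Surjective (Df (d + 1 + d) (d + 1) P.pr p) := fun p =>
    P.sbm p _ _ (at_chart _) (at_chart _)
  obtain ⟨ι, U, b, h⟩ := hv.ker d (hv.tan P.P) hG (hv.df P.hol) hs (Nat.add_comm _ _)
  have hi : ∀ p, Injective (sig P p) := fun p => (injective_iff_map_eq_zero _).2 fun v k =>
    funext fun j => by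
      rw [Subsingleton.elim j 0]
      exact (smul_eq_zero.1 k).resolve_right (tau_ne P p)
  have he : ∀ p, Exact (sig P p) ((phi P p).codRestrict _ (phi_ker P p)) := fun p w =>
    Subtype.ext_iff.trans ((phi_zero P p w).trans
      ⟨fun ⟨c, k⟩ => ⟨fun _ => c, k⟩, fun ⟨c, k⟩ => ⟨c 0, k⟩⟩)
  have hsur : ∀ p, Surjective ((phi P p).codRestrict _ (phi_ker P p)) := fun p => by
    have k1 := ((phi P p).codRestrict _ (phi_ker P p)).finrank_range_add_finrank_ker
    have k2 := (Df (d + 1 + d) (d + 1) P.pr p).finrank_range_add_finrank_ker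
    rw [LinearMap.exact_iff.1 (he p), LinearMap.finrank_range_of_inj (hi p),
      Module.finrank_fin_fun, Module.finrank_fin_fun] at k1
    rw [LinearMap.range_eq_top.2 (hs p), finrank_top, Module.finrank_fin_fun,
      Module.finrank_fin_fun] at k2
    exact LinearMap.range_eq_top.1 (Submodule.eq_top_of_finrank_eq (by omega))
  exact ⟨_, _, sig P, fun p => (phi P p).codRestrict _ (phi_ker P p), rfl, h,
    hv.triv _ 1, hv.tw _ _ _ hG P.lb, h.v1, sig_hom P,
    hv.lift (G := ((VB.tan (d + 1) V.X).pull P.pr).tw P.H)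
      (E' := ⟨fun x => LinearMap.ker (Df (d + 1 + d) (d + 1) P.pr x), d, ι, U, b⟩)
      (χ := fun p => (phi P p).codRestrict _ (phi_ker P p)) h.v1 h.v2 h.h1 h.inj
      (phi_hom P), hi, he, hsur⟩

end PtaH

open PtaH NrmH in
/-- the characteristic classes of the projectivised tangent bundle, up to the degree -/
theorem ptx_of (hv : VBL) {T : CT} (hT : T.OK)
    (h1 : ∀ {d : ℕ} (V : Mf (d + 1)) (P : PB (tanV V) (d + 1 + d)), V.Prj →
      T.push P.pr (T.c1 P.P P.H ^ d) = 1) : PTX T := by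
  intro d V P hV
  obtain ⟨K, φ, ψ, χ, hr, s1, s2⟩ := rel hv P
  have hG := hv.pull _ P.hol (hv.tan V)
  have hz := lb_zp P.lb (-1)
  refine ⟨⟨P.hol, P.sbm⟩, hT.c1.deg _ _, fun k => ?_, fun e he => ?_, h1 V P hV⟩
  · have a := hT.ch.ses _ s2 (k + 1)
    rw [hT.ch.triv, zero_add, hT.ch.tw _ _ _ hG P.lb] at a
    rw [hT.ch.ses _ s1, ← a]
    simp only [hT.ch.pull P.hol _ (hv.tan V)]
    exact add_comm _ _
  · refine hT.ch.rank _ (K.tw (zp P.H (-1))) (hv.tw _ _ _ s1.v1 hz) e ?_ (d + 1)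
      (Nat.lt_succ_of_le hr.le)
    refine (congrArg (fun s => NewtonRec ℝ s e) (funext fun k => ?_)).mp he
    have a := hT.ch.ses _ (ses_tw hv s2 hz) k
    have z : T.c1 P.P (zp P.H (-1)) = -T.c1 P.P P.H := by
      have := hT.c1.triv P.P ((zp P.H (-1)).mul P.H) (fun i x => P.H.g i.2 i.1 x) (lb_mul hz P.lb)
        (isSec_of (fun i x h => lb_hol P.lb h.2 h.1) fun i j x hi hj => by
          show _ = _ ^ (-1 : ℤ) * _ * _
          rw [mul_assoc, P.lb.cocycle _ _ _ x hi.2 hj.2 hj.1, ← P.lb.cocycle _ _ _ x hi.2 hi.1 hj.1,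
            zpow_neg_one, mul_left_comm, inv_mul_cancel₀ (P.lb.ne_zero _ _ x hi.1 hj.1), mul_one])
        fun x i h => P.lb.ne_zero _ _ x h.2 h.1
      rw [hT.c1.mul _ _ _ hz P.lb] at this
      exact eq_neg_of_add_eq_zero_left this
    rw [hT.ch.iso _ (hv.tw _ _ _ (hv.tw _ _ _ hG P.lb) hz) hG (tw_tw hG P.lb)
      (fun _ => bijective_id), hT.ch.pull P.hol _ (hv.tan V)] at a
    rw [a, ← z, ← ps_ln hT hv _ hz]
    exact add_sub_cancel_left _ _

end Vale.Agent.P280Z.Hr
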