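import Vale.Agent.P280Z.Hr.TopB
import Vale.Agent.P280Z.Gm.Fibi
import Vale.Agent.P280Z.Gm.Lad
import Vale.Agent.P281Z.Pb.Ps

/-!
# P280Z, block Hr: the degree of the fibres of a projective bundle
-/

open scoped Manifold ContDiff Topology
open Set Filter
open Vale.Agent.P272.K Vale.Agent.P285.H281.FD Vale.Agent.P281Z Vale.Agent.P280Z.Ld
open Vale.Agent.P277.HD (pull)
open Vale.Agent.P277Z.Slc (dd Ind dd_mul dd_congr)
open Vale.Agent.P280Z.Gm.FibiH (pt sub_pt cart)

set_option linter.all false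

noncomputable section

namespace Vale.Agent.P280Z.Hr

namespace Pto

variable {T : CT} {n m d : ℕ}

theorem hc (V : Mf n) (y : V.X) : HolM 0 n fun _ : pt.X => y := contMDiff_const

/-- the value of a class at a point -/
def val (T : CT) (V : Mf n) (y : V.X) : T.H V →ₗ[ℝ] ℝ :=
  (T.int pt).comp (T.pull (hc V y)).toLinearMap

theorem val_apply (V : Mf n) (y : V.X) (a : T.H V) : val T V y a = T.int pt (T.pull (hc V y) a) :=
  rfl

theorem val_one (hT : T.OK) (V : Mf n) (y : V.X) : val T V y 1 = 1 := by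
  rw [val_apply, map_one, hT.rg.int_pt, Nat.card_unique, Nat.cast_one]

theorem val_push (hT : T.OK) {V : Mf n} {W : Mf m} {f : V.X → W.X} {y : W.X} (hn : n = m + d)
    (hf : Sub n m f) {F : Mf d} {i : F.X → V.X} (hi : Emb d n i (f ⁻¹' {y})) (a : T.H V) :
    val T W y (T.push f a) = T.int F (T.pull hi.hol a) :=
  (congrArg (T.int pt) (hT.pu.bc (cart hn hf hi) a)).trans (hT.pu.int (sub_pt F) _)

theorem dg_pow (hT : T.OK) {V : Mf n} {w : T.H V} (h : T.Dg V 1 w) : ∀ k, T.Dg V k (w ^ k)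
  | 0 => by rw [pow_zero]; exact hT.rg.dg_one V
  | k + 1 => by rw [pow_succ]; exact hT.rg.dg_mul V _ _ _ _ (dg_pow hT h k) h

theorem zero_of (hT : T.OK) {V : Mf n} {w a : T.H V} (hw : T.Kc V w) (ha : a ∈ T.Ty V)
    (h0 : T.Dg V 0 a) (h : T.int V (a * a * w ^ n) = 0) : a = 0 := by
  by_contra c
  have h1 : w ^ (n + 1) = 0 := by
    rw [← dg_pow hT (hT.po.deg hw) (n + 1)]
    exact hT.rg.pr_zero V _ _ n.lt_succ_self
  have h2 := hT.ho.hr hw 0 n (by omega) a ha h0 (by rw [h1, zero_mul]) c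
  rw [h, mul_zero] at h2
  exact lt_irrefl _ h2

theorem dg0 (hT : T.OK) (V : Mf 0) (a : T.H V) : T.Dg V 0 a := by
  have h := hT.rg.pr_sum V a
  rwa [zero_add, Finset.sum_range_one] at h

theorem pt_zero (hT : T.OK) (V : Mf 0) {w a : T.H V} (hw : T.Kc V w) (ha : a ∈ T.Ty V)
    (h : ∀ y, val T V y a = 0) : a = 0 := by
  classical
  haveI := Gm.LadH.fin0 V
  haveI := Fintype.ofFinite V.X
  have hs : ∀ y : V.X, Sub 0 0 fun _ : pt.X => y := fun y =>
    ⟨hc V y, fun _ _ _ _ _ v => ⟨0, Subsingleton.elim _ v⟩⟩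
  have h1 : ∀ y b, T.int V (T.push (V := pt) (fun _ => y) 1 * b) = val T V y b := fun y b => by
    rw [← hT.pu.proj (hs y), hT.pu.int (hs y), one_mul, val_apply]
  have h2 : ∀ y z, val T V y (T.push (V := pt) (fun _ => z) 1) = if z = y then 1 else 0 := by
    intro y z
    obtain ⟨F, i, hi⟩ := (Gm.fibi T hT (d := 0) _ y rfl (hs z)).1
    rw [val_push hT rfl (hs z) hi, (Gm.LadH.cnt0 hT hi).2]
    split_ifs with c
    · rw [show (fun _ : pt.X => z) ⁻¹' {y} = {default} from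
        Set.ext fun u => ⟨fun _ => Subsingleton.elim _ _, fun _ => c⟩, ncard_singleton, Nat.cast_one]
    · rw [show (fun _ : pt.X => z) ⁻¹' {y} = ∅ from Set.ext fun u => ⟨c, False.elim⟩, ncard_empty,
        Nat.cast_zero]
  set u := ∑ y : V.X, T.push (V := pt) (fun _ => y) 1 with hu
  have h3 : ∀ b, T.int V (u * b) = ∑ y, val T V y b := fun b => by
    simp only [hu, Finset.sum_mul, map_sum, h1]
  have h4 : ∀ y, val T V y (1 - u) = 0 := fun y => by
    simp [hu, map_sum, h2, val_one hT]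
  have h5 : 1 - u = 0 := zero_of hT hw (sub_mem (one_mem _)
    (sum_mem fun y _ => hT.tp.push (hs y) (one_mem _))) (dg0 hT V _) (by
      have h6 := h3 1
      rw [mul_one] at h6
      rw [pow_zero, mul_one, sub_mul, one_mul, map_sub, h3, map_sub, h6, hT.rg.int_pt]
      simp [h4, val_one hT])
  refine zero_of hT hw ha (dg0 hT V _) ?_
  rw [pow_zero, mul_one, ← one_mul (a * a), sub_eq_zero.1 h5, h3]
  refine Finset.sum_eq_zero fun y _ => ?_
  obtain ⟨c, e⟩ := hT.rg.h0 pt inferInstance _ (dg0 hT pt (T.pull (hc V y) a))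
  have h6 := h y
  rw [val_apply, e, Algebra.algebraMap_eq_smul_one, map_smul, hT.rg.int_pt, Nat.card_unique,
    Nat.cast_one, smul_eq_mul, mul_one] at h6
  rw [val_apply, map_mul, e, h6, map_zero, mul_zero, map_zero]

/-- a class of degree zero which vanishes at all points vanishes -/
theorem pt0 (hL : LD) (hT : T.OK) : ∀ (n : ℕ) (V : Mf n) (A : Bd V.X), IsLB n A →
    T.Kc V (T.c1 V A) → Bpf n A → ∀ a ∈ T.Ty V, T.Dg V 0 a → (∀ y, val T V y a = 0) → a = 0
  | 0, V, _, _, hw, _, _, ha, _, h => pt_zero hT V hw ha h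
  | n + 1, V, A, hA, hw, hb, a, ha, h0, h => by
    obtain ⟨s, Z, i, c⟩ := Tp.ex_cut hL V hA hb
    have h1 := pt0 hL hT n Z (pull i A) (c.emb.hol.lb hA) (by
        rw [hT.c1.pull c.emb.hol A hA]
        exact Tp.kc_pull hT _ c.emb.imm hw) (Tp.bpf_pull c.emb.hol hb) _ (hT.tp.pull c.emb.hol ha)
      (by rw [CT.Dg, ← hT.rg.pull_pr, h0]) fun y => by
        rw [val_apply, ← hT.rg.pull_comp (hc Z y) c.emb.hol (hc V (i y)) fun _ => rfl]
        exact h (i y)
    refine zero_of hT hw ha h0 ?_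
    rw [show a * a * T.c1 V A ^ (n + 1) = T.c1 V A * (a * (a * T.c1 V A ^ n)) by ring, hT.pl c,
      map_mul, h1, zero_mul, map_zero]

/-- the degree of the projective space -/
theorem deg_ps (hT : T.OK) {r : ℕ} (S : PS r) : T.int S.P (T.c1 S.P S.H ^ r) = 1 := by
  have hs : ∀ i : Fin r, IsSec r S.H fun a p => S.x a p i.castSucc := fun i => S.sec _
  rw [((Gm.cnt T hT).1 S.P S.H _ S.lb hs fun j hj p a hp h => ?_).2]
  · have hv : (Pi.single (Fin.last r) 1 : Cm (r + 1)) ≠ 0 := fun c => by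
      simpa using congrFun c (Fin.last r)
    rw [Nat.cast_eq_one, ncard_eq_one]
    refine ⟨S.pt (Pi.single (Fin.last r) 1), Set.ext fun p => ?_⟩
    obtain ⟨a, ha⟩ := S.lb.cover p
    rw [Gm.LadH.mem_bs S.lb hs ha]
    refine ⟨fun h => ?_, ?_⟩
    · have h1 : S.x a p = S.x a p (Fin.last r) • (Pi.single (Fin.last r) 1 : Cm (r + 1)) := by
        funext l
        refine Fin.lastCases (by simp) (fun i => ?_) l
        simp [h i, Fin.castSucc_ne_last]
      rw [mem_singleton_iff, ← S.pt_x' ha, h1, S.pt_smul (fun c => S.xnz a p ha (by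
        rw [h1, c, zero_smul])) hv]
    · rintro rfl i
      by_contra c
      exact (S.x_ne_iff hv ha _).1 c (by simp [Fin.castSucc_ne_last])
  · obtain ⟨l, hl⟩ := Function.ne_iff.1 (S.xnz a p hp)
    choose b hb using fun i : Fin j => Fin.exists_succAbove_eq
      (show (Fin.castLE hj i).castSucc ≠ l from fun c => hl (c ▸ h i))
    have hi := S.ind hp hl
    refine ⟨fun i => S.xhol hp _, fun e he => ?_⟩
    have h1 := ((hi.2 e he).comp b fun i i' c => Fin.castLE_injective hj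
      (Fin.castSucc_injective _ (by rw [← hb, ← hb, c]))).units_smul fun _ => Units.mk0 _ hl
    refine (congrArg (fun f : Fin j → Cm r →L[ℂ] ℂ => LinearIndependent ℂ f)
      (funext fun i => ?_)).mp h1
    refine (dd_mul (S.xhol hp l) (hi.1 (b i)) (by simp only [hb, h i, zero_div]) he).symm.trans
      (dd_congr ?_ he)
    filter_upwards [(S.xhol hp l).cont.eventually_ne hl] with q hq
    rw [hb, mul_div_cancel₀ _ hq]

end Pto

open Pto in
/-- the fibres of a projective bundle have the degree one -/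
theorem pto (hL : LD) {T : CT} (hT : T.OK) {n r N : ℕ} {V : Mf n} {E : P281Z.VB (r + 1) V}
    (P : PB E N) (hV : V.Prj) : T.push P.pr (T.c1 P.P P.H ^ r) = 1 := by
  obtain ⟨L, h1, h2⟩ := hV
  obtain ⟨k, _, s, hk, hs⟩ := hL.va V L h1 h2
  have hp : Sub N n P.pr := ⟨P.hol, P.sbm⟩
  refine sub_eq_zero.1 (pt0 hL hT n V (L.pow k) hs.lb ?_ (fun x => ?_) _
    (sub_mem (hT.tp.push hp (pow_mem (hT.tp.c1 _ _ P.lb) r)) (one_mem _)) ?_ fun y => ?_)
  · rw [hT.c1.pow V L k h1]
    exact hT.po.smul _ (Nat.cast_pos.2 hk) (hT.c1.pos V L h1 h2)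
  · obtain ⟨j, hj⟩ := not_forall.1 (show x ∉ Bs (L.pow k) s from hs.bpf ▸ notMem_empty x)
    exact ⟨s j, (hs.sec j).1, not_not.1 hj⟩
  · rw [CT.Dg, map_sub, hT.pu.deg hp r P.dim, zero_add, dg_pow hT (hT.c1.deg _ _) r,
      hT.rg.dg_one V]
  · obtain ⟨S⟩ := Pb.psex r
    obtain ⟨i, hi⟩ := E.cover y
    obtain ⟨φ, e1, e2, -⟩ := P.fib_emb S hi
    have h3 : ∀ b a p, p ∈ S.H.U b → φ p ∈ P.H.U a →
        S.x b p = P.sc i a y (S.x b p) • P.x i a (φ p) := fun b a p hb ha => by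
      rw [e2 b p hb] at ha ⊢
      exact P.sc_spec hi (S.xnz b p hb) ha
    have h4 : LRel r S.H (pull φ P.H) fun b a p => P.sc i a y (S.x b p) := by
      refine ⟨fun b a p hb ha => P.sc_hol (g := fun _ => y) (HolM.at contMDiff_const p) hi
        (S.xhol hb) (S.xnz b p hb) (e2 b p hb ▸ ha), fun b a p hb ha =>
        P.sc_ne hi (S.xnz b p hb) (e2 b p hb ▸ ha), fun b b' a a' p hb hb' ha ha' => ?_⟩
      have h5 : P.pr (φ p) ∈ E.U i := (show P.pr (φ p) = y from e1.mem p).symm ▸ hi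
      refine smul_left_injective ℂ (P.xnz i a' _ h5 ha') ?_
      show (_ * P.H.g a a' (φ p)) • _ = (_ * _) • _
      rw [mul_smul, mul_smul, ← P.xH i a a' _ h5 ha ha', ← h3 b a p hb ha, ← h3 b' a' p hb' ha',
        ← S.x_chg hb hb']
    rw [map_sub, val_one hT, val_push hT P.dim hp e1, map_pow, ← hT.c1.pull e1.hol _ P.lb,
      ← (hL.iso S.P _ _ _ S.lb (e1.hol.lb P.lb) h4).1 T hT.c1, deg_ps hT, sub_self]

end Vale.Agent.P280Z.Hr
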