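import Vale.Agent.P280Z.Hr.Sk
import Vale.Agent.P280Z.Ld.Api

/-!
# P280Z, block Hr: refinements, products, and the trivial involution
-/

open Vale.Agent.P272.K Vale.Agent.P285.H281.FD Vale.Agent.P281Z Vale.Agent.P280Z.Ld
open Vale.Agent.P277Z (Hol hol_const)

noncomputable section

namespace Vale.Agent.P280Z.Hr

theorem ref (h : ISO) : REF := by
  intro n V σ
  refine ⟨fun L L' t t' φ hL hL' h1 h2 h3 => ?_,
    fun α _ N H t u k ε he hN hH => ⟨lz_lin hN hH k, hN.hol, hN.inv, lb_lin (fun j => (hH j).lb) k,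
      ⟨fun a b x ha hb => (hol_const ε x).mul (Hol.prod _ fun j _ =>
        ((hH j).rel.hol _ _ x (ha j) (hb j)).zpow ((hH j).rel.ne _ _ x (ha j) (hb j)) _),
      fun a b x ha hb => mul_ne_zero (left_ne_zero_of_mul_eq_one he) (Finset.prod_ne_zero_iff.2
        fun j _ => zpow_ne_zero _ ((hH j).rel.ne _ _ x (ha j) (hb j))),
      fun a a' b b' x k1 k2 k3 k4 => ?_⟩, fun a b c x ha hb hc => ?_⟩,
    fun L t e hL => ⟨fun k => ?_, fun k => ?_⟩⟩
  · obtain ⟨-, Φ, hΦ⟩ := h V L L' (fun a b => L'.g (φ a) b) hL.lb hL'.lb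
      ⟨fun a b x ha hb => lb_hol hL'.lb (h1 a ha) hb,
        fun a b x ha hb => hL'.lb.ne_zero _ _ x (h1 a ha) hb, fun a a' b b' x k1 k2 k3 k4 => by
          rw [h2 a a' x k1 k2, hL'.lb.cocycle _ _ _ x (h1 a k1) k3 k4,
            hL'.lb.cocycle _ _ _ x (h1 a k1) (h1 a' k2) k4]⟩
    have k : ∀ (s : Γ n L') a x, x ∈ L.U a → (Φ s).1 a x = s.1 (φ a) x := fun s a x ha => by
      rw [hΦ s a _ x ha (h1 a ha), lb_self hL'.lb (h1 a ha), one_mul]
    have e : ((Γs n σ L t).comap (Γ n L).subtype).comap (Φ : Γ n L' →ₗ[ℂ] Γ n L) =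
        (Γs n σ L' t').comap (Γ n L').subtype := by
      ext s
      refine ⟨fun hs => ⟨s.2, fun a' b' x ha' hb' => ?_⟩, fun hs => ⟨(Φ s).2, fun a b x ha hb => ?_⟩⟩
      · obtain ⟨a, ha⟩ := hL.lb.cover x
        obtain ⟨b, hb⟩ := hL.lb.cover (σ x)
        have k1 : (Φ s).1 a x = t a b x * (Φ s).1 b (σ x) := hs.2 a b x ha hb
        have k2 : t' a' b' x * L'.g b' (φ b) (σ x) = _ :=
          hL'.rel.chg a' (φ a) b' (φ b) x ha' (h1 a ha) hb' (h1 b hb)
        rw [k s a x ha, k s b _ hb, h3 a b x ha hb] at k1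
        show s.1 a' x = t' a' b' x * s.1 b' (σ x)
        rw [s.2.1.change a' _ x ha' (h1 a ha), s.2.1.change b' _ _ hb' (h1 b hb), k1, ← mul_assoc,
          ← mul_assoc, k2]
      · show (Φ s).1 a x = t a b x * (Φ s).1 b (σ x)
        rw [k s a x ha, k s b _ hb, h3 a b x ha hb]
        exact hs.2 _ _ x (h1 a ha) (h1 b hb)
    have e1 := (Φ.ofSubmodule' ((Γs n σ L t).comap (Γ n L).subtype)).finrank_eq
    rw [e] at e1
    exact (Submodule.comapSubtypeEquivOfLe inf_le_left).finrank_eq.symm.trans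
      (e1.symm.trans (Submodule.comapSubtypeEquivOfLe inf_le_left).finrank_eq)
  · change ε * (∏ j, _) * ∏ j, (H j).g _ _ (σ x) ^ k j = (∏ j, (H j).g _ _ x ^ k j) * (ε * ∏ j, _)
    rw [mul_assoc, mul_left_comm _ ε, ← Finset.prod_mul_distrib, ← Finset.prod_mul_distrib]
    exact congrArg _ (Finset.prod_congr rfl fun j _ => by
      rw [← mul_zpow, ← mul_zpow]
      exact congrArg (· ^ k j) ((hH j).rel.chg _ _ _ _ x (k1 j) (k2 j) (k3 j) (k4 j)))
  · change ε * (∏ j, _) * (ε * ∏ j, _) = ∏ j, (H j).g _ _ x ^ k j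
    rw [mul_mul_mul_comm, he, one_mul, ← Finset.prod_mul_distrib]
    exact Finset.prod_congr rfl fun j _ => by
      rw [← mul_zpow, (hH j).sq _ _ _ x (ha j) (hb j) (hc j)]
  · have k1 : Γs n σ L t = Γ n L := inf_eq_left.2 fun s hs a b x ha hb => by
      rw [e] at hb ⊢
      rw [k a b x ha hb]
      exact hs.1.change a b x ha hb
    rw [hs, k1, h0]
  · have k1 : Γs n σ L t = ⊥ := eq_bot_iff.2 fun s hs => Γ_ext hs.1 (zero_mem _) fun a x ha => by
      have k2 := hs.2 a a x ha (by rwa [e])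
      rw [e, k a a x ha ha, lb_self hL ha, neg_one_mul] at k2
      exact self_eq_neg.1 k2
    rw [hs, k1, finrank_bot]

end Vale.Agent.P280Z.Hr
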