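import Vale.Agent.P280Z.Hr.Sk
import Vale.Agent.P280Z.Ld.Api

/-!
# P280Z, block Hr: the lift of the swap
-/

open scoped Manifold ContDiff Topology
open Set Filter
open Vale.Agent.P272.K Vale.Agent.P285.H281.FD Vale.Agent.P281Z Vale.Agent.P280Z.Ld
open Vale.Agent.P277Z (Hol hol_const)
open Vale.Agent.P277.HD (pull)

noncomputable section

namespace Vale.Agent.P280Z.Hr

namespace Swp

/-- a section that does not vanish at two given points -/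
theorem two {n : ℕ} {V : Mf n} {L : Bd V.X} (hL : IsLB n L) (h : Bpf n L) (x y : V.X) :
    ∃ s, IsSec n L s ∧ NZ L s x ∧ NZ L s y := by
  obtain ⟨s, s1, s2⟩ := h x
  obtain ⟨t, t1, t2⟩ := h y
  by_cases k : NZ L s y
  · exact ⟨s, s1, s2, k⟩
  by_cases k' : NZ L t x
  · exact ⟨t, t1, k', t2⟩
  refine ⟨s + t, isSec_of (fun a _ ha => (sec_hol s1 ha).add (sec_hol t1 ha)) fun a b z ha hb => ?_,
    fun a ha => ?_, fun a ha => ?_⟩
  · simp only [Pi.add_apply, s1.change a b z ha hb, t1.change a b z ha hb, mul_add]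
  · rw [Pi.add_apply, Pi.add_apply, (not_nz hL t1 ha).1 k', add_zero]
    exact s2 a ha
  · rw [Pi.add_apply, Pi.add_apply, (not_nz hL s1 ha).1 k, zero_add]
    exact t2 a ha

end Swp

theorem swp : SWP := by
  intro n m V B a b σ L ha hb hσ inv sa sb hL
  have lb : IsLB m (bx a b L) := lb_mul (ha.lb hL) (hb.lb hL)
  have k : ∀ {y j}, σ y ∈ (bx a b L).U j → a y ∈ L.U j.2 ∧ b y ∈ L.U j.1 := fun {y _} h =>
    ⟨sb y ▸ h.2, sa y ▸ h.1⟩
  refine ⟨fun ε hε => ⟨hσ, inv, lb, ⟨fun i j y hi hj => ?_, fun i j y hi hj => ?_,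
    fun i i' j j' y hi hi' hj hj' => ?_⟩, fun i j l y hi hj hl => ?_⟩, fun h z => ?_⟩
  · exact (hol_const ε y).mul ((ha.hol (lb_hol hL hi.1 (k hj).1)).mul (hb.hol (lb_hol hL hi.2 (k hj).2)))
  · exact mul_ne_zero (left_ne_zero_of_mul_eq_one hε)
      (mul_ne_zero (hL.ne_zero _ _ _ hi.1 (k hj).1) (hL.ne_zero _ _ _ hi.2 (k hj).2))
  · change ε * (L.g i.1 j.2 (a y) * L.g i.2 j.1 (b y)) *
      (L.g j.1 j'.1 (a (σ y)) * L.g j.2 j'.2 (b (σ y))) = L.g i.1 i'.1 (a y) * L.g i.2 i'.2 (b y) *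
        (ε * (L.g i'.1 j'.2 (a y) * L.g i'.2 j'.1 (b y)))
    have e1 := (hL.cocycle _ _ _ _ hi.1 (k hj).1 (k hj').1).trans
      (hL.cocycle _ _ _ _ hi.1 hi'.1 (k hj').1).symm
    have e2 := (hL.cocycle _ _ _ _ hi.2 (k hj).2 (k hj').2).trans
      (hL.cocycle _ _ _ _ hi.2 hi'.2 (k hj').2).symm
    rw [sa, sb]
    linear_combination ε * (L.g i.2 j.1 (b y) * L.g j.1 j'.1 (b y)) * e1 +
      ε * (L.g i.1 i'.1 (a y) * L.g i'.1 j'.2 (a y)) * e2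
  · change ε * (L.g i.1 j.2 (a y) * L.g i.2 j.1 (b y)) *
      (ε * (L.g j.1 l.2 (a (σ y)) * L.g j.2 l.1 (b (σ y)))) =
        L.g i.1 l.1 (a y) * L.g i.2 l.2 (b y)
    rw [sa, sb, ← hL.cocycle _ _ _ _ hi.1 (k hj).1 hl.1, ← hL.cocycle _ _ _ _ hi.2 (k hj).2 hl.2]
    linear_combination (L.g i.1 j.2 (a y) * L.g j.2 l.1 (a y) *
      (L.g i.2 j.1 (b y) * L.g j.1 l.2 (b y))) * hε
  · obtain ⟨s, s1, s2, s3⟩ := Swp.two hL h (a z) (b z)
    have hw : IsSec m (bx a b L) fun i y => s i.1 (a y) * s i.2 (b y) :=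
      isSec_of (fun i y hi => (ha.hol (sec_hol s1 hi.1)).mul (hb.hol (sec_hol s1 hi.2)))
        fun i j y hi hj => by
          change _ = L.g i.1 j.1 (a y) * L.g i.2 j.2 (b y) * _
          rw [s1.change _ _ _ hi.1 hj.1, s1.change _ _ _ hi.2 hj.2, mul_mul_mul_comm]
    refine ⟨_, ⟨nm_mem lb hw, fun i j y hi hj => ?_⟩,
      nm_nz.2 fun i hi => mul_ne_zero (s2 _ hi.1) (s3 _ hi.2)⟩
    rw [nm_of hi, nm_of hj, sa, sb, s1.change _ _ _ hi.1 (k hj).1, s1.change _ _ _ hi.2 (k hj).2,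
      sw]
    ring

end Vale.Agent.P280Z.Hr
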