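import Vale.Agent.P280Z.Hr.Top
import Vale.Agent.P280Z.Hr.Pta
import Vale.Agent.P280Z.Hr.Pto
import Vale.Agent.P280Z.Hr.Brg
import Vale.Agent.P280Z.Hr.BlC
import Vale.Agent.P280Z.Hr.Fib
import Vale.Agent.P280Z.Hr.Swp
import Vale.Agent.P280Z.Hr.Kun
import Vale.Agent.P280Z.Hr.Ref
import Vale.Agent.P280Z.Co.Vbl
import Vale.Agent.P280Z.Ld.All

/-!
# P280Z, block Hr: the theorem of Hirzebruch, Riemann and Roch for line bundles
-/

namespace Vale.Agent.P280Z.Hr

/-- the characteristic classes of the projectivised tangent bundle -/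
theorem ptx {T : CT} (hT : T.OK) : PTX T := ptx_of vbl hT fun _ P hV => pto Ld.ld hT P hV

/-- **HRR** -/
theorem hrr : HRR :=
  hrr_of Ld.ld vbl (brg blx) (fun _ hT => ptx hT) (nrm vbl) fib swp (kun Ld.fin) (ref Ld.iso)

end Vale.Agent.P280Z.Hr
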