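import Vale.Agent.P280Z.Hr.Fm1
import Vale.Agent.P280Z.Ld.Defs
import Mathlib.Algebra.Group.ForwardDiff
import Mathlib.RingTheory.Polynomial.Pochhammer
import Mathlib.Algebra.MvPolynomial.CommRing
import Mathlib.Algebra.MvPolynomial.Degrees
import Mathlib.Algebra.Polynomial.Taylor

/-!
# P280Z, block Hr: polynomials
-/

open Finset

noncomputable section

namespace Vale.Agent.P280Z.Hr.Tp

/-- all differences of order `d` vanish -/
def Dr {α : Type} [DecidableEq α] : ℕ → ((α → ℕ) → ℝ) → Prop
  | 0, f => ∀ k, f k = 0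
  | d + 1, f => ∀ j, Dr d fun k => f (k + Pi.single j 1) - f k

section
open MvPolynomial
variable {α : Type} [DecidableEq α]

theorem dr_of : ∀ (d : ℕ) (f : (α → ℕ) → ℚ), Ld.Dz d f → Dr d fun k => (f k : ℝ)
  | 0, _, h => fun k => Rat.cast_eq_zero.2 (h k)
  | d + 1, _, h => fun j => by simpa only [Rat.cast_sub] using dr_of d _ (h j)

theorem dr_iter (j : α) (n t : ℕ) (f : (α → ℕ) → ℝ) (h : Dr (n + t) f) :
    Dr n ((fwdDiff (Pi.single j 1))^[t] f) := by
  induction t generalizing f with
  | zero => exact h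
  | succ t ih => exact ih _ (h j)

theorem dr_zero (j : α) (n t : ℕ) (f : (α → ℕ) → ℝ) (h : Dr n f) :
    (fwdDiff (Pi.single j 1))^[n + t] f = 0 := by
  rw [add_comm, Function.iterate_add_apply, show (fwdDiff (Pi.single j 1))^[n] f = 0 from
    _root_.funext (dr_iter j 0 n f (by rwa [zero_add]))]
  exact Function.iterate_fixed (_root_.funext fun _ => sub_self _) t

theorem main (s : Finset α) (d : ℕ) (f : (α → ℕ) → ℝ) (h : Dr (d + 1) f) :
    ∃ P : MvPolynomial α ℝ, P.totalDegree ≤ d ∧
      ∀ k : α → ℕ, f (fun i => if i ∈ s then k i else 0) = eval (fun j => (k j : ℝ)) P := by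
  induction s using Finset.induction_on generalizing d f with
  | empty => exact ⟨C (f fun _ => 0), by simp, fun k => by simp⟩
  | insert j s hj ih =>
    choose! P h1 h2 using fun t (ht : t ≤ d) => ih (d - t) _
      (dr_iter j _ t f (by rwa [add_right_comm, Nat.sub_add_cancel ht]))
    refine ⟨∑ t ∈ range (d + 1), C ((t.factorial : ℝ)⁻¹) * (∏ i ∈ range t, (X j - C (i : ℝ))) * P t,
      totalDegree_finsetSum_le fun t ht => ?_, fun k => ?_⟩
    · have k1 := Nat.lt_succ_iff.1 (mem_range.1 ht)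
      have k2 : (∏ i ∈ range t, (X j - C (i : ℝ))).totalDegree ≤ t :=
        (totalDegree_finsetProd _ _).trans ((sum_le_card_nsmul _ _ 1 fun i _ =>
          (totalDegree_sub_C_le _ _).trans (totalDegree_X j).le).trans (by simp))
      have k3 := h1 t k1
      refine (totalDegree_mul _ _).trans ((add_le_add_left (totalDegree_mul _ _) _).trans ?_)
      rw [totalDegree_C]
      omega
    · have e : (fun i => if i ∈ insert j s then k i else 0) =
          (fun i => if i ∈ s then k i else 0) + k j • (Pi.single j 1 : α → ℕ) := by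
        ext i
        by_cases hi : i = j <;> simp [hi, hj]
      rw [e, shift_eq_sum_fwdDiff_iter _ f, map_sum]
      simp only [map_mul, eval_C, map_prod, map_sub, eval_X, ← descPochhammer_eval_eq_prod_range,
        ← div_eq_inv_mul, ← Nat.cast_choose_eq_descPochhammer_div, nsmul_eq_mul]
      refine sum_congr_of_eq_on_inter (fun t _ ht => ?_) (fun t _ ht => ?_) fun t _ ht => ?_
      · obtain ⟨t, rfl⟩ := Nat.exists_eq_add_of_le (not_lt.1 (mem_range.not.1 ht))
        rw [dr_zero j _ t f h, Pi.zero_apply, mul_zero]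
      · rw [Nat.choose_eq_zero_of_lt (not_lt.1 (mem_range.not.1 ht)), Nat.cast_zero, zero_mul]
      · rw [h2 t (Nat.lt_succ_iff.1 (mem_range.1 ht))]

/-- the restriction to the segment `a + b = J`, in the variable `b + c` -/
theorem seg {d : ℕ} {f : (Bool → ℕ) → ℝ} (h : Dr (d + 1) f) (J : ℕ) (c : ℝ) :
    ∃ q : Polynomial ℝ, q.natDegree ≤ d ∧
      ∀ a b : ℕ, a + b = J → f (fun l => cond l b a) = q.eval (b + c) := by
  obtain ⟨P, h1, h2⟩ := main univ d f h
  let u : Bool → Polynomial ℝ := fun l =>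
    cond l (Polynomial.X - Polynomial.C c) (Polynomial.C (J + c) - Polynomial.X)
  refine ⟨aeval u P, (aeval_natDegree_le P h1 u (n := 1) fun l => ?_).trans (mul_one d).le,
    fun a b e => ?_⟩
  · cases l
    · exact (Polynomial.natDegree_sub_le _ _).trans (by simp)
    · exact (Polynomial.natDegree_X_sub_C_le c)
  · have k := h2 fun l => cond l b a
    simp only [mem_univ, if_true] at k
    rw [k, ← Polynomial.coe_aeval_eq_eval, ← AlgHom.comp_apply, comp_aeval, aeval_eq_eval]
    refine congrArg (fun g => eval g P) (funext fun l => ?_)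
    cases l
    · simp [u, ← e]
    · simp [u]

end

open Polynomial

/-- the backward difference lowers the degree -/
theorem back {d : ℕ} (G : ℝ[X]) (h : G.natDegree ≤ d + 1) :
    (G - taylor (-1) G).natDegree ≤ d := by
  rw [natDegree_le_iff_coeff_eq_zero]
  intro N hN
  rw [coeff_sub, sub_eq_zero]
  rcases (h.trans hN).eq_or_lt with e | e
  · rw [← e, coeff_taylor_natDegree, coeff_natDegree]
  · rw [coeff_eq_zero_of_natDegree_lt e, coeff_eq_zero_of_natDegree_lt (by rwa [natDegree_taylor])]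

/-- the Euler sum of a binomial coefficient -/
theorem eul : ∀ (d : ℕ) (G S : ℝ[X]), G.natDegree ≤ d →
    (∀ j : ℕ, 1 ≤ j → j ≤ d → G.eval (-(j : ℝ)) = 0) →
    (∀ x, S.eval x + S.eval (x + 1) = G.eval x) → 2 ^ (d + 1) * S.eval 0 = G.eval 0
  | 0, G, S, h, _, k => by
    have h1 : ∀ x, G.eval x = G.eval 0 := fun x => by
      rw [eq_C_of_natDegree_le_zero h, eval_C, eval_C]
    have h2 : ∀ m : ℕ, S.eval (2 * m : ℝ) = S.eval 0 := fun m => by
      induction m with
      | zero => simp
      | succ m ih =>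
        have a := k (2 * m)
        have b := k (2 * m + 1)
        rw [h1] at a b
        rw [show (2 * ((m + 1 : ℕ) : ℝ)) = 2 * m + 1 + 1 by push_cast; ring]
        linarith
    have h3 : S = C (S.eval 0) := eq_of_infinite_eval_eq _ _
      ((Set.infinite_range_of_injective (f := fun m : ℕ => (2 * m : ℝ)) fun a b e => by
        simpa using e).mono (by
          rintro _ ⟨m, rfl⟩
          simpa using h2 m))
    have h4 := k 0
    rw [h3, eval_C, eval_C] at h4
    rw [zero_add, pow_one]
    linarith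
  | d + 1, G, S, h, z, k => by
    have e : ∀ (P : ℝ[X]) x, (P - taylor (-1) P).eval x = P.eval x - P.eval (x - 1) :=
      fun P x => by rw [eval_sub, taylor_eval, sub_eq_add_neg x]
    have z1 : G.eval (0 - 1) = 0 := by simpa using z 1 le_rfl (by omega)
    have := eul d (G - taylor (-1) G) (S - taylor (-1) S) (back G h) (fun j h1 h2 => by
      have a := z (j + 1) (by omega) (by omega)
      rw [e, z j h1 (by omega), show -(j : ℝ) - 1 = -((j + 1 : ℕ) : ℝ) by push_cast; ring, a,
        sub_zero]) fun x => by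
      have a := k (x - 1)
      rw [sub_add_cancel] at a
      rw [e, e, e, add_sub_cancel_right, ← k x, ← a]
      ring
    have a := k (0 - 1)
    rw [sub_add_cancel, z1] at a
    rw [e, e, z1] at this
    rw [pow_succ]
    linarith [this, show (2 : ℝ) ^ (d + 1) * (S.eval 0 - S.eval (0 - 1)) =
      2 ^ (d + 1) * 2 * S.eval 0 by rw [show S.eval (0 - 1) = -S.eval 0 by linarith]; ring]

/-- two polynomials which agree at `1, ..., J` -/
theorem agree {N J : ℕ} {p q : ℝ[X]} (hp : p.natDegree ≤ N) (hq : q.natDegree ≤ N) (hJ : N < J)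
    (h : ∀ j : ℕ, 1 ≤ j → j ≤ J → p.eval (j : ℝ) = q.eval (j : ℝ)) : p = q := by
  refine eq_of_natDegree_lt_card_of_eval_eq p q (f := fun j : Fin J => ((j + 1 : ℕ) : ℝ))
    (fun a b e => Fin.ext (by simpa using e)) (fun j => h _ (by omega) j.2) ?_
  rw [Fintype.card_fin]
  omega

/-- the end of the proof -/
theorem fin {d J : ℕ} (R P : ℕ → ℝ) (ρ G p q : ℝ[X]) (hJ : 2 * d + 2 < J)
    (hρ : ρ.natDegree ≤ 2 * d + 2) (hG : G.natDegree ≤ d) (hp : p.natDegree ≤ 2 * d + 2)
    (h1 : ∀ j, j ≤ J → R j + R (j + 1) = P j) (h2 : ∀ j : ℕ, 1 ≤ j → j ≤ J + 1 → R j = ρ.eval ↑j)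
    (h3 : ∀ j : ℕ, j ≤ J → P j = G.eval ↑j + p.eval ↑j)
    (h4 : ∀ j : ℕ, 1 ≤ j → j ≤ d → G.eval (-(j : ℝ)) = 0)
    (h5 : ∀ x, q.eval x + q.eval (x + 1) = p.eval x) (h6 : G.eval 0 = R 0 - q.eval 0) :
    R 0 = q.eval 0 := by
  have e : ρ + taylor 1 ρ = G + p := agree (N := 2 * d + 2)
    ((natDegree_add_le _ _).trans (by rw [natDegree_taylor]; omega))
    ((natDegree_add_le _ _).trans (by omega)) hJ fun j a b => by
      rw [eval_add, eval_add, taylor_eval, ← h3 j b, ← h1 j b, h2 j a (by omega),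
        h2 (j + 1) (by omega) (by omega), Nat.cast_succ]
  have e' : ∀ x, ρ.eval x + ρ.eval (x + 1) = G.eval x + p.eval x := fun x => by
    rw [← eval_add (p := G), ← e, eval_add, taylor_eval]
  have k := eul d G (ρ - q) hG h4 fun x => by
    rw [eval_sub, eval_sub]
    linarith [e' x, h5 x]
  have a := e' 0
  have b := h1 0 (by omega)
  have c := h3 0 (by omega)
  have c' := h2 1 le_rfl (by omega)
  rw [Nat.cast_zero] at c
  rw [Nat.cast_one] at c'
  rw [zero_add] at a b
  have f : ρ.eval 0 = R 0 := by linarith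
  rw [eval_sub, f, h6] at k
  have g : (1 : ℝ) < 2 ^ (d + 1) := one_lt_pow₀ one_lt_two (by omega)
  have : (2 ^ (d + 1) - 1) * (R 0 - q.eval 0) = 0 := by linarith
  linarith [(mul_eq_zero.1 this).resolve_left (by linarith)]

/-- the Riemann-Roch number is a polynomial -/
theorem rr_poly (T : CT) {n : ℕ} (V : P281Z.Mf n) (x ξ : T.H V) :
    ∃ p : ℝ[X], p.natDegree ≤ n ∧ ∀ j : ℝ, T.RR V (x + j • ξ) = p.eval j := by
  set F := Ex (PowerSeries.C x + TL (T.ps V (VB.tan n V.X)))
  refine ⟨∑ k ∈ antidiagonal n, monomial k.1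
    (T.int V (((k.1.factorial : ℝ)⁻¹ • ξ ^ k.1) * PowerSeries.coeff k.2 F)),
    natDegree_sum_le_of_forall_le _ _ fun k hk => (natDegree_monomial_le _).trans ?_, fun j => ?_⟩
  · have := mem_antidiagonal.1 hk
    omega
  · rw [CT.RR, map_add, add_comm (PowerSeries.C x), add_assoc, ex_add, PowerSeries.coeff_mul,
      map_sum, eval_finsetSum]
    refine sum_congr rfl fun k _ => ?_
    rw [coeff_ex_C, eval_monomial, _root_.smul_pow, smul_comm, smul_mul_assoc, map_smul, smul_eq_mul,
      mul_comm]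

end Vale.Agent.P280Z.Hr.Tp
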