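import Vale.Agent.P280Z.Hr.Fm1

/-!
# P280Z, block Hr: explicit coefficients of `exp (m) td` up to the degree nine
-/

open PowerSeries

noncomputable section

namespace Vale.Agent.P280Z.Hr

theorem ber3 : bernoulli 3 = 0 := bernoulli_eq_zero_of_odd (by decide) (by norm_num)
theorem ber5 : bernoulli 5 = 0 := bernoulli_eq_zero_of_odd (by decide) (by norm_num)
theorem ber7 : bernoulli 7 = 0 := bernoulli_eq_zero_of_odd (by decide) (by norm_num)
theorem ber9 : bernoulli 9 = 0 := bernoulli_eq_zero_of_odd (by decide) (by norm_num)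

theorem ber4 : bernoulli 4 = -1 / 30 := by
  have h := sum_bernoulli 5
  simp only [Finset.sum_range_succ, Finset.sum_range_zero, bernoulli_zero, bernoulli_one,
    bernoulli_two, ber3] at h
  norm_num [Nat.choose] at h
  linarith

theorem ber6 : bernoulli 6 = 1 / 42 := by
  have h := sum_bernoulli 7
  simp only [Finset.sum_range_succ, Finset.sum_range_zero, bernoulli_zero, bernoulli_one,
    bernoulli_two, ber3, ber4, ber5] at h
  norm_num [Nat.choose] at h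
  linarith

theorem ber8 : bernoulli 8 = -1 / 30 := by
  have h := sum_bernoulli 9
  simp only [Finset.sum_range_succ, Finset.sum_range_zero, bernoulli_zero, bernoulli_one,
    bernoulli_two, ber3, ber4, ber5, ber6, ber7] at h
  norm_num [Nat.choose] at h
  linarith

variable {B : Type} [CommRing B] [Algebra ℝ B]

theorem ex_succ (W : B⟦X⟧) (d : ℕ) : coeff (d + 1) (Ex W) =
    ((d : ℝ) + 1)⁻¹ • ∑ i ∈ Finset.range (d + 1), coeff (d - i) W * coeff i (Ex W) := by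
  simp only [Ex, coeff_mk]
  rw [exc, Finset.sum_range fun i => coeff (d - i) W * exc W i]

/-- the coefficients of `exp (z t + a t ^ 2 + b t ^ 4 + c t ^ 6 + e t ^ 8)` -/
def tdx (z a b c e : B) : ℕ → B
  | 0 => 1
  | 1 => z
  | 2 => (1 / 2 : ℝ) • z ^ 2 + a
  | 3 => (1 / 6 : ℝ) • z ^ 3 + z * a
  | 4 => (1 / 24 : ℝ) • z ^ 4 + (1 / 2 : ℝ) • (z ^ 2 * a) + ((1 / 2 : ℝ) • a ^ 2 + b)
  | 5 => (1 / 120 : ℝ) • z ^ 5 + (1 / 6 : ℝ) • (z ^ 3 * a) + z * ((1 / 2 : ℝ) • a ^ 2 + b)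
  | 6 => (1 / 720 : ℝ) • z ^ 6 + (1 / 24 : ℝ) • (z ^ 4 * a) +
      (1 / 2 : ℝ) • (z ^ 2 * ((1 / 2 : ℝ) • a ^ 2 + b)) + ((1 / 6 : ℝ) • a ^ 3 + a * b + c)
  | 7 => (1 / 5040 : ℝ) • z ^ 7 + (1 / 120 : ℝ) • (z ^ 5 * a) +
      (1 / 6 : ℝ) • (z ^ 3 * ((1 / 2 : ℝ) • a ^ 2 + b)) + z * ((1 / 6 : ℝ) • a ^ 3 + a * b + c)
  | 8 => (1 / 40320 : ℝ) • z ^ 8 + (1 / 720 : ℝ) • (z ^ 6 * a) +
      (1 / 24 : ℝ) • (z ^ 4 * ((1 / 2 : ℝ) • a ^ 2 + b)) +
      (1 / 2 : ℝ) • (z ^ 2 * ((1 / 6 : ℝ) • a ^ 3 + a * b + c)) +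
      ((1 / 24 : ℝ) • a ^ 4 + (1 / 2 : ℝ) • (a ^ 2 * b) + (1 / 2 : ℝ) • b ^ 2 + a * c + e)
  | 9 => (1 / 362880 : ℝ) • z ^ 9 + (1 / 5040 : ℝ) • (z ^ 7 * a) +
      (1 / 120 : ℝ) • (z ^ 5 * ((1 / 2 : ℝ) • a ^ 2 + b)) +
      (1 / 6 : ℝ) • (z ^ 3 * ((1 / 6 : ℝ) • a ^ 3 + a * b + c)) +
      z * ((1 / 24 : ℝ) • a ^ 4 + (1 / 2 : ℝ) • (a ^ 2 * b) + (1 / 2 : ℝ) • b ^ 2 + a * c + e)
  | _ => 0

theorem ex_tdx {W : B⟦X⟧} {z a b c e : B} (h0 : coeff 0 W = z) (h1 : coeff 1 W = (2 : ℝ) • a)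
    (h2 : coeff 2 W = 0) (h3 : coeff 3 W = (4 : ℝ) • b) (h4 : coeff 4 W = 0)
    (h5 : coeff 5 W = (6 : ℝ) • c) (h6 : coeff 6 W = 0) (h7 : coeff 7 W = (8 : ℝ) • e)
    (h8 : coeff 8 W = 0) : ∀ k ≤ 9, coeff k (Ex W) = tdx z a b c e k := by
  have c0 : coeff 0 (Ex W) = tdx z a b c e 0 := by
    rw [coeff_zero_eq_constantCoeff_apply, ex_c, tdx]
  have c1 : coeff 1 (Ex W) = tdx z a b c e 1 := by
    rw [ex_succ]
    simp [h0, c0, tdx]
  have c2 : coeff 2 (Ex W) = tdx z a b c e 2 := by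
    rw [ex_succ]
    simp only [Finset.sum_range_succ, Finset.sum_range_zero, Nat.reduceSub, h0, h1, c0, c1, tdx,
      smul_mul_assoc, mul_smul_comm, zero_mul]
    simp only [pow_succ, pow_zero, one_mul, mul_one, mul_comm, mul_left_comm, mul_assoc]
    module
  have c3 : coeff 3 (Ex W) = tdx z a b c e 3 := by
    rw [ex_succ]
    simp only [Finset.sum_range_succ, Finset.sum_range_zero, Nat.reduceSub, h0, h1, h2, c0, c1, c2,
      tdx, mul_add, smul_mul_assoc, mul_smul_comm, zero_mul]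
    simp only [pow_succ, pow_zero, one_mul, mul_one, mul_comm, mul_left_comm, mul_assoc]
    module
  have c4 : coeff 4 (Ex W) = tdx z a b c e 4 := by
    rw [ex_succ]
    simp only [Finset.sum_range_succ, Finset.sum_range_zero, Nat.reduceSub, h0, h1, h2, h3, c0, c1,
      c2, c3, tdx, mul_add, smul_mul_assoc, mul_smul_comm, zero_mul]
    simp only [pow_succ, pow_zero, one_mul, mul_one, mul_comm, mul_left_comm, mul_assoc]
    module
  have c5 : coeff 5 (Ex W) = tdx z a b c e 5 := by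
    rw [ex_succ]
    simp only [Finset.sum_range_succ, Finset.sum_range_zero, Nat.reduceSub, h0, h1, h2, h3, h4, c0,
      c1, c2, c3, c4, tdx, mul_add, smul_mul_assoc, mul_smul_comm, zero_mul]
    simp only [pow_succ, pow_zero, one_mul, mul_one, mul_comm, mul_left_comm, mul_assoc]
    module
  have c6 : coeff 6 (Ex W) = tdx z a b c e 6 := by
    rw [ex_succ]
    simp only [Finset.sum_range_succ, Finset.sum_range_zero, Nat.reduceSub, h0, h1, h2, h3, h4, h5,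
      c0, c1, c2, c3, c4, c5, tdx, mul_add, smul_mul_assoc, mul_smul_comm, zero_mul]
    simp only [pow_succ, pow_zero, one_mul, mul_one, mul_comm, mul_left_comm, mul_assoc]
    module
  have c7 : coeff 7 (Ex W) = tdx z a b c e 7 := by
    rw [ex_succ]
    simp only [Finset.sum_range_succ, Finset.sum_range_zero, Nat.reduceSub, h0, h1, h2, h3, h4, h5,
      h6, c0, c1, c2, c3, c4, c5, c6, tdx, mul_add, smul_mul_assoc, mul_smul_comm, zero_mul]
    simp only [pow_succ, pow_zero, one_mul, mul_one, mul_comm, mul_left_comm, mul_assoc]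
    module
  have c8 : coeff 8 (Ex W) = tdx z a b c e 8 := by
    rw [ex_succ]
    simp only [Finset.sum_range_succ, Finset.sum_range_zero, Nat.reduceSub, h0, h1, h2, h3, h4, h5,
      h6, h7, c0, c1, c2, c3, c4, c5, c6, c7, tdx, mul_add, smul_mul_assoc, mul_smul_comm, zero_mul]
    simp only [pow_succ, pow_zero, one_mul, mul_one, mul_comm, mul_left_comm, mul_assoc]
    module
  have c9 : coeff 9 (Ex W) = tdx z a b c e 9 := by
    rw [ex_succ]
    simp only [Finset.sum_range_succ, Finset.sum_range_zero, Nat.reduceSub, h0, h1, h2, h3, h4, h5,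
      h6, h7, h8, c0, c1, c2, c3, c4, c5, c6, c7, c8, tdx, mul_add, smul_mul_assoc, mul_smul_comm,
      zero_mul]
    simp only [pow_succ, pow_zero, one_mul, mul_one, mul_comm, mul_left_comm, mul_assoc]
    module
  intro k hk
  interval_cases k <;> assumption

/-- the explicit form of the coefficients of `exp (m) td` -/
theorem coeff_td (m : B) (p : ℕ → B) {k : ℕ} (hk : k ≤ 9) :
    coeff k (Ex (C m + TL p)) = tdx (m + (1 / 2 : ℝ) • p 1) (-(1 / 24 : ℝ) • p 2)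
      ((1 / 2880 : ℝ) • p 4) (-(1 / 181440 : ℝ) • p 6) ((1 / 9676800 : ℝ) • p 8) k := by
  refine ex_tdx ?_ ?_ ?_ ?_ ?_ ?_ ?_ ?_ ?_ k hk <;>
    simp only [map_add, coeff_C, TL, coeff_mk, Nat.reduceAdd, bernoulli_one, bernoulli_two, ber3,
      ber4, ber5, ber6, ber7, ber8, ber9, smul_smul] <;>
    norm_num [Nat.factorial]

end Vale.Agent.P280Z.Hr
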