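import Vale.Agent.P280Z.Hr.Bl
import Vale.Agent.P280Z.Ld.Defs

/-!
# P280Z, block Hr: the blow up of the diagonal and the rows of the Riemann-Roch theorem
-/

open scoped Manifold ContDiff Topology
open Set Filter
open Vale.Agent.P272.K Vale.Agent.P285.H281.FD Vale.Agent.P281Z Vale.Agent.P280Z.Ld
open Vale.Agent.P277Z.Slc (lin dd)
open Vale.Agent.P277.HD (pull)

noncomputable section

namespace Vale.Agent.P280Z.Hr

/-- the exterior square `L ⊠ L`, pulled back by `(a, b)` -/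
def bx {X Y : Type} (a b : Y → X) (L : Bd X) : Bd Y := (pull a L).mul (pull b L)

/-- the lift of the swap, multiplied by `ε` -/
def sw {X Y : Type} (a b : Y → X) (L : Bd X) (ε : ℂ) (i j : (bx a b L).ι) (y : Y) : ℂ :=
  ε * (L.g i.1 j.2 (a y) * L.g i.2 j.1 (b y))

/-- two line bundles -/
def two {Y : Type} (H₀ H₁ : Bd Y) : Bool → Bd Y
  | false => H₀
  | true => H₁

/-- two lifts -/
def twu {Y : Type} {H₀ H₁ : Bd Y} (u₀ : H₀.ι → H₀.ι → Y → ℂ) (u₁ : H₁.ι → H₁.ι → Y → ℂ) :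
    ∀ j, (two H₀ H₁ j).ι → (two H₀ H₁ j).ι → Y → ℂ
  | false => u₀
  | true => u₁

/-- the exponents of `H₀ - H₁` -/
def ek : Bool → ℤ
  | false => 1
  | true => -1

/-- The blow up of the diagonal of `V × V`, with the swap `σ`; the exceptional divisor is the zero
set of the section `e` of `A ⊠ A - H₁`. -/
structure Bl {d : ℕ} (V : Mf (d + 1)) (A : Bd V.X) : Type 1 where
  P : PB (tanV V) (d + 1 + d)
  B : Mf (d + 1 + (d + 1))
  a : B.X → V.X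
  b : B.X → V.X
  σ : B.X → B.X
  H₁ : Bd B.X
  u₁ : H₁.ι → H₁.ι → B.X → ℂ
  e : (lin (two (bx a b A) H₁) ek).ι → B.X → ℂ
  i : P.P.X → B.X
  ha : HolM (d + 1 + (d + 1)) (d + 1) a
  hb : HolM (d + 1 + (d + 1)) (d + 1) b
  mod : Modif (d + 1 + (d + 1)) (fun z => V.pair V (a z) (b z)) {z | V.p1 V z = V.p2 V z}
  sa : ∀ z, a (σ z) = b z
  sb : ∀ z, b (σ z) = a z
  ia : ∀ p, a (i p) = P.pr p
  ib : ∀ p, b (i p) = P.pr p
  fix : ∀ p, σ (i p) = i p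
  lz : Lz (d + 1 + (d + 1)) σ H₁ u₁
  bpf : ∀ z, ∃ w ∈ Γs (d + 1 + (d + 1)) σ H₁ u₁, NZ H₁ w z
  cut : Cut (lin (two (bx a b A) H₁) ek) e i
  anti : e ∈ Γs (d + 1 + (d + 1)) σ (lin (two (bx a b A) H₁) ek) fun j k z =>
    -∏ l, twu (sw a b A 1) u₁ l (j l) (k l) z ^ ek l
  pos : Pos (d + 1 + (d + 1)) ((bx a b A).mul H₁)
  nrm : LIso (d + 1 + d) (pull i (lin (two (bx a b A) H₁) ek)) (zp P.H (-1))
  can : ∀ T : CT, T.OK → T.c1 B (Bd.can (d + 1 + (d + 1)) B.X) =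
    T.pull ha (T.c1 V (Bd.can (d + 1) V.X)) + T.pull hb (T.c1 V (Bd.can (d + 1) V.X)) +
      (d : ℝ) • T.c1 B (lin (two (bx a b A) H₁) ek)

/-- **BLW**: the blow up exists -/
def BLW : Prop := (∃ T : CT, T.OK) → ∀ {d : ℕ} (V : Mf (d + 1)) (A : Bd V.X) (r : ℕ) (s : Fin r → A.ι → V.X → ℂ),
  Va (d + 1) A s → Nonempty (Bl V A)

/-- **NRM**: the normal bundle of a hypersurface -/
def NRM : Prop := ∀ T : CT, T.OK → ∀ {m n : ℕ} {V : Mf m} {Z : Mf n} {L : Bd V.X}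
  {s : L.ι → V.X → ℂ} {i : Z.X → V.X} (h : Cut L s i) (k : ℕ), T.ps Z (VB.tan n Z.X) (k + 1) =
    T.pull h.emb.hol (T.ps V (VB.tan m V.X) (k + 1) - T.c1 V L ^ (k + 1))

/-- **FIB**: sections of a pull back, and of its negative twists -/
def FIB : Prop := ∀ {n r N : ℕ} {V : Mf n} {E : P281Z.VB (r + 1) V} (P : PB E N) (M : Bd V.X),
  IsLB n M → h0 N (pull P.pr M) = h0 n M ∧
    ∀ j : ℕ, 1 ≤ j → 1 ≤ r → h0 N ((pull P.pr M).mul (zp P.H (-(j : ℤ)))) = 0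

/-- **SWP**: the lift of the swap -/
def SWP : Prop := ∀ {n m : ℕ} (V : Mf n) (B : Mf m) (a b : B.X → V.X) (σ : B.X → B.X) (L : Bd V.X),
  HolM m n a → HolM m n b → HolM m m σ → (∀ z, σ (σ z) = z) → (∀ z, a (σ z) = b z) →
  (∀ z, b (σ z) = a z) → IsLB n L → (∀ ε : ℂ, ε * ε = 1 → Lz m σ (bx a b L) (sw a b L ε)) ∧
    (Bpf n L → ∀ z, ∃ w ∈ Γs m σ (bx a b L) (sw a b L 1), NZ (bx a b L) w z)

/-- **KUN**: symmetric and antisymmetric tensors -/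
def KUN : Prop := ∀ {n : ℕ} (V : Mf n) (B : Mf (n + n)) (a b : B.X → V.X) (σ : B.X → B.X)
  (L : Bd V.X) (D : Set (V.prod V).X), V.Kah → Modif (n + n) (fun z => V.pair V (a z) (b z)) D →
  (∀ z, a (σ z) = b z) → (∀ z, b (σ z) = a z) → IsLB n L →
  hs (n + n) σ (bx a b L) (sw a b L 1) = hs (n + n) σ (bx a b L) (sw a b L (-1)) + h0 n L

/-- **REF**: refinements, products, and the trivial involution -/
def REF : Prop := ∀ {n : ℕ} (V : Mf n) (σ : V.X → V.X),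
  (∀ (L L' : Bd V.X) t t' (φ : L.ι → L'.ι), Lz n σ L t → Lz n σ L' t' →
    (∀ a, L.U a ⊆ L'.U (φ a)) →
    (∀ a b x, x ∈ L.U a → x ∈ L.U b → L.g a b x = L'.g (φ a) (φ b) x) →
    (∀ a b x, x ∈ L.U a → σ x ∈ L.U b → t a b x = t' (φ a) (φ b) x) → hs n σ L t = hs n σ L' t') ∧
  (∀ (α : Type) [Fintype α] (N : Bd V.X) (H : α → Bd V.X) t u (k : α → ℤ) (ε : ℂ), ε * ε = 1 →
    Lz n σ N t → (∀ j, Lz n σ (H j) (u j)) → Lz n σ (N.mul (lin H k)) (tl t u k) ∧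
      Lz n σ (lin H k) fun a b x => ε * ∏ j, u j (a j) (b j) x ^ k j) ∧
  ∀ (L : Bd V.X) t, (∀ x, σ x = x) → IsLB n L →
    ((∀ a b x, x ∈ L.U a → x ∈ L.U b → t a b x = L.g a b x) → hs n σ L t = h0 n L) ∧
    ((∀ a b x, x ∈ L.U a → x ∈ L.U b → t a b x = -L.g a b x) → hs n σ L t = 0)

/-- **HRR**: the theorem of Hirzebruch, Riemann and Roch for adjoint positive line bundles -/
def HRR : Prop := ∀ T : CT, T.OK → ∀ {n : ℕ} (V : Mf n) (M : Bd V.X), IsLB n M → Ap T V M →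
  (h0 n M : ℝ) = T.RR V (T.c1 V M)

end Vale.Agent.P280Z.Hr
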