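import Vale.Agent.P280Z.Hr.Td
import Vale.Agent.P280Z.Ld.Defs
import Vale.Agent.P281Z.Pb.Api2
import Vale.Agent.P281Z.Mf.Adj
import Vale.Agent.P281Z.Mf.Prod
import Vale.Agent.P281Z.Sc.Pic

/-!
# P280Z, block Hr: the blow up of the diagonal (definitions, statements)
-/

open scoped Manifold ContDiff Topology Matrix
open Set Filter
open Vale.Agent.P272.K Vale.Agent.P285.H281.FD Vale.Agent.P281Z
open Vale.Agent.P277Z (at_chart)
open Vale.Agent.P277.HD (pull)

noncomputable section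

namespace Vale.Agent.P280Z.Hr

/-- the holomorphic tangent bundle, in the frames of the charts -/
def tanV {n : ℕ} (V : Mf n) : P281Z.VB n V where
  ι := Chart n V.X
  U e := {x | At e x}
  T e e' x := dfM (fun y : V.X => y) e' e x
  isOpen _ := isOpen_iff_mem_nhds.2 fun _ h => at_near h
  cover x := ⟨_, at_chart x⟩
  hol _ _ y h h' a b := hol_dfM (holM_id.at y) h' h a b
  self _ _ h := dfM_id_self h
  cocycle _ _ _ y h h' h'' :=
    (dfM_comp (f := fun y => y) (g := fun y => y) (holM_id.at y) (holM_id.at y) h'' h' h).symm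

/-- the data of the blow up `B` of the diagonal of `V × V`: `p` is the first projection, `σ` the
swap, `l` the secant line, `i` the inclusion of the exceptional divisor `P = ℙ (T V)` -/
structure BlD {d : ℕ} (V : Mf (d + 1)) : Type 1 where
  B : Mf (d + 1 + (d + 1))
  P : PB (tanV V) (d + 1 + d)
  M : ℕ
  S : PS M
  p : B.X → V.X
  σ : B.X → B.X
  l : B.X → S.P.X
  i : P.P.X → B.X

namespace BlD

variable {d : ℕ} {V : Mf (d + 1)} (D : BlD V)

/-- the second projection -/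
def q (z : D.B.X) : V.X := D.p (D.σ z)

/-- the blow down -/
def β (z : D.B.X) : (V.prod V).X := V.pair V (D.p z) (D.q z)

/-- `L ⊠ L` -/
def box (L : Bd V.X) : Bd D.B.X := (pull D.p L).mul (pull D.q L)

/-- the bundle of the secant map -/
def H1 : Bd D.B.X := pull D.l D.S.H

/-- the bundle of the exceptional divisor -/
def OE (L : Bd V.X) : Bd D.B.X := (D.box L).mul (zp D.H1 (-1))

/-- the properties of the blow up; `ε` is the equation of the exceptional divisor -/
structure Ok (L : Bd V.X) (ε : (D.OE L).ι → D.B.X → ℂ) : Prop where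
  hp : HolM (d + 1 + (d + 1)) (d + 1) D.p
  hσ : HolM (d + 1 + (d + 1)) (d + 1 + (d + 1)) D.σ
  hl : HolM (d + 1 + (d + 1)) D.M D.l
  σσ : ∀ z, D.σ (D.σ z) = z
  lσ : ∀ z, D.l (D.σ z) = D.l z
  σi : ∀ z, D.σ (D.i z) = D.i z
  pi : ∀ z, D.p (D.i z) = D.P.pr z
  imm : ∀ z v, Df (d + 1 + (d + 1)) (d + 1) D.p z v = 0 → Df (d + 1 + (d + 1)) (d + 1) D.q z v = 0 →
    Df (d + 1 + (d + 1)) D.M D.l z v = 0 → v = 0
  cut : Cut (D.OE L) ε D.i
  anti : ∀ a b h z, ε ((a, b), h) (D.σ z) = -ε ((b, a), h) z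
  rng : ∀ z, z ∈ range D.i ↔ D.p z = D.q z
  mod : Modif (d + 1 + (d + 1)) D.β {w | V.p1 V w = V.p2 V w}
  can : LIso (d + 1 + (d + 1)) (Bd.can (d + 1 + (d + 1)) D.B.X)
    ((D.box (Bd.can (d + 1) V.X)).mul ((D.OE L).pow d))
  nor : LIso (d + 1 + d) (pull D.i (D.OE L)) (zp D.P.H (-1))

end BlD

/-- **row BLX**: the blow up of the diagonal exists -/
def BLX : Prop := ∀ {d : ℕ} (V : Mf (d + 1)) (L : Bd V.X) (ι : Type) [Fintype ι]
  (s : ι → L.ι → V.X → ℂ), Ld.Va (d + 1) L s →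
  ∃ (D : BlD V) (ε : (D.OE L).ι → D.B.X → ℂ), D.Ok L ε

/-- **row PTX**: the characteristic classes of the projectivised tangent bundle -/
def PTX (T : CT) : Prop := ∀ {d : ℕ} (V : Mf (d + 1)) (P : PB (tanV V) (d + 1 + d)), V.Prj →
  PT T V P.P P.pr (T.c1 P.P P.H)

end Vale.Agent.P280Z.Hr
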