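import Vale.Agent.P280Z.Hr.BlS
import Vale.Agent.P281Z.Sc.Sy

/-!
# P280Z, block Hr: the secant map in the charts of the blow up
-/

open scoped Manifold ContDiff Topology Matrix
open Set Filter Function
open Vale.Agent.P272.K Vale.Agent.P285.H281.FD Vale.Agent.P281Z Vale.Agent.P272.K.Prod
open Vale.Agent.P277Z (Hol at_chart hol_const)
open Vale.Agent.P277Z.Slc (dd dd_congr dd_mul dd_chart Ind)

noncomputable section

namespace Vale.Agent.P280Z.Hr.Bx

section model

variable {n N : ℕ} {l : Fin n} {w : Cm (n + n)}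

/-- the chart of the model space -/
abbrev R (N : ℕ) : Chart N (Cm N) := OpenPartialHomeomorph.refl (Cm N)

theorem at_R (w : Cm N) : At (R N) w := at_chart w

theorem hol_R {f : Cm N → ℂ} {w : Cm N} (h : AnalyticAt ℂ f w) : Hol N f w := .of_chart (at_R w) h

theorem an_co (i : Fin N) (w : Cm N) : AnalyticAt ℂ (fun w : Cm N => w i) w :=
  (ContinuousLinearMap.proj (R := ℂ) (φ := fun _ : Fin N => ℂ) i).analyticAt w

theorem an_fst (w : Cm (n + n)) : AnalyticAt ℂ (fstP : Cm (n + n) → Cm n) w :=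
  AnalyticAt.pi fun _ => an_co _ w

theorem an_tw (l : Fin n) (w : Cm (n + n)) : AnalyticAt ℂ (tw l) w := an_co _ w

theorem an_Xw (l : Fin n) (w : Cm (n + n)) : AnalyticAt ℂ (Xw l) w := AnalyticAt.pi fun j => by
  by_cases h : j = l
  · simpa only [Xw, h, update_self] using analyticAt_const
  · simp only [Xw, update_of_ne h]
    exact an_co _ w

theorem an_yw (l : Fin n) (w : Cm (n + n)) : AnalyticAt ℂ (yw l) w :=
  (an_fst w).add ((an_tw l w).smul (an_Xw l w))

theorem Xw_self (l : Fin n) (w : Cm (n + n)) : Xw l w l = 1 := update_self ..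

theorem Xw_ne (l : Fin n) (w : Cm (n + n)) : Xw l w ≠ 0 := fun h =>
  one_ne_zero ((Xw_self l w).symm.trans (congrFun h l))

theorem yw_zero (h : tw l w = 0) : yw l w = fstP w := by rw [yw, h, zero_smul, add_zero]

theorem fst_line (w v : Cm (n + n)) (τ : ℂ) : fstP (w + τ • v) = fstP w + τ • fstP v := rfl

theorem tw_line (w v : Cm (n + n)) (τ : ℂ) : tw l (w + τ • v) = tw l w + τ * tw l v := rfl

theorem Xw_line (w v : Cm (n + n)) (τ : ℂ) :
    Xw l (w + τ • v) = Xw l w + τ • update (sndP v) l 0 := funext fun j => by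
  by_cases h : j = l
  · simp [Xw, h]
  · simp [Xw, h, sndP]

theorem line_der (w v : Cm N) : HasDerivAt (fun τ : ℂ => w + τ • v) v 0 := by
  simpa using ((hasDerivAt_id (0 : ℂ)).smul_const v).const_add w

theorem line_ten (w v : Cm N) : Tendsto (fun τ : ℂ => w + τ • v) (𝓝 0) (𝓝 w) := by
  simpa [ContinuousAt] using (line_der w v).continuousAt

theorem der_line {E : Type} [NormedAddCommGroup E] [NormedSpace ℂ E] {f : Cm N → E} {w : Cm N}
    (h : AnalyticAt ℂ f w) (v : Cm N) :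
    HasDerivAt (fun τ : ℂ => f (w + τ • v)) (fderiv ℂ f w v) 0 :=
  HasFDerivAt.comp_hasDerivAt_of_eq 0 h.differentiableAt.hasFDerivAt (line_der w v) (by simp)

theorem fd_fst (w v : Cm (n + n)) : fderiv ℂ fstP w v = (fstP v : Cm n) :=
  (der_line (an_fst w) v).unique (line_der _ _)

theorem fd_tw (w v : Cm (n + n)) : fderiv ℂ (tw l) w v = tw l v :=
  (der_line (an_tw l w) v).unique
    ((((hasDerivAt_id (0 : ℂ)).mul_const (tw l v)).const_add (tw l w)).congr_deriv (one_mul _))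

theorem fd_yw (h : tw l w = 0) (v : Cm (n + n)) :
    fderiv ℂ (yw l) w v = fstP v + tw l v • Xw l w := by
  have h1 := (der_line (an_fst w) v).add ((der_line (an_tw l w) v).smul (der_line (an_Xw l w) v))
  rw [fd_fst, fd_tw, zero_smul, add_zero, h, zero_smul, zero_add] at h1
  exact (der_line (an_yw l w) v).unique h1

theorem tw_freq (l : Fin n) (w : Cm (n + n)) : ∃ᶠ w' in 𝓝 w, tw l w' ≠ 0 := by
  refine (line_ten w (Pi.single (Fin.natAdd n l) 1)).frequently ?_
  have h : ∃ᶠ τ in 𝓝 (0 : ℂ), τ ≠ -tw l w := by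
    by_cases k : tw l w = 0
    · rw [k, neg_zero]
      exact (eventually_mem_nhdsWithin (a := (0 : ℂ)) (s := {0}ᶜ)).frequently.filter_mono
        nhdsWithin_le_nhds
    · exact (eventually_ne_nhds (neg_ne_zero.2 k).symm).frequently
  refine h.mono fun τ k k' => k ?_
  rw [tw_line, tw, tw, sndP_single_natAdd, Pi.single_eq_same, mul_one] at k'
  exact eq_neg_of_add_eq_zero_right k'

theorem exists_Q {g : Cm n → ℂ} (hg : AnalyticAt ℂ g (fstP w)) (h : tw l w = 0) :
    ∃ Q : Cm (n + n) → ℂ, AnalyticAt ℂ Q w ∧ ∀ᶠ w' in 𝓝 w, g (yw l w') = g (fstP w') + tw l w' * Q w' ∧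
      (tw l w' = 0 → Q w' = fderiv ℂ g (fstP w') (Xw l w')) := by
  obtain ⟨m, hm⟩ : ∃ m, Module.finrank ℂ (Cm (n + n)) = m + 1 :=
    ⟨n + n - 1, by have := l.pos; rw [Module.finrank_fin_fun]; omega⟩
  let v : Cm (n + n) := Pi.single (Fin.natAdd n l) 1
  have v1 : tw l v = 1 := by rw [tw, sndP_single_natAdd, Pi.single_eq_same]
  have v2 : fstP v = 0 := fstP_single_natAdd _ _
  have v3 : update (sndP v) l 0 = 0 := by
    rw [sndP_single_natAdd]
    exact update_idem .. |>.trans (update_eq_self ..)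
  obtain ⟨Q, h1, h2⟩ := P277.H762.exists_div hm (an_tw l w)
    (fun k => one_ne_zero (v1.symm.trans ((fd_tw w v).symm.trans (by rw [k]; rfl)))) h
    (k := fun w' => g (yw l w') - g (fstP w'))
    ((AnalyticAt.fun_comp (by rwa [yw_zero h]) (an_yw l w)).sub (hg.fun_comp (an_fst w)))
    (.of_forall fun w' k => by rw [yw_zero k, sub_self])
  refine ⟨Q, h1, ?_⟩
  filter_upwards [h2.eventually_nhds, h1.eventually_analyticAt,
    (an_fst w).continuousAt.eventually hg.eventually_analyticAt] with w' k1 k2 k3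
  refine ⟨eq_add_of_sub_eq' k1.self_of_nhds, fun k4 => ?_⟩
  have k5 := (hasDerivAt_id (0 : ℂ)).fun_mul (der_line k2 v)
  have k6 := (der_line k3 (Xw l w')).sub_const (g (fstP w'))
  refine (by simp : _ = _).trans ((k5.congr_of_eventuallyEq ?_).unique k6)
  filter_upwards [(line_ten w' v).eventually k1] with τ k7
  rw [yw, fst_line, tw_line, Xw_line, v1, v2, v3, k4, smul_zero, add_zero, add_zero, zero_add,
    mul_one] at k7
  exact k7

end model

variable {n M : ℕ} {V : Mf n} {L : Bd V.X} {ι : Type} (s : ι → L.ι → V.X → ℂ)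
  (κ : Fin (M + 1) → ι × ι)

/-- the secant line -/
def om (a b : L.ι) (x y : V.X) : Cm (M + 1) := fun m =>
  s (κ m).1 a x * s (κ m).2 b y - s (κ m).2 a x * s (κ m).1 b y

/-- the tangent line -/
def Aw (e : Chart n V.X) (a : L.ι) (x : V.X) : Cm n →L[ℂ] Cm (M + 1) :=
  ContinuousLinearMap.pi fun m =>
    s (κ m).1 a x • dd (s (κ m).2 a) e x - s (κ m).2 a x • dd (s (κ m).1 a) e x

/-- the hypotheses -/
structure Hy : Prop where
  lb : IsLB n L
  sec : ∀ j, IsSec n L (s j)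
  pts : ∀ x y a b, x ∈ L.U a → y ∈ L.U b → om s κ a b x y = 0 → x = y
  tan : ∀ x a e v, x ∈ L.U a → At e x → Aw s κ e a x v = 0 → v = 0

variable {s κ} {a a' b b' : L.ι} {x y : V.X} {e e' : Chart n V.X} {l : Fin n} {w : Cm (n + n)}

theorem Aw_apply (v : Cm n) (m : Fin (M + 1)) : Aw s κ e a x v m =
    s (κ m).1 a x * dd (s (κ m).2 a) e x v - s (κ m).2 a x * dd (s (κ m).1 a) e x v := rfl

theorem om_swap (m : Fin (M + 1)) : om s κ a b x y m = -om s κ b a y x m := by
  simp only [om]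
  ring

theorem Hy.om_chg (h : Hy s κ) (ha : x ∈ L.U a) (ha' : x ∈ L.U a') (hb : y ∈ L.U b)
    (hb' : y ∈ L.U b') : om s κ a b x y = (L.g a a' x * L.g b b' y) • om s κ a' b' x y :=
  funext fun m => by
    simp only [om, Pi.smul_apply, smul_eq_mul, (h.sec _).change a a' x ha ha',
      (h.sec _).change b b' y hb hb']
    ring

theorem Hy.om_self (h : Hy s κ) (ha : x ∈ L.U a) (hb : x ∈ L.U b) : om s κ a b x x = 0 := by
  rw [h.om_chg ha ha hb ha, show om s κ a a x x = 0 from funext fun m => by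
    simp only [om, mul_comm, sub_self, Pi.zero_apply], smul_zero]

theorem Hy.om_hol (h : Hy s κ) {q : ℕ} {Z : Type} [TopologicalSpace Z] [ChartedSpace (Cm q) Z]
    [IsManifold 𝓘(ℂ, Cm q) ω Z] {f g : Z → V.X} {z : Z} (hf : HolA q n f z) (hg : HolA q n g z)
    (ha : f z ∈ L.U a) (hb : g z ∈ L.U b) (m : Fin (M + 1)) :
    Hol q (fun z => om s κ a b (f z) (g z) m) z :=
  ((hf.hol (sec_hol (h.sec _) ha)).mul (hg.hol (sec_hol (h.sec _) hb))).sub
    ((hf.hol (sec_hol (h.sec _) ha)).mul (hg.hol (sec_hol (h.sec _) hb)))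

theorem Hy.Aw_chg (h : Hy s κ) (ha : x ∈ L.U a) (ha' : x ∈ L.U a') (he : At e x) (he' : At e' x)
    (v : Cm n) : Aw s κ e a x ((tanV V).T e e' x *ᵥ v) = L.g a a' x ^ 2 • Aw s κ e' a' x v := by
  have k : ∀ j, dd (s j a) e x ((tanV V).T e e' x *ᵥ v) =
      L.g a a' x * dd (s j a') e' x v + s j a' x * dd (L.g a a') e' x v := fun j => by
    have h1 := fderiv_fun_mul (lb_hol h.lb ha ha' e' he').differentiableAt
      (sec_hol (h.sec j) ha' e' he').differentiableAt
    rw [he'.left_inv] at h1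
    refine Eq.trans ?_ (DFunLike.congr_fun h1 v)
    refine Eq.trans ?_ (DFunLike.congr_fun
      (dd_congr (a := s j a) (b := fun y => L.g a a' y * s j a' y) ?_ he') v)
    · rw [dd_chart (sec_hol (h.sec j) ha) he he']
      exact congrArg _ (dfM_mulVec v)
    · filter_upwards [lb_near h.lb ha, lb_near h.lb ha'] with y k1 k2
        using (h.sec j).change a a' y k1 k2
  funext m
  simp only [Aw_apply, Pi.smul_apply, smul_eq_mul, k, (h.sec _).change a a' x ha ha']
  ring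

/-- `Φ` is the secant divided by the equation of the divisor -/
structure Dv (s : ι → L.ι → V.X → ℂ) (κ : Fin (M + 1) → ι × ι) (e : Chart n V.X) (a : L.ι)
    (l : Fin n) (w : Cm (n + n)) (Φ : Cm (n + n) → Cm (M + 1)) : Prop where
  he : e ∈ atlas (Cm n) V.X
  zero : tw l w = 0
  an : ∀ m, AnalyticAt ℂ (fun w => Φ w m) w
  near : ∀ᶠ w' in 𝓝 w, fstP w' ∈ e.target ∧ yw l w' ∈ e.target ∧ e.symm (fstP w') ∈ L.U a ∧
    e.symm (yw l w') ∈ L.U a ∧ Φ w' ≠ 0 ∧
    om s κ a a (e.symm (fstP w')) (e.symm (yw l w')) = tw l w' • Φ w' ∧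
    (tw l w' = 0 → Φ w' = Aw s κ e a (e.symm (fstP w')) (Xw l w'))

theorem Hy.dv (h : Hy s κ) (he : At e x) (ha : x ∈ L.U a) (hw : fstP w = e x) (h0 : tw l w = 0) :
    ∃ Φ, Dv s κ e a l w Φ := by
  have h1 : ∀ j, AnalyticAt ℂ (fun z => s j a (e.symm z)) (fstP w) := fun j =>
    hw ▸ sec_hol (h.sec j) ha e he
  choose Q h2 h3 using fun j => exists_Q (h1 j) h0
  have h4 : ∀ᶠ z in 𝓝 (fstP w), z ∈ e.target ∧ e.symm z ∈ L.U a :=
    hw ▸ he.nhds_target.and (at_ev he (lb_near h.lb ha))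
  have h5 : ∀ᶠ w' in 𝓝 w, yw l w' ∈ e.target ∧ e.symm (yw l w') ∈ L.U a :=
    (an_yw l w).continuousAt.eventually (p := fun z => z ∈ e.target ∧ e.symm z ∈ L.U a)
      (by rwa [yw_zero h0])
  let Φ : Cm (n + n) → Cm (M + 1) := fun w m =>
    s (κ m).1 a (e.symm (fstP w)) * Q (κ m).2 w - s (κ m).2 a (e.symm (fstP w)) * Q (κ m).1 w
  have h6 : ∀ m, AnalyticAt ℂ (fun w => Φ w m) w := fun m =>
    (((h1 _).fun_comp (an_fst w)).mul (h2 _)).sub (((h1 _).fun_comp (an_fst w)).mul (h2 _))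
  have h7 : ∀ᶠ w' in 𝓝 w, om s κ a a (e.symm (fstP w')) (e.symm (yw l w')) = tw l w' • Φ w' ∧
      (tw l w' = 0 → Φ w' = Aw s κ e a (e.symm (fstP w')) (Xw l w')) := by
    filter_upwards [eventually_all.2 fun m => (h3 (κ m).1).and (h3 (κ m).2),
      (an_fst w).continuousAt.eventually h4] with w' k1 k2
    refine ⟨funext fun m => ?_, fun k3 => funext fun m => ?_⟩
    · simp only [om, Φ, Pi.smul_apply, smul_eq_mul, (k1 m).1.1, (k1 m).2.1]
      ring
    · simp only [Aw_apply, Φ, (k1 m).1.2 k3, (k1 m).2.2 k3, dd, e.right_inv k2.1]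
  have h8 : Φ w ≠ 0 := fun k => Xw_ne l w (h.tan _ a e _ h4.self_of_nhds.2
    (At.of_target he.1 h4.self_of_nhds.1) ((h7.self_of_nhds.2 h0).symm.trans k))
  refine ⟨Φ, he.1, h0, h6, ?_⟩
  filter_upwards [(an_fst w).continuousAt.eventually h4, h5, h7,
    (AnalyticAt.pi h6).continuousAt.eventually_ne h8] with w' k1 k2 k3 k4
    using ⟨k1.1, k2.1, k1.2, k2.2, k4, k3⟩

/-- the chart of the blow up, in the ambient space -/
def Ps (S : PS M) (e : Chart n V.X) (l : Fin n) (Φ : Cm (n + n) → Cm (M + 1)) (w : Cm (n + n)) :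
    ((V.prod V).prod S.P).X :=
  (V.prod V).pair S.P (V.pair V (e.symm (fstP w)) (e.symm (yw l w))) (S.pt (Φ w))

variable {Φ : Cm (n + n) → Cm (M + 1)}

theorem Dv.h1 (h : Dv s κ e a l w Φ) : HolA (n + n) n (fun w => e.symm (fstP w)) w :=
  holA_symm (fun _ => hol_R (an_co _ w)) h.he h.near.self_of_nhds.1

theorem Dv.h2 (h : Dv s κ e a l w Φ) : HolA (n + n) n (fun w => e.symm (yw l w)) w :=
  holA_symm (fun j => hol_R (analyticAt_pi_iff.1 (an_yw l w) j)) h.he h.near.self_of_nhds.2.1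

theorem Dv.h3 (h : Dv s κ e a l w Φ) (S : PS M) : HolA (n + n) M (fun w => S.pt (Φ w)) w :=
  S.holA (fun m => hol_R (h.an m)) h.near.self_of_nhds.2.2.2.2.1

theorem Dv.hol (h : Dv s κ e a l w Φ) (S : PS M) : HolA (n + n) (n + n + M) (Ps S e l Φ) w :=
  (h.h1.pair h.h2).pair (h.h3 S)

theorem Dv.imm (hy : Hy s κ) (h : Dv s κ e a l w Φ) (S : PS M) :
    Imm (n + n) (n + n + M) (Ps S e l Φ) w := by
  obtain ⟨t1, t2, t3, -, t4, -, t5⟩ := h.near.self_of_nhds
  have a1 := At.of_target h.he t1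
  have a2 := At.of_target h.he t2
  refine (imm_pair (h.h1.pair h.h2) (h.h3 S) (at_R w) (at_prod a1 a2) (at_chart _)).2
    fun v k1 k2 => ?_
  rw [df_pair h.h1 h.h2 (at_R w) a1 a2] at k1
  have k3 : fstP v = 0 := by
    refine (fd_fst w v).symm.trans (Eq.trans ?_ ((fstP_glue _ _).symm.trans (congrArg fstP k1)))
    exact DFunLike.congr_fun (EventuallyEq.fderiv_eq
      (h.near.mono fun w' k => (e.right_inv k.1).symm)) v
  have k4 : tw l v = 0 := by
    have k5 : fstP v + tw l v • Xw l w = 0 := by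
      refine (fd_yw h.zero v).symm.trans
        (Eq.trans ?_ ((sndP_glue _ _).symm.trans (congrArg sndP k1)))
      exact DFunLike.congr_fun (EventuallyEq.fderiv_eq
        (h.near.mono fun w' k => (e.right_inv k.2.1).symm)) v
    simpa [k3, Xw_ne] using k5
  obtain ⟨m, hm⟩ := Function.ne_iff.1 t4
  have k5 := (S.df_eq_zero (fun m => hol_R (h.an m)) hm (at_R w) (at_chart _)).1 k2
  have k6 : update (sndP v) l 0 = sndP v := update_eq_self_iff.2 k4.symm
  have k7 : ∀ j, dd (fun w => Φ w j) (R _) w v = Aw s κ e a (e.symm (fstP w)) (sndP v) j :=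
    fun j => by
    refine (der_line (h.an j) v).unique ((((hasDerivAt_id (0 : ℂ)).mul_const
      (Aw s κ e a (e.symm (fstP w)) (sndP v) j)).const_add (Φ w j)).congr_of_eventuallyEq
        ?_ |>.congr_deriv (one_mul _))
    filter_upwards [(line_ten w v).eventually h.near] with τ k
    rw [k.2.2.2.2.2.2 (by rw [tw_line, h.zero, k4, mul_zero, add_zero]), fst_line, Xw_line, k3,
      smul_zero, add_zero, k6, map_add, map_smul, t5 h.zero]
    rfl
  have k8 : sndP v - (Aw s κ e a (e.symm (fstP w)) (sndP v) m / Φ w m) • Xw l w = 0 := by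
    refine hy.tan _ a e _ t3 a1 (funext fun j => ?_)
    have k9 := k5 j
    rw [dd_div (hol_R (h.an j)) (hol_R (h.an m)) hm (at_R w), k7, k7,
      mul_eq_zero_iff_left (inv_ne_zero (pow_ne_zero 2 hm))] at k9
    rw [map_sub, map_smul, ← t5 h.zero, Pi.sub_apply, Pi.smul_apply, smul_eq_mul, Pi.zero_apply]
    have hm' : Φ w m ≠ 0 := hm
    field_simp
    linear_combination k9
  have k9 := congrFun k8 l
  rw [Pi.sub_apply, Pi.smul_apply, Xw_self, show sndP v l = 0 from k4, smul_eq_mul, mul_one,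
    zero_sub, Pi.zero_apply, neg_eq_zero] at k9
  rw [k9, zero_smul, sub_zero] at k8
  rw [← glue_fst_snd v, k3, k8]
  exact glue_fst_snd 0

end Vale.Agent.P280Z.Hr.Bx
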