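import Vale.Agent.P280Z.Hr.BlA

/-!
# P280Z, block Hr: the closure of the graph of the secant map is a compact submanifold
-/

open scoped Manifold ContDiff Topology Matrix
open Set Filter Function
open Vale.Agent.P272.K Vale.Agent.P285.H281.FD Vale.Agent.P281Z Vale.Agent.P272.K.Prod
open Vale.Agent.P277Z (Hol at_chart hol_const)
open Vale.Agent.P277Z.Slc (dd dd_congr dd_mul dd_chart Ind)

noncomputable section

namespace Vale.Agent.P280Z.Hr.Bx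

section gen

variable {n p : ℕ} {X Y : Type} [TopologicalSpace X] [ChartedSpace (Cm n) X] [TopologicalSpace Y]
  [ChartedSpace (Cm p) Y] [IsManifold 𝓘(ℂ, Cm n) ω X] [IsManifold 𝓘(ℂ, Cm p) ω Y]

theorem subM_pt {f : X → Y} {x : X} {S : Set Y} (hi : Imm n p f x) (hf : HolA n p f x)
    (h1 : ∀ᶠ x' in 𝓝 x, f x' ∈ S) (h2 : ∀ U ∈ 𝓝 x, ∀ᶠ z in 𝓝 (f x), z ∈ S → z ∈ f '' U) :
    ∃ (c : ℕ) (h : Fin c → Y → ℂ), n + c = p ∧ Ind p h (f x) ∧
      ∀ᶠ y in 𝓝 (f x), y ∈ S ↔ ∀ a, h a y = 0 := by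
  obtain ⟨c, h, k1, k2, k3, k4⟩ := hi.img hf
  refine ⟨c, h, k1, k2, ?_⟩
  filter_upwards [h2 _ k3, k4 _ h1] with z l1 l2
  exact ⟨fun k => let ⟨_, m1, m2⟩ := l1 k; m2 ▸ m1, fun k => let ⟨_, m1, m2⟩ := l2 k; m2 ▸ m1⟩

theorem hol_app {f : Y → ℂ} {g : X → Y} {v : X → Cm p} {x : X} {e : Chart p Y}
    (hf : Hol p f (g x)) (hg : HolA n p g x) (he : At e (g x)) (hv : ∀ j, Hol n (fun x => v x j) x) :
    Hol n (fun x => dd f e (g x) (v x)) x :=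
  ((hg.anV he).prod (AnV.pi hv)).cmp 
    (G := fun q : Cm p × Cm p => fderiv ℂ (fun z => f (e.symm z)) q.1 q.2)
    (((hf e he).fderiv.fun_comp (f := Prod.fst) analyticAt_fst).contDiffAt.clm_apply
      (n := ω) contDiffAt_snd).analyticAt

/-- a point in the chart of the blow up -/
def wv (l : Fin n) (a v : Cm n) (c : ℂ) : Cm (n + n) := glue a (update ((v l)⁻¹ • v) l c)

variable {l : Fin n} {a v : Cm n} {c : ℂ}

theorem fst_wv : fstP (wv l a v c) = a := fstP_glue _ _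

theorem tw_wv : tw l (wv l a v c) = c := by rw [tw, wv, sndP_glue, update_self]

theorem Xw_wv (h : v l ≠ 0) : Xw l (wv l a v c) = (v l)⁻¹ • v := by
  rw [Xw, wv, sndP_glue, update_idem, update_eq_self_iff]
  exact (inv_mul_cancel₀ h).symm

theorem yw_wv (h : v l ≠ 0) : yw l (wv l a v (v l)) = a + v := by
  rw [yw, fst_wv, tw_wv, Xw_wv h, smul_inv_smul₀ h]

theorem wv_smul {t : ℂ} (ht : t ≠ 0) : wv l a (t • v) c = wv l a v c := by
  rw [wv, wv, ← ratio_eq, ← ratio_eq]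
  simp only [smul_ratio ht]

theorem an_wv (h : v l ≠ 0) :
    AnalyticAt ℂ (fun q : Cm n × Cm n × ℂ => wv l q.1 q.2.1 q.2.2) (a, v, c) := by
  refine (contDiff_glue (r := ω) contDiffAt_fst (AnalyticAt.pi fun j => ?_).contDiffAt).analyticAt
  have k : ∀ j, AnalyticAt ℂ (fun q : Cm n × Cm n × ℂ => q.2.1 j) (a, v, c) := fun j =>
    AnalyticAt.fun_comp (g := fun v : Cm n => v j) (f := fun q : Cm n × Cm n × ℂ => q.2.1)
      (an_co j v) (analyticAt_fst.fun_comp analyticAt_snd)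
  by_cases hj : j = l
  · simp only [hj, update_self]
    exact analyticAt_snd.fun_comp analyticAt_snd
  · simp only [update_of_ne hj]
    exact ((k l).inv h).mul (k j)

end gen

variable {d N M : ℕ} {V : Mf (d + 1)} {L : Bd V.X} {ι : Type} {s : ι → L.ι → V.X → ℂ}
  {κ : Fin (M + 1) → ι × ι} (P : PB (tanV V) N) {S : PS M}

/-- the two parts of the third coordinate -/
structure Dat (s : ι → L.ι → V.X → ℂ) (κ : Fin (M + 1) → ι × ι) (T : P.P.X → S.P.X)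
    (γ : V.X → V.X → S.P.X) : Prop extends Hy s κ where
  hT : HolM N M T
  T_eq : ∀ e a h z, At e (P.pr z) → P.pr z ∈ L.U a → z ∈ P.H.U h →
    T z = S.pt (Aw s κ e a (P.pr z) (P.x e h z))
  γ_eq : ∀ a b x y, x ∈ L.U a → y ∈ L.U b → x ≠ y → γ x y = S.pt (om s κ a b x y)

theorem Hy.dat (h : Hy s κ) (S : PS M) : ∃ (T : P.P.X → S.P.X) (γ : V.X → V.X → S.P.X),
    Dat P s κ T γ := by
  obtain ⟨T, h1, h2⟩ := S.lift (m := N) (κ := Chart (d + 1) V.X × L.ι × P.H.ι)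
    (O := fun b => P.pr ⁻¹' ((tanV V).U b.1 ∩ L.U b.2.1) ∩ P.H.U b.2.2)
    (fun b => ((((tanV V).isOpen _).inter (h.lb.isOpen _)).preimage P.hol.cont).inter
      (P.lb.isOpen _))
    (fun z => let ⟨a, k⟩ := h.lb.cover (P.pr z); let ⟨b, k'⟩ := P.lb.cover z
      ⟨(_, a, b), ⟨at_chart _, k⟩, k'⟩)
    (s := fun b z => Aw s κ b.1 b.2.1 (P.pr z) (P.x b.1 b.2.2 z))
    (fun b z k m => ((P.hol.hol (sec_hol (h.sec _) k.1.2)).mul (hol_app (sec_hol (h.sec _) k.1.2)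
      (P.hol.at z) k.1.1 (P.xhol _ _ z k.1.1 k.2))).sub ((P.hol.hol (sec_hol (h.sec _) k.1.2)).mul
      (hol_app (sec_hol (h.sec _) k.1.2) (P.hol.at z) k.1.1 (P.xhol _ _ z k.1.1 k.2))))
    (fun b z k k' => P.xnz _ _ z k.1.1 k.2 (h.tan _ _ _ _ k.1.2 k.1.1 k'))
    fun b b' z k k' => ⟨_, by
      rw [P.xH _ _ b'.2.2 z k.1.1 k.2 k'.2, P.xE _ b'.1 _ z k.1.1 k'.1.1 k'.2, map_smul,
        h.Aw_chg k.1.2 k'.1.2 k.1.1 k'.1.1, smul_smul]⟩
  choose c hc using h.lb.cover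
  refine ⟨T, fun x y => S.pt (om s κ (c x) (c y) x y), h, h1,
    fun e a b z k1 k2 k3 => h2 (e, a, b) z ⟨⟨k1, k2⟩, k3⟩, fun a b x y k1 k2 k3 => ?_⟩
  rw [h.om_chg (hc x) k1 (hc y) k2, S.pt_smul (mul_ne_zero (h.lb.ne_zero _ _ x (hc x) k1)
    (h.lb.ne_zero _ _ y (hc y) k2)) fun k => k3 (h.pts x y a b k1 k2 k)]

/-- the exceptional divisor -/
def II (T : P.P.X → S.P.X) (z : P.P.X) : ((V.prod V).prod S.P).X :=
  (V.prod V).pair S.P (V.pair V (P.pr z) (P.pr z)) (T z)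

/-- the graph of the secant map -/
def GG (γ : V.X → V.X → S.P.X) (u : (V.prod V).X) : ((V.prod V).prod S.P).X :=
  (V.prod V).pair S.P u (γ (V.p1 V u) (V.p2 V u))

variable (V) in
/-- the complement of the diagonal -/
def OO : Set (V.prod V).X := {u | V.p1 V u ≠ V.p2 V u}

/-- the blow up -/
def BB (T : P.P.X → S.P.X) (γ : V.X → V.X → S.P.X) : Set ((V.prod V).prod S.P).X :=
  range (II P T) ∪ GG γ '' OO V

/-- the chart, on the divisor -/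
def rho (e : Chart (d + 1) V.X) (h : P.H.ι) (l : Fin (d + 1)) (z : P.P.X) : Cm (d + 1 + (d + 1)) :=
  wv l (e (P.pr z)) (P.x e h z) 0

/-- the direction of a secant -/
def ZZ (e : Chart (d + 1) V.X) (u : (V.prod V).X) : P.P.X :=
  P.pt e (V.p1 V u) (e (V.p2 V u) - e (V.p1 V u))

/-- the projection on the divisor -/
def zw (e : Chart (d + 1) V.X) (l : Fin (d + 1)) (w : Cm (d + 1 + (d + 1))) : P.P.X :=
  P.pt e (e.symm (fstP w)) (Xw l w)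

variable {P} {T : P.P.X → S.P.X} {γ : V.X → V.X → S.P.X} {e : Chart (d + 1) V.X} {a : L.ι}
  {h : P.H.ι} {l : Fin (d + 1)} {z : P.P.X} {w : Cm (d + 1 + (d + 1))}
  {Φ : Cm (d + 1 + (d + 1)) → Cm (M + 1)} {u : (V.prod V).X}

theorem oo_open : IsOpen (OO V) := isOpen_ne_fun cont_p1 cont_p2

theorem Dat.hI (D : Dat P s κ T γ) : HolM N (d + 1 + (d + 1) + M) (II P T) :=
  (P.hol.pair P.hol).pair D.hT

theorem Dat.injI (D : Dat P s κ T γ) : Injective (II P T) := fun z z' k => by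
  have k1 : P.pr z = P.pr z' := (pair_inj.1 (pair_inj.1 k).1).1
  have k2 := (pair_inj.1 k).2
  have he := at_chart (n := d + 1) (P.pr z)
  obtain ⟨a, ha⟩ := D.lb.cover (P.pr z)
  obtain ⟨h, hh⟩ := P.lb.cover z
  obtain ⟨h', hh'⟩ := P.lb.cover z'
  rw [D.T_eq _ a h z he ha hh, D.T_eq _ a h' z' (k1 ▸ he) (k1 ▸ ha) hh', ← k1] at k2
  obtain ⟨c, hc⟩ := (S.pt_eq_iff (fun k => P.xnz _ _ z he hh (D.tan _ _ _ _ ha he k))
    fun k => P.xnz _ _ z' (k1 ▸ he) hh' (D.tan _ _ _ _ ha he k)).1 k2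
  exact P.ext k1.symm he hh hh' ⟨c, sub_eq_zero.1 (D.tan _ _ _ _ ha he (by
    rw [map_sub, map_smul, hc, sub_self]))⟩

theorem Dat.hγ (D : Dat P s κ T γ) (hu : u ∈ OO V) :
    HolA (d + 1 + (d + 1)) M (fun u => γ (V.p1 V u) (V.p2 V u)) u := by
  obtain ⟨a, ha⟩ := D.lb.cover (V.p1 V u)
  obtain ⟨b, hb⟩ := D.lb.cover (V.p2 V u)
  refine (S.holA (D.om_hol (hol_p1.at u) (hol_p2.at u) ha hb)
    fun k => hu (D.pts _ _ a b ha hb k)).cng ?_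
  filter_upwards [oo_open.mem_nhds hu, cont_p1.continuousAt.eventually (lb_near D.lb ha),
    cont_p2.continuousAt.eventually (lb_near D.lb hb)] with u' k1 k2 k3
    using (D.γ_eq a b _ _ k2 k3 k1).symm

theorem Dat.hG (D : Dat P s κ T γ) (hu : u ∈ OO V) :
    HolA (d + 1 + (d + 1)) (d + 1 + (d + 1) + M) (GG γ) u := (holM_id.at u).pair (D.hγ hu)

theorem Dat.ps_near (D : Dat P s κ T γ) (k : Dv s κ e a l w Φ) : ∀ᶠ w' in 𝓝 w,
    (tw l w' = 0 → Ps S e l Φ w' = II P T (zw P e l w')) ∧ (tw l w' ≠ 0 →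
      e.symm (fstP w') ≠ e.symm (yw l w') ∧
      Ps S e l Φ w' = GG γ (V.pair V (e.symm (fstP w')) (e.symm (yw l w')))) := by
  filter_upwards [k.near] with w' ⟨k1, k2, k3, k4, k5, k6, k7⟩
  have he := At.of_target k.he k1
  refine ⟨fun k8 => ?_, fun k8 => ?_⟩
  · have h1 : P.pr (zw P e l w') = e.symm (fstP w') := P.pr_pt e _ he _
    obtain ⟨h, hh⟩ := P.lb.cover (zw P e l w')
    obtain ⟨c, h2, h3⟩ := P.x_pt' (i := e) he (Xw_ne l w') hh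
    rw [II, D.T_eq e a h _ (h1 ▸ he) (h1 ▸ k3) hh, h1, zw, h3, map_smul, ← k7 k8, S.pt_smul h2 k5,
      Ps, yw_zero k8]
  · have h1 : e.symm (fstP w') ≠ e.symm (yw l w') := fun c =>
      smul_ne_zero k8 (Xw_ne l w') (left_eq_add.1 (e.symm.injOn k1 k2 c))
    refine ⟨h1, ?_⟩
    rw [GG, p1_pair, p2_pair, D.γ_eq a a _ _ k3 k4 h1, k6, S.pt_smul k8 k5, Ps]

theorem Dat.ps_mem (D : Dat P s κ T γ) (k : Dv s κ e a l w Φ) :
    ∀ᶠ w' in 𝓝 w, Ps S e l Φ w' ∈ BB P T γ :=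
  (D.ps_near k).mono fun w' k' => (em (tw l w' = 0)).imp (fun c => ⟨_, (k'.1 c).symm⟩)
    fun c => ⟨_, (k'.2 c).1, (k'.2 c).2.symm⟩

/-- a chart at a point of the divisor -/
structure Ch (s : ι → L.ι → V.X → ℂ) (κ : Fin (M + 1) → ι × ι) (P : PB (tanV V) N) (z : P.P.X)
    (e : Chart (d + 1) V.X) (a : L.ι) (h : P.H.ι) (l : Fin (d + 1))
    (Φ : Cm (d + 1 + (d + 1)) → Cm (M + 1)) : Prop where
  he : At e (P.pr z)
  hh : z ∈ P.H.U h
  hl : P.x e h z l ≠ 0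
  dv : Dv s κ e a l (rho P e h l z) Φ

theorem Hy.ch (D : Hy s κ) (he : At e (P.pr z)) (ha : P.pr z ∈ L.U a) :
    ∃ h l Φ, Ch s κ P z e a h l Φ :=
  let ⟨h, hh⟩ := P.lb.cover z
  let ⟨l, hl⟩ := Function.ne_iff.1 (P.xnz e h z he hh)
  let ⟨Φ, k⟩ := D.dv (l := l) (w := rho P e h l z) he ha fst_wv tw_wv
  ⟨h, l, Φ, he, hh, hl, k⟩

theorem Ch.anV (C : Ch s κ P z e a h l Φ) : AnV N (rho P e h l) z :=
  (((P.hol.at z).anV C.he).prod ((AnV.pi (P.xhol e h z C.he C.hh)).prod (anV_const 0 z))).cmp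
    (an_wv C.hl)

theorem Ch.hol (C : Ch s κ P z e a h l Φ) : HolA N (d + 1 + (d + 1)) (rho P e h l) z :=
  .of_hol C.anV.cont (at_R _) C.anV.hol

theorem Ch.zw_rho (C : Ch s κ P z e a h l Φ) : ∀ᶠ z' in 𝓝 z, zw P e l (rho P e h l z') = z' := by
  filter_upwards [P.near (i := e) C.he C.hh, (P.xhol e h z C.he C.hh l).ne_near C.hl]
    with z' k1 k2
  rw [zw, rho, fst_wv, Xw_wv k2, At.left_inv k1.1, P.pt_x e h z' _ k1.1 k1.2 (inv_ne_zero k2)]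

theorem Dat.ps_rho (D : Dat P s κ T γ) (C : Ch s κ P z e a h l Φ) :
    ∀ᶠ z' in 𝓝 z, Ps S e l Φ (rho P e h l z') = II P T z' := by
  filter_upwards [C.anV.cont.eventually (D.ps_near C.dv), C.zw_rho] with z' k1 k2
  rw [k1.1 tw_wv, k2]

theorem Dat.immI (D : Dat P s κ T γ) (z : P.P.X) : Imm N (d + 1 + (d + 1) + M) (II P T) z := by
  obtain ⟨a, ha⟩ := D.lb.cover (P.pr z)
  obtain ⟨h, l, Φ, C⟩ := D.ch (at_chart _) ha
  have h1 : HolA (d + 1 + (d + 1)) N (zw P _ l) (rho P _ h l z) :=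
    P.holA C.dv.h1 (At.of_target C.dv.he C.dv.near.self_of_nhds.1)
      (fun j => hol_R (analyticAt_pi_iff.1 (an_Xw l _) j)) (Xw_ne _ _)
  exact (Imm.comp (C.dv.hol S) C.hol (C.dv.imm D.toHy S) (.of_comp h1 C.hol
    ((imm_id z).cng (C.zw_rho.mono fun _ => Eq.symm)))).cng (D.ps_rho C)

theorem Dat.embI (D : Dat P s κ T γ) : Emb N (d + 1 + (d + 1) + M) (II P T) (range (II P T)) :=
  ⟨D.hI, D.injI, D.immI, rfl⟩

theorem Dat.conv (D : Dat P s κ T γ) (C : Ch s κ P z e a h l Φ) {F : Filter (V.prod V).X}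
    (h1 : F ≤ 𝓝 (V.pair V (P.pr z) (P.pr z))) (h2 : ∀ᶠ u in F, u ∈ OO V)
    (h3 : Tendsto (ZZ P e) F (𝓝 z)) : ∃ τ : (V.prod V).X → Cm (d + 1 + (d + 1)),
      Tendsto τ F (𝓝 (rho P e h l z)) ∧ ∀ᶠ u in F, Ps S e l Φ (τ u) = GG γ u := by
  have t1 : Tendsto (V.p1 V) F (𝓝 (P.pr z)) := (cont_p1.tendsto _).mono_left h1
  have t2 : Tendsto (V.p2 V) F (𝓝 (P.pr z)) := (cont_p2.tendsto _).mono_left h1
  have t3 := (e.continuousAt C.he.2).tendsto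
  have t4 : Tendsto (fun u => e (V.p2 V u) l - e (V.p1 V u) l) F (𝓝 0) :=
    sub_self (e (P.pr z) l) ▸ (tendsto_pi_nhds.1 (t3.comp t2) l).sub (tendsto_pi_nhds.1 (t3.comp t1) l)
  have t5 := (AnV.pi (P.xhol e h z C.he C.hh)).cont.tendsto.comp h3
  let τ : (V.prod V).X → Cm (d + 1 + (d + 1)) := fun u =>
    wv l (e (V.p1 V u)) (P.x e h (ZZ P e u)) (e (V.p2 V u) l - e (V.p1 V u) l)
  have t6 : Tendsto τ F (𝓝 (rho P e h l z)) :=
    Tendsto.comp (f := fun u => (e (V.p1 V u), P.x e h (ZZ P e u), e (V.p2 V u) l - e (V.p1 V u) l))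
      (an_wv (a := e (P.pr z)) (c := 0) C.hl).continuousAt
      ((t3.comp t1).prodMk_nhds (t5.prodMk_nhds t4))
  refine ⟨τ, t6, ?_⟩
  filter_upwards [t6.eventually (D.ps_near C.dv), t1.eventually (at_near C.he),
    t2.eventually (at_near C.he), h2, h3.eventually (lb_near P.lb C.hh),
    h3.eventually ((P.xhol e h z C.he C.hh l).ne_near C.hl)] with u k1 k2 k3 k4 k5 k6
  have k7 : e (V.p2 V u) - e (V.p1 V u) ≠ 0 := fun c =>
    k4 (e.injOn k3.2 k2.2 (sub_eq_zero.1 c)).symm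
  have k8 := (P.x_ne_iff (i := e) k2 k7 k5 l).1 k6
  obtain ⟨c, k9, k10⟩ := P.x_pt' (i := e) k2 k7 k5
  have k11 : τ u = wv l (e (V.p1 V u)) (e (V.p2 V u) - e (V.p1 V u))
      ((e (V.p2 V u) - e (V.p1 V u)) l) := by
    rw [← wv_smul k9, ← k10]
    rfl
  rw [(k1.2 (by rwa [k11, tw_wv])).2, k11, yw_wv k8, fst_wv, add_sub_cancel, k2.left_inv,
    k3.left_inv, pair_eta]

theorem Dat.lim (D : Dat P s κ T γ) {x : V.X} (he : At e x) (F : Ultrafilter (V.prod V).X)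
    (h1 : ↑F ≤ 𝓝 (V.pair V x x)) (h2 : ∀ᶠ u in F, u ∈ OO V) :
    ∃ z, Tendsto (ZZ P e) F (𝓝 z) ∧ Tendsto (GG γ) F (𝓝 (II P T z)) := by
  obtain ⟨z, -, h3⟩ := isCompact_univ.ultrafilter_le_nhds (F.map (ZZ P e)) (by simp)
  have t1 : Tendsto (V.p1 V) F (𝓝 x) := (cont_p1.tendsto _).mono_left h1
  obtain rfl : x = P.pr z := tendsto_nhds_unique t1 (((P.hol.cont.tendsto z).comp h3).congr'
    ((t1.eventually (at_near he)).mono fun u k => P.pr_pt e _ k _))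
  obtain ⟨a, ha⟩ := D.lb.cover (P.pr z)
  obtain ⟨h, l, Φ, C⟩ := D.ch he ha
  obtain ⟨τ, k1, k2⟩ := D.conv C h1 h2 h3
  exact ⟨z, h3, (D.ps_rho C).self_of_nhds ▸ ((C.dv.hol S).cont.tendsto.comp k1).congr' k2⟩

theorem ten_p1 {F : Filter (V.prod V).X} {b : ((V.prod V).prod S.P).X}
    (h : Tendsto (GG γ) F (𝓝 b)) : F ≤ 𝓝 ((V.prod V).p1 S.P b) := (cont_p1.tendsto b).comp h

theorem Dat.onto (D : Dat P s κ T γ) (C : Ch s κ P z e a h l Φ) {U : Set (Cm (d + 1 + (d + 1)))}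
    (hU : U ∈ 𝓝 (rho P e h l z)) : ∀ᶠ b in 𝓝 (II P T z), b ∈ BB P T γ → b ∈ Ps S e l Φ '' U := by
  let F := comap (GG γ) (𝓝 (II P T z)) ⊓ 𝓟 (OO V)
  have h0 : Tendsto (GG γ) F (𝓝 (II P T z)) := tendsto_comap.mono_left inf_le_left
  have h1 : F ≤ 𝓝 (V.pair V (P.pr z) (P.pr z)) := ten_p1 h0
  have h2 : ∀ᶠ u in F, u ∈ OO V := mem_inf_of_right (mem_principal_self _)
  obtain ⟨τ, k1, k2⟩ := D.conv C h1 h2 (tendsto_iff_ultrafilter _ _ _ |>.2 fun G hG => by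
    obtain ⟨z', k1, k2⟩ := D.lim C.he G (hG.trans h1) (hG h2)
    rwa [D.injI (tendsto_nhds_unique (h0.mono_left hG) k2)])
  have k3 := eventually_comap.1 (eventually_inf_principal.1 ((k1.eventually hU).and k2))
  filter_upwards [k3, D.embI.ev.1 ((C.anV.cont.eventually hU).and (D.ps_rho C))] with b l1 l2
  rintro (⟨z', rfl⟩ | ⟨u, hu, rfl⟩)
  · exact ⟨_, l2 z' rfl⟩
  · exact ⟨_, l1 u rfl hu⟩

theorem Dat.closed (D : Dat P s κ T γ) : IsClosed (BB P T γ) := by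
  refine isClosed_of_closure_subset fun b hb => ?_
  rw [BB, closure_union, D.embI.closed.closure_eq] at hb
  refine hb.elim .inl fun k => ?_
  obtain ⟨G, k1, k2⟩ := mem_closure_iff_ultrafilter.1 k
  have k3 : ∀ᶠ u in G.map ((V.prod V).p1 S.P), u ∈ OO V :=
    mem_map.2 (mem_of_superset k1 fun _ ⟨_, l1, l2⟩ => l2 ▸ l1)
  have k4 : Tendsto (GG γ) (G.map ((V.prod V).p1 S.P)) (𝓝 b) :=
    tendsto_map'_iff.2 (Tendsto.congr' (mem_of_superset k1 fun _ ⟨_, _, l2⟩ => l2 ▸ rfl) k2)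
  by_cases c : (V.prod V).p1 S.P b ∈ OO V
  · exact .inr ⟨_, c, tendsto_nhds_unique ((D.hG c).cont.tendsto.mono_left (ten_p1 k4)) k4⟩
  · obtain ⟨z, -, k5⟩ := D.lim (at_chart _) _ ((ten_p1 k4).trans_eq
      (congrArg 𝓝 (prod_ext rfl (not_not.1 c).symm))) k3
    exact .inl ⟨z, tendsto_nhds_unique k5 k4⟩

theorem Dat.subM (D : Dat P s κ T γ) :
    SubM (d + 1 + (d + 1) + M) (d + 1 + (d + 1)) (BB P T γ) := by
  rintro _ (⟨z, rfl⟩ | ⟨u, hu, rfl⟩)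
  · obtain ⟨a, ha⟩ := D.lb.cover (P.pr z)
    obtain ⟨h, l, Φ, C⟩ := D.ch (at_chart _) ha
    have k := (D.ps_rho C).self_of_nhds
    exact k ▸ subM_pt (C.dv.imm D.toHy S) (C.dv.hol S) (D.ps_mem C.dv) fun U hU =>
      k ▸ D.onto C hU
  · refine subM_pt ((imm_id u).pair_left (holM_id.at u) (D.hγ hu)) (D.hG hu)
      ((oo_open.eventually_mem hu).mono fun u' k => .inr ⟨u', k, rfl⟩) fun U hU => ?_
    filter_upwards [cont_p1.continuousAt.eventually (p := fun u => u ∈ U ∧ u ∈ OO V)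
      (inter_mem hU (oo_open.mem_nhds hu))] with b k
    rintro (⟨z, rfl⟩ | ⟨u', -, rfl⟩)
    · exact (k.2 rfl).elim
    · exact ⟨u', k.1, rfl⟩

end Vale.Agent.P280Z.Hr.Bx
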