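import Vale.Agent.P280Z.Hr.Bl

/-!
# P280Z, block Hr: the charts of the blow up, and the canonical bundle (statement)
-/

open scoped Manifold ContDiff Topology Matrix
open Set Filter Function
open Vale.Agent.P272.K Vale.Agent.P285.H281.FD Vale.Agent.P281Z Vale.Agent.P272.K.Prod
open Vale.Agent.P277Z (Hol)
open Vale.Agent.P277.HD (pull)

noncomputable section

namespace Vale.Agent.P280Z.Hr

variable {n : ℕ}

/-- the equation of the exceptional divisor -/
def tw (l : Fin n) (w : Cm (n + n)) : ℂ := sndP w l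

/-- the direction -/
def Xw (l : Fin n) (w : Cm (n + n)) : Cm n := update (sndP w) l 1

/-- the second point -/
def yw (l : Fin n) (w : Cm (n + n)) : Cm n := fstP w + tw l w • Xw l w

/-- `Ψ` is a standard chart of the blow up at `z`, in which `f` is an equation of the divisor -/
structure Par {V : Mf n} {B : Mf (n + n)} (p q : B.X → V.X) (f : B.X → ℂ) (z : B.X)
    (e : Chart n V.X) (l : Fin n) (Ψ : Cm (n + n) → B.X) (w₀ : Cm (n + n)) (u : Cm (n + n) → ℂ) :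
    Prop where
  pt : Ψ w₀ = z
  hol : HolA (n + n) (n + n) Ψ w₀
  imm : Imm (n + n) (n + n) Ψ w₀
  a1 : At e (p z)
  a2 : At e (q z)
  zero : tw l w₀ = 0
  hu : Hol (n + n) u w₀
  u0 : u w₀ ≠ 0
  near : ∀ᶠ w in 𝓝 w₀, e (p (Ψ w)) = fstP w ∧ e (q (Ψ w)) = yw l w ∧ f (Ψ w) = u w * tw l w

/-- **row CAN**: the canonical bundle of the blow up -/
def CAN : Prop := ∀ {d : ℕ} (V : Mf (d + 1)) (B : Mf (d + 1 + (d + 1))) (p q : B.X → V.X)
  (N : Bd B.X) (ε : N.ι → B.X → ℂ), HolM (d + 1 + (d + 1)) (d + 1) p →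
  HolM (d + 1 + (d + 1)) (d + 1) q → IsLB (d + 1 + (d + 1)) N → IsSec (d + 1 + (d + 1)) N ε →
  Dense {z | NZ N ε z} →
  (∀ z, NZ N ε z → Imm (d + 1 + (d + 1)) (d + 1 + (d + 1)) (fun z => V.pair V (p z) (q z)) z) →
  (∀ z, ¬ NZ N ε z → ∃ a e l Ψ w₀ u, z ∈ N.U a ∧ Par p q (ε a) z e l Ψ w₀ u) →
  LIso (d + 1 + (d + 1)) (Bd.can (d + 1 + (d + 1)) B.X)
    (((pull p (Bd.can (d + 1) V.X)).mul (pull q (Bd.can (d + 1) V.X))).mul (N.pow d))

end Vale.Agent.P280Z.Hr
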