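import Vale.Agent.P280Z.Hr.Td

/-!
# P280Z, block Hr: the calculus of `Ex`, `TL`, `NL`
-/

open PowerSeries
open Vale.Agent.P231.ChW (NewtonRec)

noncomputable section

namespace Vale.Agent.P280Z.Hr

variable {B : Type} [CommRing B] [Algebra ℝ B]

theorem ex_c (W : B⟦X⟧) : constantCoeff (Ex W) = 1 := by
  rw [← coeff_zero_eq_constantCoeff_apply, Ex, coeff_mk, exc]

theorem succ_smul (d : ℕ) (a : B) : a * ((d : B) + 1) = ((d : ℝ) + 1) • a := by
  rw [Algebra.smul_def, map_add, map_natCast, map_one, mul_comm]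

omit [Algebra ℝ B] in
theorem coeff_mul_fin (W F : B⟦X⟧) (d : ℕ) :
    coeff d (W * F) = ∑ i : Fin (d + 1), coeff (d - i) W * coeff i F := by
  rw [mul_comm, coeff_mul, Finset.Nat.sum_antidiagonal_eq_sum_range_succ_mk,
    Fin.sum_univ_eq_sum_range (fun i => coeff (d - i) W * coeff i F)]
  exact Finset.sum_congr rfl fun i _ => mul_comm _ _

theorem ex_d (W : B⟦X⟧) : d⁄dX B (Ex W) = W * Ex W := by
  ext d
  have h : ((d : ℝ) + 1) ≠ 0 := by positivity
  rw [coeff_derivative, coeff_mul_fin, succ_smul]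
  simp only [Ex, coeff_mk]
  rw [exc, smul_smul, mul_inv_cancel₀ h, one_smul]

theorem ex_uniq {W F : B⟦X⟧} (h0 : constantCoeff F = 1) (h1 : d⁄dX B F = W * F) : F = Ex W := by
  ext d
  induction d using Nat.strong_induction_on with
  | _ d ih =>
    cases d with
    | zero => rw [coeff_zero_eq_constantCoeff_apply, coeff_zero_eq_constantCoeff_apply, h0, ex_c]
    | succ d =>
      have h : ((d : ℝ) + 1) ≠ 0 := by positivity
      have h2 := congrArg (coeff d) h1
      have h3 := congrArg (coeff d) (ex_d W)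
      rw [coeff_derivative, coeff_mul_fin, succ_smul] at h2 h3
      rw [Finset.sum_congr rfl fun (i : Fin (d + 1)) _ => by rw [ih i i.2], ← h3] at h2
      have h4 := congrArg (fun a => ((d : ℝ) + 1)⁻¹ • a) h2
      simpa only [smul_smul, inv_mul_cancel₀ h, one_smul] using h4

theorem ex_zero : Ex (0 : B⟦X⟧) = 1 :=
  (ex_uniq (by simp) (by simp)).symm

theorem ex_add (W W' : B⟦X⟧) : Ex (W + W') = Ex W * Ex W' := by
  refine (ex_uniq (by rw [map_mul, ex_c, ex_c, mul_one]) ?_).symm
  rw [Derivation.leibniz, ex_d, ex_d, smul_eq_mul, smul_eq_mul]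
  ring

theorem ex_neg (W : B⟦X⟧) : Ex W * Ex (-W) = 1 := by rw [← ex_add, add_neg_cancel, ex_zero]

theorem ex_sum {ι : Type} (s : Finset ι) (W : ι → B⟦X⟧) :
    Ex (∑ i ∈ s, W i) = ∏ i ∈ s, Ex (W i) := by
  classical
  induction s using Finset.induction_on with
  | empty => simp [ex_zero]
  | insert a s ha ih => rw [Finset.sum_insert ha, Finset.prod_insert ha, ex_add, ih]

theorem ex_map {B' : Type} [CommRing B'] [Algebra ℝ B'] (φ : B →+* B') (W : B⟦X⟧) :
    map φ (Ex W) = Ex (map φ W) := by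
  refine ex_uniq ?_ ?_
  · rw [← coeff_zero_eq_constantCoeff_apply, coeff_map, coeff_zero_eq_constantCoeff_apply, ex_c,
      map_one]
  · rw [← map_mul, ← ex_d]
    ext d
    rw [coeff_derivative, coeff_map, coeff_map, coeff_derivative, map_mul, map_add, map_natCast,
      map_one]

theorem ex_rescale (c : B) (W : B⟦X⟧) : rescale c (Ex W) = Ex (C c * rescale c W) := by
  refine ex_uniq ?_ ?_
  · rw [← coeff_zero_eq_constantCoeff_apply, coeff_rescale, coeff_zero_eq_constantCoeff_apply,
      ex_c, pow_zero, one_mul]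
  · rw [mul_assoc, ← map_mul, ← ex_d]
    ext d
    rw [coeff_derivative, coeff_rescale, coeff_C_mul, coeff_rescale, coeff_derivative]
    ring

theorem coeff_ex_C (x : B) (k : ℕ) : coeff k (Ex (C x)) = ((k.factorial : ℝ)⁻¹) • x ^ k := by
  have h : (PowerSeries.mk fun k => ((k.factorial : ℝ)⁻¹) • x ^ k) = Ex (C x) := by
    refine ex_uniq ?_ ?_
    · rw [← coeff_zero_eq_constantCoeff_apply, coeff_mk]
      simp
    · ext d
      rw [coeff_derivative, coeff_C_mul, coeff_mk, coeff_mk, succ_smul, smul_smul, mul_smul_comm,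
        ← pow_succ', Nat.factorial_succ]
      congr 1
      have : (d.factorial : ℝ) ≠ 0 := by positivity
      push_cast
      field_simp
  rw [← h, coeff_mk]

/-! ### the Todd series -/

theorem tl_congr {p p' : ℕ → B} (h : ∀ k, p (k + 1) = p' (k + 1)) : TL p = TL p' := by
  ext k
  simp only [TL, coeff_mk, h]

theorem tl_add (p p' : ℕ → B) : TL (fun k => p k + p' k) = TL p + TL p' := by
  ext k
  simp only [TL, coeff_mk, map_add, smul_add]

theorem tl_sub (p p' : ℕ → B) : TL (fun k => p k - p' k) = TL p - TL p' := by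
  ext k
  simp only [TL, coeff_mk, map_sub, smul_sub]

theorem tl_sum {ι : Type} (s : Finset ι) (p : ι → ℕ → B) :
    TL (fun k => ∑ i ∈ s, p i k) = ∑ i ∈ s, TL (p i) := by
  ext k
  simp only [TL, coeff_mk, map_sum, Finset.smul_sum]

theorem tl_map {B' : Type} [CommRing B'] [Algebra ℝ B'] (φ : B →ₐ[ℝ] B') (p : ℕ → B) :
    map (φ : B →+* B') (TL p) = TL fun k => φ (p k) := by
  ext k
  simp only [TL, coeff_mk, coeff_map, RingHom.coe_coe, map_smul]

theorem tl_rescale (c : B) (p : ℕ → B) :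
    C c * rescale c (TL p) = TL fun k => c ^ k * p k := by
  ext k
  simp only [TL, coeff_mk, coeff_C_mul, coeff_rescale, mul_smul_comm]
  congr 1
  ring

theorem td_real : Ex (TL fun _ => (1 : ℝ)) * (1 - Ex (C (-1))) = X := by
  set g := bernoulliPowerSeries ℝ
  set e := Ex (C (1 : ℝ))
  have he : e = exp ℝ := by
    ext k
    rw [coeff_ex_C, coeff_exp]
    simp
  have hg : g * (e - 1) = X := he ▸ bernoulliPowerSeries_mul_exp_sub_one ℝ
  have hT : X * (TL fun _ => (1 : ℝ)) = 1 - g := by
    ext k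
    cases k with
    | zero => simp [g, bernoulliPowerSeries]
    | succ k =>
      rw [coeff_succ_X_mul, map_sub, coeff_one, if_neg (Nat.succ_ne_zero k)]
      simp [g, bernoulliPowerSeries, TL, neg_div]
  have hd : d⁄dX ℝ e = e := by rw [he, derivative_exp]
  have h1 := congrArg (d⁄dX ℝ) hg
  rw [Derivation.leibniz, map_sub, hd, derivative_one, derivative_X, smul_eq_mul, smul_eq_mul,
    sub_zero] at h1
  have hf : g * e = Ex (TL fun _ => (1 : ℝ)) := by
    refine ex_uniq ?_ ?_
    · rw [map_mul, ex_c, mul_one, ← coeff_zero_eq_constantCoeff_apply]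
      simp [g, bernoulliPowerSeries]
    · refine mul_left_cancel₀ (X_ne_zero (R := ℝ)) ?_
      rw [← mul_assoc, hT, Derivation.leibniz, hd, smul_eq_mul, smul_eq_mul]
      linear_combination (g * e) * h1 - (e * (d⁄dX ℝ g) + g * e) * hg
  have hm : e * Ex (C (-1)) = 1 := by rw [map_neg, ex_neg]
  rw [← hf]
  linear_combination hg - g * hm

/-- the Todd class of a line -/
theorem td_line (x : B) : Ex (TL fun k => x ^ k) * (1 - Ex (C (-x))) = C x * X := by
  have h := congrArg (fun F => rescale x (map (algebraMap ℝ B) F)) td_real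
  simp only [map_mul, map_sub, map_one, map_X, rescale_X, ex_map, ex_rescale] at h
  have h1 : map (algebraMap ℝ B) (TL fun _ => (1 : ℝ)) = TL fun _ => (1 : B) := by
    have := tl_map (Algebra.ofId ℝ B) fun _ => (1 : ℝ)
    simpa using this
  have h2 : C x * rescale x (map (algebraMap ℝ B) (C (-1))) = C (-x) := by
    ext k
    rw [coeff_C_mul, coeff_rescale, coeff_map, coeff_C, coeff_C]
    split_ifs with hk
    · simp [hk]
    · simp
  rw [h1, h2, tl_rescale] at h
  simpa only [mul_one] using h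

/-! ### Newton's recursion -/

/-- the logarithmic derivative of the total Chern class -/
def NL (s : ℕ → B) : B⟦X⟧ := PowerSeries.mk fun k => (-1 : ℝ) ^ k • s (k + 1)

theorem newton_ex (s : ℕ → B) : NewtonRec ℝ s fun k => coeff k (Ex (NL s)) := by
  refine ⟨(coeff_zero_eq_constantCoeff_apply _).trans (ex_c _), fun j => ?_⟩
  have h := congrArg (coeff j) (ex_d (NL s))
  rw [coeff_derivative, succ_smul, coeff_mul,
    Finset.Nat.sum_antidiagonal_eq_sum_range_succ_mk] at h
  rw [h]
  exact Finset.sum_congr rfl fun i _ => by rw [NL, coeff_mk, smul_mul_assoc]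

theorem nl_sub (p p' : ℕ → B) : NL (fun k => p k - p' k) = NL p - NL p' := by
  ext k
  simp only [NL, coeff_mk, map_sub, smul_sub]

theorem nl_sum {ι : Type} (s : Finset ι) (p : ι → ℕ → B) :
    NL (fun k => ∑ i ∈ s, p i k) = ∑ i ∈ s, NL (p i) := by
  ext k
  simp only [NL, coeff_mk, map_sum, Finset.smul_sum]

theorem nl_map {B' : Type} [CommRing B'] [Algebra ℝ B'] (φ : B →ₐ[ℝ] B') (p : ℕ → B) :
    map (φ : B →+* B') (NL p) = NL fun k => φ (p k) := by
  ext k
  simp only [NL, coeff_mk, coeff_map, RingHom.coe_coe, map_smul]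

theorem nl_line (x : B) : Ex (NL fun k => x ^ k) = 1 + C x * X := by
  refine (ex_uniq (by simp) ?_).symm
  ext d
  rw [coeff_derivative, mul_add (NL _), mul_one, ← mul_assoc, map_add, map_add, coeff_one,
    if_neg (Nat.succ_ne_zero d), coeff_C_mul]
  cases d with
  | zero => simp [NL]
  | succ d =>
    rw [coeff_succ_mul_X, coeff_mul_C, coeff_X, if_neg (by omega)]
    simp only [NL, coeff_mk, smul_mul_assoc]
    rw [pow_succ (-1 : ℝ), ← pow_succ x (d + 1)]
    simp

theorem ex_inj {W W' : B⟦X⟧} (h : Ex W = Ex W') : W = W' := by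
  have h1 := ex_d W
  rw [h, ex_d] at h1
  have h2 := ex_neg W'
  linear_combination (-Ex (-W')) * h1 + (W' - W) * h2

theorem nl_inj {p p' : ℕ → B} (h : NL p = NL p') (k : ℕ) : p (k + 1) = p' (k + 1) := by
  have h1 := congrArg (fun F => (-1 : ℝ) ^ k • coeff k F) h
  simpa only [NL, coeff_mk, smul_smul, ← mul_pow, neg_mul_neg, one_mul, one_pow, one_smul] using h1

theorem exists_nl (F : B⟦X⟧) (h : constantCoeff F = 1) (c : B) :
    ∃ p : ℕ → B, p 0 = c ∧ Ex (NL p) = F := by
  refine ⟨fun k => Nat.casesOn k c fun k => (-1 : ℝ) ^ k • coeff k (d⁄dX B F * invOfUnit F 1), rfl,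
    (ex_uniq h ?_).symm⟩
  have h1 : NL (fun k => Nat.casesOn k c fun k =>
      (-1 : ℝ) ^ k • coeff k (d⁄dX B F * invOfUnit F 1)) = d⁄dX B F * invOfUnit F 1 := by
    ext k
    simp only [NL, coeff_mk, smul_smul, ← mul_pow, neg_mul_neg, one_mul, one_pow, one_smul]
  rw [h1, mul_assoc, invOfUnit_mul F 1 (by simpa using h), mul_one]

/-- the inverse of `1 + exp (x t)` -/
def uu (x : B) : B⟦X⟧ := rescale x (map (algebraMap ℝ B) (1 + Ex (C (1 : ℝ)))⁻¹)

theorem uu_mul (x : B) : uu x * (1 + Ex (C x)) = 1 := by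
  have h : (1 + Ex (C (1 : ℝ)))⁻¹ * (1 + Ex (C (1 : ℝ))) = 1 :=
    PowerSeries.inv_mul_cancel _ (by rw [map_add, ex_c, map_one]; norm_num)
  have h1 := congrArg (fun F => rescale x (map (algebraMap ℝ B) F)) h
  simp only [map_mul, map_add, map_one, ex_map, ex_rescale, mul_one] at h1
  simpa only [uu, map_one] using h1

theorem uu_map {B' : Type} [CommRing B'] [Algebra ℝ B'] (φ : B →+* B') (x : B) :
    map φ (uu x) = uu (φ x) := by
  have h := congrArg (map φ) (uu_mul x)
  rw [map_mul, map_add, map_one, ex_map, map_C] at h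
  linear_combination uu (φ x) * h - map φ (uu x) * uu_mul (φ x)

end Vale.Agent.P280Z.Hr
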