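import Vale.Agent.P280Z.Hr.Fm1

/-!
# P280Z, block Hr: the formal direct images for split bundles
-/

open PowerSeries

noncomputable section

namespace Vale.Agent.P280Z.Hr

section lam
variable {B : Type} [CommRing B]

/-- the coefficient of `X ^ d` of the remainder -/
def lam (d : ℕ) (p : Polynomial B) : Polynomial B →ₗ[B] B :=
  (Polynomial.lcoeff B d).comp (Polynomial.modByMonicHom p)

theorem lam_apply (d : ℕ) (p g : Polynomial B) : lam d p g = (Polynomial.modByMonic g p).coeff d :=
  rfl

theorem lam_step [Nontrivial B] {d : ℕ} {p : Polynomial B} (hp : p.Monic) (hd : p.natDegree = d + 1)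
    (x : B) (g : Polynomial B) :
    lam (d + 1) ((Polynomial.X + Polynomial.C x) * p) ((Polynomial.X + Polynomial.C x) * g) =
      lam d p g := by
  have hm := Polynomial.monic_X_add_C x
  have hlt := Polynomial.degree_modByMonic_lt g hp
  have h := (Polynomial.div_modByMonic_unique (f := (Polynomial.X + Polynomial.C x) * g)
    (Polynomial.divByMonic g p) ((Polynomial.X + Polynomial.C x) * Polynomial.modByMonic g p)
    (hm.mul hp) ⟨by rw [mul_assoc, ← mul_add, Polynomial.modByMonic_add_div], by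
      rw [mul_comm _ (Polynomial.modByMonic g p), mul_comm _ p, hm.degree_mul, hm.degree_mul]
      exact WithBot.add_lt_add_right (Polynomial.degree_ne_bot.2 hm.ne_zero) hlt⟩).2
  have h0 : (Polynomial.modByMonic g p).coeff (d + 1) = 0 := by
    refine Polynomial.coeff_eq_zero_of_degree_lt ?_
    rwa [Polynomial.degree_eq_natDegree hp.ne_zero, hd] at hlt
  rw [lam_apply, lam_apply, h, add_mul, Polynomial.coeff_add, Polynomial.coeff_X_mul,
    Polynomial.coeff_C_mul, h0, mul_zero, add_zero]

theorem lam_base (x : B) (g : Polynomial B) :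
    lam 0 (Polynomial.X + Polynomial.C x) g = g.eval (-x) := by
  rw [lam_apply, ← sub_neg_eq_add, ← map_neg, Polynomial.modByMonic_X_sub_C_eq_C_eval,
    Polynomial.coeff_C_zero]

/-- `lam` applied to the coefficients -/
def LS (d : ℕ) (p : Polynomial B) (F : (Polynomial B)⟦X⟧) : B⟦X⟧ :=
  PowerSeries.mk fun k => lam d p (coeff k F)

theorem ls_add (d : ℕ) (p : Polynomial B) (F G : (Polynomial B)⟦X⟧) :
    LS d p (F + G) = LS d p F + LS d p G := by
  ext k
  simp only [LS, coeff_mk, map_add]

theorem ls_sub (d : ℕ) (p : Polynomial B) (F G : (Polynomial B)⟦X⟧) :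
    LS d p (F - G) = LS d p F - LS d p G := by
  ext k
  simp only [LS, coeff_mk, map_sub]

theorem ls_mul (d : ℕ) (p : Polynomial B) (A : B⟦X⟧) (F : (Polynomial B)⟦X⟧) :
    LS d p (map Polynomial.C A * F) = A * LS d p F := by
  ext k
  simp only [LS, coeff_mk, coeff_mul, map_sum, coeff_map, ← Polynomial.smul_eq_C_mul, map_smul,
    smul_eq_mul]

theorem ls_step [Nontrivial B] {d : ℕ} {p : Polynomial B} (hp : p.Monic) (hd : p.natDegree = d + 1)
    (x : B) (F : (Polynomial B)⟦X⟧) :
    LS (d + 1) ((Polynomial.X + Polynomial.C x) * p) (C (Polynomial.X + Polynomial.C x) * F) =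
      LS d p F := by
  ext k
  simp only [LS, coeff_mk, coeff_C_mul, lam_step hp hd]

theorem ls_base (x : B) (F : (Polynomial B)⟦X⟧) :
    LS 0 (Polynomial.X + Polynomial.C x) F = map (Polynomial.evalRingHom (-x)) F := by
  ext k
  simp only [LS, coeff_mk, lam_base, coeff_map, Polynomial.coe_evalRingHom]

theorem ls_map {B' : Type} [CommRing B'] (φ : B →+* B') (d : ℕ) {p : Polynomial B} (hp : p.Monic)
    (F : (Polynomial B)⟦X⟧) :
    map φ (LS d p F) = LS d (p.map φ) (map (Polynomial.mapRingHom φ) F) := by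
  ext k
  simp only [LS, coeff_mk, coeff_map, lam_apply, Polynomial.coe_mapRingHom,
    ← Polynomial.map_modByMonic φ hp, Polynomial.coeff_map]

end lam

section split
variable {B : Type} [CommRing B] [Algebra ℝ B] {ι : Type} [DecidableEq ι] (x : ι → B)

/-- the polynomial with the roots `- x i` -/
def pI (I : Finset ι) : Polynomial B := ∏ i ∈ I, (Polynomial.X + Polynomial.C (x i))

/-- `exp (j ξ) td (E (1))` -/
def GI (I : Finset ι) (j : ℝ) : (Polynomial B)⟦X⟧ :=
  Ex (C (j • Polynomial.X)) * ∏ i ∈ I, Ex (TL fun k => (Polynomial.X + Polynomial.C (x i)) ^ k)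

omit [Algebra ℝ B] [DecidableEq ι] in
theorem pI_monic (I : Finset ι) : (pI x I).Monic :=
  Polynomial.monic_prod_of_monic _ _ fun _ _ => Polynomial.monic_X_add_C _

omit [Algebra ℝ B] [DecidableEq ι] in
theorem pI_deg [Nontrivial B] (I : Finset ι) : (pI x I).natDegree = I.card := by
  rw [pI, Polynomial.natDegree_prod_of_monic _ _ fun _ _ => Polynomial.monic_X_add_C _]
  simp

theorem gi_rec [Nontrivial B] {d : ℕ} {I : Finset ι} (hI : I.card = d + 2) {i : ι} (hi : i ∈ I)
    (j : ℝ) (F : (Polynomial B)⟦X⟧) :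
    LS (d + 1) (pI x I) (GI x I j * F) - Ex (C (-x i)) * LS (d + 1) (pI x I) (GI x I (j - 1) * F) =
      X * LS d (pI x (I.erase i)) (GI x (I.erase i) j * F) := by
  have hc : (I.erase i).card = d + 1 := by rw [Finset.card_erase_of_mem hi, hI]; rfl
  have hp : pI x I = (Polynomial.X + Polynomial.C (x i)) * pI x (I.erase i) :=
    (Finset.mul_prod_erase I _ hi).symm
  have h1 := td_line (Polynomial.X + Polynomial.C (x i) : Polynomial B)
  have h2 : Ex (C (-(Polynomial.X + Polynomial.C (x i)))) * Ex (C (j • Polynomial.X)) =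
      map Polynomial.C (Ex (C (-x i))) * Ex (C ((j - 1) • (Polynomial.X : Polynomial B))) := by
    rw [ex_map, map_C, ← ex_add, ← ex_add, ← map_add, ← map_add, sub_smul, one_smul, map_neg]
    congr 2
    ring
  rw [← ls_mul, ← ls_sub, ← ls_step (pI_monic x _) ((pI_deg x _).trans hc) (x i), ← hp,
    ← ls_mul, map_X]
  congr 1
  rw [GI, GI, GI, ← Finset.mul_prod_erase I _ hi]
  linear_combination (Ex (C (j • Polynomial.X)) * (∏ i ∈ I.erase i,
      Ex (TL fun k => (Polynomial.X + Polynomial.C (x i)) ^ k)) * F) * h1 +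
    (Ex (TL fun k => (Polynomial.X + Polynomial.C (x i)) ^ k) * (∏ i ∈ I.erase i,
      Ex (TL fun k => (Polynomial.X + Polynomial.C (x i)) ^ k)) * F) * h2

theorem gi_main [IsDomain B] (hx : Function.Injective x) (d : ℕ) : ∀ I : Finset ι, I.card = d + 1 →
    LS d (pI x I) (GI x I 0) = X ^ d ∧
    (∀ j : ℕ, 1 ≤ j → j ≤ d → LS d (pI x I) (GI x I (-(j : ℝ))) = 0) ∧
    LS d (pI x I) (GI x I 0 * uu Polynomial.X) * ∏ i ∈ I, (1 + Ex (C (-x i))) = X ^ d := by
  induction d with
  | zero =>
    intro I hI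
    obtain ⟨i, rfl⟩ := Finset.card_eq_one.1 hI
    have h0 : map (Polynomial.evalRingHom (-x i)) (GI x {i} 0) = 1 := by
      have h1 : map (Polynomial.evalRingHom (-x i))
          (TL fun k => (Polynomial.X + Polynomial.C (x i)) ^ k) = 0 := by
        ext k
        simp [TL, Polynomial.eval_smul]
      rw [GI, Finset.prod_singleton, zero_smul, map_zero, ex_zero, one_mul, ex_map, h1, ex_zero]
    rw [pI, Finset.prod_singleton, Finset.prod_singleton, ls_base, ls_base, map_mul, h0, uu_map,
      pow_zero, one_mul]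
    refine ⟨rfl, fun j h1 h2 => by omega, ?_⟩
    simpa using uu_mul (-x i)
  | succ d ih =>
    intro I hI
    obtain ⟨i, k, hi, hk, hik⟩ := Finset.one_lt_card_iff.1 (show 1 < I.card by omega)
    have hc : ∀ i ∈ I, (I.erase i).card = d + 1 := fun i hi => by
      rw [Finset.card_erase_of_mem hi, hI]; rfl
    have hu : Ex (C (-x i)) ≠ 0 := left_ne_zero_of_mul_eq_one (ex_neg _)
    have r1 := gi_rec x hI hi 0 1
    have r2 := gi_rec x hI hk 0 1
    rw [mul_one, mul_one, mul_one, (ih _ (hc _ ‹_›)).1, zero_sub] at r1 r2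
    have hm : LS (d + 1) (pI x I) (GI x I (-1)) = 0 := by
      have h1 : (Ex (C (-x i)) - Ex (C (-x k))) * LS (d + 1) (pI x I) (GI x I (-1)) = 0 := by
        linear_combination r2 - r1
      refine (mul_eq_zero.1 h1).resolve_left fun h2 => hik (hx ?_)
      have h3 := ex_inj (sub_eq_zero.1 h2)
      exact neg_injective (C_injective h3)
    refine ⟨by rw [hm, mul_zero, sub_zero] at r1; rw [r1, pow_succ'], fun j h1 h2 => ?_, ?_⟩
    · induction j, h1 using Nat.le_induction with
      | base => simpa using hm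
      | succ j h1 ihj =>
        have r := gi_rec x hI hi (-(j : ℝ)) 1
        rw [mul_one, mul_one, mul_one, (ih _ (hc _ hi)).2.1 j h1 (by omega), ihj (by omega),
          mul_zero, zero_sub, neg_eq_zero] at r
        have h3 := (mul_eq_zero.1 r).resolve_left hu
        rwa [Nat.cast_add, Nat.cast_one, neg_add']
    · have r := gi_rec x hI hi 0 (uu Polynomial.X)
      have h1 : GI x I (0 - 1) * uu Polynomial.X + GI x I 0 * uu Polynomial.X = GI x I (-1) := by
        have h2 : GI x I 0 = GI x I (-1) * Ex (C Polynomial.X) := by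
          rw [GI, GI, mul_right_comm, ← ex_add, ← map_add]
          simp
        rw [zero_sub, h2]
        linear_combination GI x I (-1) * uu_mul (Polynomial.X : Polynomial B)
      have h2 := congrArg (LS (d + 1) (pI x I)) h1
      rw [ls_add, hm] at h2
      rw [← Finset.mul_prod_erase I _ hi, pow_succ', ← (ih _ (hc _ hi)).2.2]
      linear_combination (∏ i ∈ I.erase i, (1 + Ex (C (-x i)))) * r +
        (Ex (C (-x i)) * ∏ i ∈ I.erase i, (1 + Ex (C (-x i)))) * h2

omit [DecidableEq ι] in
theorem td_two [IsDomain B] {y : B} (hy : y ≠ 0) :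
    rescale 2 (Ex (TL fun k => y ^ k)) = Ex (TL fun k => y ^ k) * (2 * uu (-y)) := by
  have h1 := td_line y
  have h2 := td_line (2 * y)
  have h3 : Ex (C (-(2 * y))) = Ex (C (-y)) * Ex (C (-y)) := by
    rw [← ex_add, ← map_add]
    congr 2
    ring
  have h4 : rescale 2 (Ex (TL fun k => y ^ k)) = Ex (TL fun k => (2 * y) ^ k) := by
    simp only [ex_rescale, tl_rescale, mul_pow]
  have h5 : (1 - Ex (C (-y))) ≠ 0 := fun h => hy (by
    rw [h, mul_zero] at h1
    exact C_injective ((mul_eq_zero.1 h1.symm).resolve_right X_ne_zero |>.trans (map_zero _).symm))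
  rw [h3, map_mul, map_ofNat] at h2
  rw [h4]
  refine mul_right_cancel₀ h5 ?_
  linear_combination uu (-y) * h2 - 2 * uu (-y) * h1 -
    (Ex (TL fun k => (2 * y) ^ k) * (1 - Ex (C (-y)))) * uu_mul (-y)

end split

end Vale.Agent.P280Z.Hr
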