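import Vale.Agent.P280Z.Hr.Fm2

/-!
# P280Z, block Hr: the formal direct images in general
-/

open PowerSeries

noncomputable section

namespace Vale.Agent.P280Z.Hr

variable {B : Type} [CommRing B] [Algebra ℝ B]

/-- the Chern polynomial -/
def pp (n : ℕ) (p : ℕ → B) : Polynomial B :=
  ∑ j ∈ Finset.range (n + 1), Polynomial.C (coeff j (Ex (NL p))) * Polynomial.X ^ (n - j)

/-- the power sums of `E (1)` -/
def qq (p : ℕ → B) (k : ℕ) : Polynomial B :=
  ∑ j ∈ Finset.range (k + 1), (k.choose j : ℝ) • (Polynomial.C (p j) * Polynomial.X ^ (k - j))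

/-- `exp (j ξ) td (E (1))` -/
def GG (p : ℕ → B) (j : ℝ) : (Polynomial B)⟦X⟧ := Ex (C (j • Polynomial.X)) * Ex (TL (qq p))

/-- the three identities -/
def Phi (d : ℕ) (p : ℕ → B) : Prop :=
  LS d (pp (d + 1) p) (GG p 0) = X ^ d ∧
  (∀ j : ℕ, 1 ≤ j → j ≤ d → LS d (pp (d + 1) p) (GG p (-(j : ℝ))) = 0) ∧
  2 ^ (d + 1) * (Ex (TL p) * LS d (pp (d + 1) p) (GG p 0 * uu Polynomial.X)) =
    X ^ d * rescale 2 (Ex (TL p))

theorem pp_eq (n : ℕ) (p : ℕ → B) : pp n p = Polynomial.X ^ n +
    ∑ j ∈ Finset.range n, Polynomial.C (coeff (j + 1) (Ex (NL p))) * Polynomial.X ^ (n - (j + 1)) := by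
  rw [pp, Finset.sum_range_succ', coeff_zero_eq_constantCoeff_apply, ex_c, map_one, one_mul,
    add_comm, Nat.sub_zero]

theorem pp_low (n : ℕ) (p : ℕ → B) : (∑ j ∈ Finset.range n,
    Polynomial.C (coeff (j + 1) (Ex (NL p))) * Polynomial.X ^ (n - (j + 1))).degree <
      (n : WithBot ℕ) := by
  refine (Polynomial.degree_sum_le _ _).trans_lt ((Finset.sup_lt_iff (WithBot.bot_lt_coe _)).2
    fun j hj => (Polynomial.degree_C_mul_X_pow_le _ _).trans_lt ?_)
  have := Finset.mem_range.1 hj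
  exact_mod_cast (show n - (j + 1) < n by omega)

theorem pp_monic (n : ℕ) (p : ℕ → B) : (pp n p).Monic := by
  rw [pp_eq]
  exact Polynomial.monic_X_pow_add (pp_low n p)

theorem pp_degree [Nontrivial B] (n : ℕ) (p : ℕ → B) : (pp n p).degree = n := by
  rw [pp_eq, Polynomial.degree_add_eq_left_of_degree_lt, Polynomial.degree_X_pow]
  rw [Polynomial.degree_X_pow]
  exact pp_low n p

section nat
variable {B' : Type} [CommRing B'] [Algebra ℝ B'] (φ : B →ₐ[ℝ] B') (p : ℕ → B)

theorem pp_map (n : ℕ) : (pp n p).map (φ : B →+* B') = pp n fun k => φ (p k) := by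
  simp only [pp, Polynomial.map_sum, Polynomial.map_mul, Polynomial.map_C, Polynomial.map_pow,
    Polynomial.map_X]
  exact Finset.sum_congr rfl fun j _ => by rw [← coeff_map (φ : B →+* B'), ex_map, nl_map]

theorem gg_map (j : ℝ) :
    map (Polynomial.mapRingHom (φ : B →+* B')) (GG p j) = GG (fun k => φ (p k)) j := by
  have h : map (Polynomial.mapRingHom (φ : B →+* B')) (TL (qq p)) = TL (qq fun k => φ (p k)) := by
    have h1 := tl_map (Polynomial.mapAlgHom φ) (qq p)
    have h2 : (fun k => Polynomial.mapAlgHom φ (qq p k)) = qq fun k => φ (p k) := by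
      funext k
      simp only [qq, map_sum, map_smul, map_mul, map_pow]
      simp
    rw [h2] at h1
    exact h1
  have h' : Polynomial.mapRingHom (φ : B →+* B') (j • Polynomial.X) = j • Polynomial.X := by
    exact (map_smul (Polynomial.mapAlgHom φ) j Polynomial.X).trans (by simp)
  rw [GG, GG, map_mul, ex_map, ex_map, map_C, h, h']

theorem s0_map (d : ℕ) (j : ℝ) : map (φ : B →+* B') (LS d (pp (d + 1) p) (GG p j)) =
    LS d (pp (d + 1) fun k => φ (p k)) (GG (fun k => φ (p k)) j) := by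
  rw [ls_map _ _ (pp_monic _ _), pp_map, gg_map]

theorem s1_map (d : ℕ) : map (φ : B →+* B') (2 ^ (d + 1) * (Ex (TL p) *
      LS d (pp (d + 1) p) (GG p 0 * uu Polynomial.X))) =
    2 ^ (d + 1) * (Ex (TL fun k => φ (p k)) * LS d (pp (d + 1) fun k => φ (p k))
      (GG (fun k => φ (p k)) 0 * uu Polynomial.X)) := by
  rw [map_mul, map_mul, ls_map _ _ (pp_monic _ _), pp_map, map_mul, gg_map, uu_map, ex_map, tl_map,
    map_pow, map_ofNat]
  simp

theorem s2_map (d : ℕ) : map (φ : B →+* B') (X ^ d * rescale 2 (Ex (TL p))) =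
    X ^ d * rescale 2 (Ex (TL fun k => φ (p k))) := by
  rw [map_mul, map_pow, map_X, ← tl_map, ← ex_map]
  congr 1
  ext k
  simp only [coeff_map, coeff_rescale, map_mul, map_pow, map_ofNat]

theorem Phi.map {d : ℕ} (h : Phi d p) : Phi d fun k => φ (p k) := by
  refine ⟨?_, fun j h1 h2 => ?_, ?_⟩
  · rw [← s0_map, h.1, map_pow, map_X]
  · rw [← s0_map, h.2.1 j h1 h2, map_zero]
  · rw [← s1_map, h.2.2, s2_map]

theorem Phi.comap (hφ : Function.Injective φ) {d : ℕ} (h : Phi d fun k => φ (p k)) : Phi d p := by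
  have hi : Function.Injective (PowerSeries.map (φ : B →+* B')) := map_injective _ hφ
  refine ⟨hi ?_, fun j h1 h2 => hi ?_, hi ?_⟩
  · rw [s0_map, h.1, map_pow, map_X]
  · rw [s0_map, h.2.1 j h1 h2, map_zero]
  · rw [s1_map, h.2.2, s2_map]

end nat

theorem coeff_esymm (n k : ℕ) :
    coeff k (Ex (NL fun k => ∑ i : Fin n, (MvPolynomial.X i : MvPolynomial (Fin n) ℝ) ^ k)) =
      MvPolynomial.esymm (Fin n) ℝ k := by
  rw [nl_sum, ex_sum]
  simp only [nl_line]
  rw [Finset.prod_one_add, map_sum, MvPolynomial.esymm, Finset.powersetCard_eq_filter,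
    Finset.sum_filter]
  refine Finset.sum_congr rfl fun t _ => ?_
  rw [Finset.prod_mul_distrib, Finset.prod_const, ← map_prod, coeff_C_mul_X_pow]
  simp only [eq_comm]

theorem phi_split (d : ℕ) :
    Phi d fun k => ∑ i : Fin (d + 1), (MvPolynomial.X i : MvPolynomial (Fin (d + 1)) ℝ) ^ k := by
  set x : Fin (d + 1) → MvPolynomial (Fin (d + 1)) ℝ := MvPolynomial.X
  have hp : pp (d + 1) (fun k => ∑ i, x i ^ k) = pI x Finset.univ := by
    rw [pI, MvPolynomial.prod_C_add_X_eq_sum_esymm, Fintype.card_fin, pp]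
    exact Finset.sum_congr rfl fun j _ => by rw [coeff_esymm]
  have hq : qq (fun k => ∑ i, x i ^ k) = fun k => ∑ i, (Polynomial.X + Polynomial.C (x i)) ^ k := by
    funext k
    simp only [qq, map_sum, Finset.sum_mul, Finset.smul_sum]
    rw [Finset.sum_comm]
    refine Finset.sum_congr rfl fun i _ => ?_
    rw [add_comm Polynomial.X, add_pow]
    refine Finset.sum_congr rfl fun j _ => ?_
    rw [Nat.cast_smul_eq_nsmul, nsmul_eq_mul, map_pow, mul_comm]
  have hg : ∀ j, GG (fun k => ∑ i, x i ^ k) j = GI x Finset.univ j := fun j => by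
    rw [GG, GI, hq, tl_sum, ex_sum]
  obtain ⟨h1, h2, h3⟩ := gi_main x (MvPolynomial.X_injective) d Finset.univ (by simp)
  refine ⟨by rw [hp, hg, h1], fun j a b => by rw [hp, hg, h2 j a b], ?_⟩
  have h4 : (∏ i, uu (-x i)) * ∏ i, (1 + Ex (C (-x i))) = 1 := by
    rw [← Finset.prod_mul_distrib]
    exact Finset.prod_eq_one fun i _ => uu_mul _
  rw [hp, hg, tl_sum, ex_sum, map_prod,
    Finset.prod_congr rfl fun i _ => td_two (MvPolynomial.X_ne_zero i), Finset.prod_mul_distrib,
    Finset.prod_mul_distrib, Finset.prod_const, Finset.card_univ, Fintype.card_fin, ← h3]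
  linear_combination (-(2 ^ (d + 1) * (∏ i, Ex (TL fun k => x i ^ k)) *
    LS d (pI x Finset.univ) (GI x Finset.univ 0 * uu Polynomial.X))) * h4

/-- the identities hold for the power sums of every class of rank `d + 1` -/
theorem phi (d : ℕ) (p : ℕ → B) (h0 : p 0 = (d + 1 : ℕ))
    (hr : ∀ j, d + 1 < j → coeff j (Ex (NL p)) = 0) : Phi d p := by
  let e : ℕ → MvPolynomial (Fin (d + 1)) ℝ := fun j =>
    Nat.casesOn j 1 fun j => if h : j < d + 1 then MvPolynomial.X ⟨j, h⟩ else 0
  obtain ⟨u, hu0, hu⟩ := exists_nl (PowerSeries.mk e) (by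
    rw [← coeff_zero_eq_constantCoeff_apply, coeff_mk]; rfl) ((d + 1 : ℕ) : _)
  have key : ∀ {A : Type} [CommRing A] [Algebra ℝ A] (q : ℕ → A), q 0 = (d + 1 : ℕ) →
      (∀ j, d + 1 < j → coeff j (Ex (NL q)) = 0) →
      (fun k => MvPolynomial.aeval (fun i : Fin (d + 1) => coeff (i + 1) (Ex (NL q))) (u k)) = q := by
    intro A _ _ q h0 hr
    set ψ : MvPolynomial (Fin (d + 1)) ℝ →ₐ[ℝ] A :=
      MvPolynomial.aeval (fun i : Fin (d + 1) => coeff (i + 1) (Ex (NL q)))
    have h1 : Ex (NL fun k => ψ (u k)) = Ex (NL q) := by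
      rw [← nl_map, ← ex_map, hu]
      ext j
      rw [coeff_map, coeff_mk]
      cases j with
      | zero => rw [coeff_zero_eq_constantCoeff_apply, ex_c]; exact map_one _
      | succ j =>
        by_cases h : j < d + 1
        · simp only [e, dif_pos h, ψ, RingHom.coe_coe, MvPolynomial.aeval_X]
        · rw [hr _ (by omega)]
          simp only [e, dif_neg h, map_zero]
    funext k
    cases k with
    | zero => rw [hu0, h0, map_natCast]
    | succ k => exact nl_inj (ex_inj h1) k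
  rw [← key p h0 hr]
  refine Phi.map _ u (Phi.comap (MvPolynomial.aeval fun i : Fin (d + 1) =>
    MvPolynomial.esymm (Fin (d + 1)) ℝ (i + 1)) u ?_ ?_)
  · intro a b hab
    refine MvPolynomial.esymmAlgHom_fin_injective ℝ (le_refl (d + 1)) (Subtype.ext ?_)
    rw [MvPolynomial.esymmAlgHom_apply, MvPolynomial.esymmAlgHom_apply]
    exact hab
  · have h := key (fun k => ∑ i : Fin (d + 1), (MvPolynomial.X i : MvPolynomial _ ℝ) ^ k) (by simp)
      fun j hj => by
        rw [coeff_esymm, MvPolynomial.esymm, Finset.powersetCard_eq_empty.2 (by simpa using hj),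
          Finset.sum_empty]
    simp only [coeff_esymm] at h
    rw [h]
    exact phi_split d

end Vale.Agent.P280Z.Hr
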