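import Vale.Agent.P280Z.Hr.Fm3

/-!
# P280Z, block Hr: the formal statements `RR0`, `ADJF`, `PRJF`
-/

open PowerSeries
open Vale.Agent.P272.K Vale.Agent.P285.H281.FD Vale.Agent.P281Z
open Vale.Agent.P231.ChW (NewtonRec)

noncomputable section

namespace Vale.Agent.P280Z.Hr

theorem rr0 {T : CT} (h : T.OK) : RR0 T := fun V m => by
  rw [CT.RR, coeff_zero_eq_constantCoeff_apply, ex_c, h.rg.int_pt]

theorem adjf {T : CT} (hT : T.OK) : ADJF T := by
  intro m n V Z L s i h hps a
  obtain rfl := h.dim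
  set c := T.c1 V L
  set p := T.ps V (VB.tan (n + 1) V.X)
  set φ := T.pull h.emb.hol
  have h1 : Ex (C (φ (a + c)) + TL (T.ps Z (VB.tan n Z.X))) =
      map (φ : T.H V →+* T.H Z) (Ex (C (a + c) + TL p - TL fun k => c ^ k)) := by
    rw [ex_map, add_sub_assoc, ← tl_sub, map_add (map _), map_C, tl_map,
      tl_congr (p' := fun k => φ (p k - c ^ k)) hps]
    rfl
  have h2 : C c * X * Ex (C (a + c) + TL p - TL fun k => c ^ k) =
      Ex (C (a + c) + TL p) - Ex (C a + TL p) := by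
    have h3 : Ex (C a + TL p) = Ex (C (a + c) + TL p) * Ex (C (-c)) := by
      rw [← ex_add, map_add, map_neg]
      congr 1
      ring
    rw [← td_line, sub_eq_add_neg _ (TL _), ex_add _ (-_), h3]
    linear_combination (Ex (C (a + c) + TL p) * (1 - Ex (C (-c)))) * ex_neg (TL fun k => c ^ k)
  rw [CT.RR, CT.RR, CT.RR, h1, coeff_map, RingHom.coe_coe, ← hT.pl h, ← map_sub, ← map_sub, ← h2,
    mul_assoc, coeff_C_mul, coeff_succ_X_mul]

theorem seg {B : Type} [CommRing B] [Algebra ℝ B] (p : ℕ → B) (x : B) (n : ℕ) :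
    coeff n (Ex (NL fun k => p k - (-x) ^ k)) =
      ∑ j ∈ Finset.range (n + 1), coeff j (Ex (NL p)) * x ^ (n - j) := by
  have h : Ex (NL fun k => p k - (-x) ^ k) = Ex (NL p) + C x * (X * Ex (NL fun k => p k - (-x) ^ k)) := by
    have h1 := ex_neg (NL fun k => (-x) ^ k)
    rw [nl_line, map_neg] at h1
    rw [nl_sub, sub_eq_add_neg, ex_add]
    linear_combination Ex (NL p) * h1
  induction n with
  | zero => simp [ex_c]
  | succ n ih =>
    rw [h, map_add, coeff_C_mul, coeff_succ_X_mul, ih, Finset.sum_range_succ _ (n + 1), Nat.sub_self,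
      pow_zero, mul_one, add_comm, Finset.mul_sum]
    congr 1
    refine Finset.sum_congr rfl fun j hj => ?_
    rw [Nat.sub_add_comm (Nat.lt_succ_iff.1 (Finset.mem_range.1 hj)), pow_succ]
    ring

section
variable {T : CT} {d : ℕ} {V : Mf (d + 1)} {E : Mf (d + 1 + d)} {π : E.X → V.X} {ξ : T.H E}

/-- evaluation at `ξ` -/
def PT.ev (h : PT T V E π ξ) : Polynomial (T.H V) →ₐ[ℝ] T.H E :=
  Polynomial.eval₂AlgHom (T.pull h.sub.hol) ξ fun _ => Commute.all _ _

theorem PT.ev_C (h : PT T V E π ξ) (a : T.H V) : h.ev (Polynomial.C a) = T.pull h.sub.hol a := by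
  simp [PT.ev]

theorem PT.ev_X (h : PT T V E π ξ) : h.ev Polynomial.X = ξ := by simp [PT.ev]

theorem dg_pow (hT : T.OK) {n : ℕ} {W : Mf n} {a : T.H W} (ha : T.Dg W 1 a) (k : ℕ) :
    T.Dg W k (a ^ k) := by
  induction k with
  | zero => rw [pow_zero]; exact hT.rg.dg_one W
  | succ k ih => rw [pow_succ]; exact hT.rg.dg_mul W k 1 _ _ ih ha

theorem PT.push_pow (hT : T.OK) (h : PT T V E π ξ) {i : ℕ} (hi : i < d) : T.push π (ξ ^ i) = 0 := by
  rw [← hT.rg.pr_sum V (T.push π _)]
  refine Finset.sum_eq_zero fun k _ => ?_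
  have h1 : T.pr E i (ξ ^ i) = ξ ^ i := dg_pow hT h.dg i
  rw [hT.pu.deg h.sub d rfl, ← h1, hT.rg.pr_pr, if_neg (by omega), map_zero]

theorem PT.ev_pp (h : PT T V E π ξ) : h.ev (pp (d + 1) (T.ps V (VB.tan (d + 1) V.X))) = 0 := by
  have h1 := h.rk _ (newton_ex _)
  rw [seg, ← nl_map, ← ex_map] at h1
  simp only [pp, map_sum, map_mul, map_pow, h.ev_C, h.ev_X]
  simpa only [coeff_map, RingHom.coe_coe] using h1

theorem PT.push_ev (hT : T.OK) (h : PT T V E π ξ) (g : Polynomial (T.H V)) :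
    T.push π (h.ev g) = lam d (pp (d + 1) (T.ps V (VB.tan (d + 1) V.X))) g := by
  nontriviality T.H V
  set p := pp (d + 1) (T.ps V (VB.tan (d + 1) V.X))
  have hlt : (Polynomial.modByMonic g p).degree < ((d + 1 : ℕ) : WithBot ℕ) :=
    pp_degree (d + 1) (T.ps V (VB.tan (d + 1) V.X)) ▸ Polynomial.degree_modByMonic_lt g (pp_monic _ _)
  have h1 : h.ev g = h.ev (Polynomial.modByMonic g p) := by
    conv_lhs => rw [← Polynomial.modByMonic_add_div g p, map_add, map_mul, h.ev_pp, zero_mul, add_zero]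
  have h2 : (Polynomial.modByMonic g p).natDegree < d + 1 :=
    Nat.lt_succ_of_le (Polynomial.natDegree_le_of_degree_le (by
      by_contra h3
      exact absurd hlt (not_lt.2 (Nat.WithBot.add_one_le_of_lt (not_le.1 h3)))))
  rw [h1, lam_apply]
  conv_lhs => rw [Polynomial.as_sum_range_C_mul_X_pow' _ h2]
  simp only [map_sum, map_mul, map_pow, h.ev_C, h.ev_X, mul_comm (T.pull h.sub.hol _),
    hT.pu.proj h.sub]
  rw [Finset.sum_range_succ, h.one, one_mul, Finset.sum_eq_zero, zero_add]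
  exact fun i hi => by rw [h.push_pow hT (Finset.mem_range.1 hi), zero_mul]

theorem PT.rr (hT : T.OK) (h : PT T V E π ξ) (l : T.H V) (j : ℝ) :
    T.RR E (T.pull h.sub.hol l + j • ξ) = T.int V (coeff (d + 1 + d)
      (LS d (pp (d + 1) (T.ps V (VB.tan (d + 1) V.X)))
        (map Polynomial.C (Ex (C l + TL (T.ps V (VB.tan (d + 1) V.X)))) *
          GG (T.ps V (VB.tan (d + 1) V.X)) j))) := by
  set p := T.ps V (VB.tan (d + 1) V.X)
  have h1 : map (h.ev : Polynomial (T.H V) →+* T.H E) (map Polynomial.C (Ex (C l + TL p))) =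
      Ex (C (T.pull h.sub.hol l) + TL fun k => T.pull h.sub.hol (p k)) := by
    have h0 : ∀ G, map (h.ev : Polynomial (T.H V) →+* T.H E) (map Polynomial.C G) =
        map (T.pull h.sub.hol : T.H V →+* T.H E) G := fun G => by
      ext k
      simp only [coeff_map, RingHom.coe_coe, h.ev_C]
    rw [h0, ex_map, map_add, map_C, tl_map]
    rfl
  have h2 : TL (T.ps E (VB.tan (d + 1 + d) E.X)) =
      TL (fun k => T.pull h.sub.hol (p k)) + TL fun k => h.ev (qq p k) := by
    rw [← tl_add]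
    refine tl_congr fun k => ?_
    simp only [h.tan, qq, map_sum, map_smul, map_mul, map_pow, h.ev_C, h.ev_X]
    rfl
  have h3 : Ex (C (T.pull h.sub.hol l + j • ξ) + TL (T.ps E (VB.tan (d + 1 + d) E.X))) =
      map (h.ev : Polynomial (T.H V) →+* T.H E) (map Polynomial.C (Ex (C l + TL p)) * GG p j) := by
    rw [map_mul, h1, GG, map_mul, ex_map, ex_map, map_C, tl_map, RingHom.coe_coe, map_smul, h.ev_X,
      h2, ← ex_add, ← ex_add, map_add]
    congr 1
    ring
  rw [CT.RR, h3, coeff_map, RingHom.coe_coe, ← hT.pu.int h.sub, h.push_ev hT, LS, coeff_mk]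

end

theorem prjf {T : CT} (hT : T.OK) (hv : VBL) : PRJF T := by
  intro d V E π ξ h l
  set p := T.ps V (VB.tan (d + 1) V.X) with hp
  obtain ⟨h1, h2, h3⟩ := phi d p (hT.ch.zero V _ (hv.tan V))
    (hT.ch.rank V _ (hv.tan V) _ (newton_ex _))
  refine ⟨?_, fun j a b => ?_, ?_⟩
  · have h4 := h.rr hT l 0
    rw [zero_smul, add_zero, ls_mul, ← hp, h1, coeff_mul_X_pow] at h4
    exact h4
  · rw [sub_eq_add_neg, ← neg_smul, h.rr hT, ls_mul, ← hp, h2 j a b, mul_zero, map_zero, map_zero]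
  set P := pp (d + 1) p
  set A := map Polynomial.C (Ex (C ((2 : ℝ) • l) + TL p))
  set F := A * (GG p 0 * uu Polynomial.X)
  have hG : ∀ j : ℝ, GG p j = Ex (C (j • Polynomial.X)) * GG p 0 := fun j => by
    rw [GG, GG, zero_smul, map_zero, ex_zero, one_mul]
  let q : Polynomial ℝ := ∑ a ∈ Finset.HasAntidiagonal.antidiagonal (d + 1 + d), Polynomial.C ((a.1.factorial : ℝ)⁻¹ *
    T.int V (lam d P (Polynomial.X ^ a.1 * coeff a.2 F))) * Polynomial.X ^ a.1
  have hq : ∀ j : ℝ, q.eval j =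
      T.int V (coeff (d + 1 + d) (LS d P (Ex (C (j • Polynomial.X)) * F))) := fun j => by
    simp only [q, Polynomial.eval_finsetSum, Polynomial.eval_mul, Polynomial.eval_C,
      Polynomial.eval_pow, Polynomial.eval_X, LS, coeff_mk, coeff_mul, map_sum, coeff_ex_C, smul_pow,
      smul_smul, smul_mul_assoc]
    refine Finset.sum_congr rfl fun a _ => ?_
    rw [LinearMap.map_smul_of_tower, map_smul, smul_eq_mul]
    ring
  refine ⟨q, ?_, fun j => ?_⟩
  · have h4 : (2 : (T.H V)⟦X⟧) ^ (d + 1) * LS d P F = X ^ d * rescale 2 (Ex (C l + TL p)) := by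
      have h5 : rescale 2 (Ex (C l)) = Ex (C ((2 : ℝ) • l)) := by
        rw [ex_rescale, two_smul]
        congr 1
        ext k
        rw [coeff_C_mul, coeff_rescale, coeff_C, coeff_C]
        split_ifs with hk
        · rw [hk, pow_zero, one_mul, two_mul]
        · rw [mul_zero, mul_zero]
      rw [ls_mul, ex_add, ex_add, map_mul, h5]
      linear_combination Ex (C ((2 : ℝ) • l)) * h3
    have h5 := congrArg (fun G => T.int V (coeff (d + 1 + d) G)) h4
    have h6 : (2 : (T.H V)⟦X⟧) ^ (d + 1) = C (2 ^ (d + 1)) := by rw [map_pow, map_ofNat]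
    have h7 : ∀ a : T.H V, 2 ^ (d + 1) * a = (2 : ℝ) ^ (d + 1) • a := fun a => by
      rw [Algebra.smul_def, map_pow, map_ofNat]
    simp only [h6, coeff_C_mul, coeff_X_pow_mul, coeff_rescale, h7, map_smul, smul_eq_mul] at h5
    rw [hq, zero_smul, map_zero, ex_zero, one_mul]
    exact mul_left_cancel₀ (by positivity) h5
  · rw [hq, hq, h.rr hT, ← map_add, ← map_add, ← ls_add, add_smul, one_smul, map_add, ex_add, hG j]
    congr 3
    simp only [F]
    linear_combination (Ex (C (j • Polynomial.X)) * A * GG p 0) * uu_mul (Polynomial.X : Polynomial (T.H V))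

end Vale.Agent.P280Z.Hr
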