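import Vale.Agent.P280Z.Hr.Sk
import Vale.Agent.P281Z.Mf.Api
import Vale.Agent.P281Z.Mf.Loc

/-!
# P280Z, block Hr: the normal bundle of a hypersurface
-/

open scoped Manifold ContDiff Topology
open Set Filter
open Vale.Agent.P272.K Vale.Agent.P285.H281.FD Vale.Agent.P281Z
open Vale.Agent.P277Z (Hol at_chart)
open Vale.Agent.P277Z.Slc (dd dd_congr dd_mul)

set_option linter.unusedSectionVars false

noncomputable section

namespace Vale.Agent.P280Z.Hr

namespace NrmH

section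
variable {n : ℕ} {X : Type} [TopologicalSpace X] [ChartedSpace (Cm n) X]
  [IsManifold 𝓘(ℂ, Cm n) ω X] {L : Bd X} {x : X} {a a' : L.ι}

theorem cf_mul (hL : IsLB n L) (ha : x ∈ L.U a) (ha' : x ∈ L.U a') :
    cf L a x * L.g a a' x = cf L a' x := by
  have k : ∃ c, x ∈ L.U c := ⟨a, ha⟩
  rw [cf, cf, dif_pos k, dif_pos k, hL.cocycle _ _ _ x k.choose_spec ha ha']

theorem cf_ne (hL : IsLB n L) (ha : x ∈ L.U a) : cf L a x ≠ 0 := by
  have k : ∃ c, x ∈ L.U c := ⟨a, ha⟩
  rw [cf, dif_pos k]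
  exact hL.ne_zero _ _ x k.choose_spec ha

theorem hol_dd {u : X → ℂ} (h : Hol n u x) {e : Chart n X} (he : At e x) (v : Cm n) :
    Hol n (fun y => dd u e y v) x := by
  refine Hol.of_chart he (AnalyticAt.congr
    (((ContinuousLinearMap.apply ℂ ℂ v).analyticAt _).fun_comp (h e he).fderiv) ?_)
  filter_upwards [he.nhds_target] with z hz
  rw [dd, e.right_inv hz]
  rfl

end

theorem ps_ln {T : CT} (hT : T.OK) (hv : VBL) {n : ℕ} (V : Mf n) {L : Bd V.X} (hL : IsLB n L)
    (k : ℕ) : T.ps V (VB.ln L) k = T.c1 V L ^ k := by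
  rw [VB.ln, hT.ch.tw V _ L (hv.triv V 1) hL, Finset.sum_range_succ',
    Finset.sum_eq_zero fun j _ => by rw [hT.ch.triv, zero_mul, smul_zero],
    hT.ch.zero V _ (hv.triv V 1)]
  simp [VB.triv]

variable {m n : ℕ} {V : Mf m} {Z : Mf n} {L : Bd V.X} {s : L.ι → V.X → ℂ} {i : Z.X → V.X}

theorem zero (h : Cut L s i) (z : Z.X) {a : L.ι} (ha : i z ∈ L.U a) : s a (i z) = 0 :=
  not_not.1 ((nz_iff h.lb (fun a b => h.sec.change a b _) ha).not.1 (h.emb.mem z))

/-- the differential of the section along the hypersurface -/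
def ps (h : Cut L s i) (z : Z.X) : Cm m →ₗ[ℂ] (Fin 1 → ℂ) :=
  LinearMap.pi fun _ => (cf L (h.lb.cover (i z)).choose (i z) •
    dd (s (h.lb.cover (i z)).choose) (chartAt (Cm m) (i z)) (i z) : Cm m →L[ℂ] ℂ)

theorem ps_eq (h : Cut L s i) {z : Z.X} {a : L.ι} (ha : i z ∈ L.U a) (v : Cm m) (j : Fin 1) :
    ps h z v j = cf L a (i z) * dd (s a) (chartAt (Cm m) (i z)) (i z) v := by
  have hb := (h.lb.cover (i z)).choose_spec
  have k := (dd_congr (((lb_near h.lb hb).and (lb_near h.lb ha)).mono fun y k =>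
    h.sec.change _ _ y k.1 k.2) (at_chart (n := m) (i z))).trans
    (dd_mul (lb_hol h.lb hb ha) (sec_hol h.sec ha) (zero h z ha) (at_chart _))
  show cf L _ _ * dd _ _ _ v = _
  rw [k, ← cf_mul h.lb hb ha, mul_assoc]
  rfl

theorem ps_hom (h : Cut L s i) :
    IsHom n ((VB.tan m V.X).pull i) ((VB.ln L).pull i) (ps h) := by
  intro z
  obtain ⟨a, ha⟩ := h.lb.cover (i z)
  have he := at_chart (n := m) (i z)
  refine ⟨chartAt (Cm m) (i z), ((), a), he, ⟨trivial, ha⟩, fun y => LinearMap.toMatrix'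
    (LinearMap.pi fun _ : Fin 1 => (dd (s a) (chartAt (Cm m) (i z)) (i y) : Cm m →ₗ[ℂ] ℂ)),
    fun c hc j k => ?_, ?_⟩
  · simp only [LinearMap.toMatrix'_apply]
    exact ((h.emb.hol.hol (hol_dd (sec_hol h.sec ha) he _) c hc).restrictScalars
      (𝕜 := ℝ)).contDiffAt
  · filter_upwards [h.emb.hol.cont.continuousAt.eventually ((at_near he).and (lb_near h.lb ha))]
      with y hy
    rw [Matrix.toLin'_toMatrix']
    refine LinearMap.ext fun v => funext fun j => (ps_eq h hy.2 _ j).trans ?_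
    exact congrArg (cf L a (i y) * ·) (DFunLike.congr_fun (dd_comp (f := fun x => x)
      (sec_hol h.sec hy.2) (holM_id.at _) hy.1 (at_chart _)) v).symm

theorem ps_surj (h : Cut L s i) (z : Z.X) : Function.Surjective (ps h z) := by
  intro w
  obtain ⟨a, ha⟩ := h.lb.cover (i z)
  obtain ⟨v, hv⟩ := DFunLike.ne_iff.1 (h.tr z a ha _ (at_chart (n := m) (i z)))
  have k := mul_ne_zero (cf_ne h.lb ha) hv
  refine ⟨(w 0 / (cf L a (i z) * dd (s a) (chartAt (Cm m) (i z)) (i z) v)) • v, funext fun j => ?_⟩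
  rw [map_smul, Pi.smul_apply, ps_eq h ha, smul_eq_mul, div_mul_cancel₀ _ k, Subsingleton.elim j 0]

theorem ps_ex (h : Cut L s i) (z : Z.X) : Function.Exact (Df n m i z) (ps h z) := by
  obtain ⟨a, ha⟩ := h.lb.cover (i z)
  have k1 := (ps h z).finrank_range_add_finrank_ker
  rw [LinearMap.range_eq_top.2 (ps_surj h z), finrank_top, Module.finrank_fin_fun,
    Module.finrank_fin_fun] at k1
  refine LinearMap.exact_iff.2 (Submodule.eq_of_le_of_finrank_eq ?_ ?_).symm
  · rintro _ ⟨v, rfl⟩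
    have k2 := (dd_comp (sec_hol h.sec ha) (h.emb.hol.at z) (at_chart (n := n) z)
      (at_chart _)).symm.trans (dd_congr (b := fun _ => 0)
        ((h.emb.hol.cont.continuousAt.eventually (lb_near h.lb ha)).mono fun y => zero h y)
        (at_chart z))
    refine funext fun j => (ps_eq h ha _ j).trans (mul_eq_zero_of_right _ ?_)
    exact (DFunLike.congr_fun k2 v).trans (by simp [dd])
  · rw [LinearMap.finrank_range_of_inj (f := Df n m i z)
      (h.emb.imm z _ _ (at_chart _) (at_chart _)), Module.finrank_fin_fun]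
    have := h.dim
    omega

theorem ses (hv : VBL) (h : Cut L s i) : Ses n (VB.tan n Z.X) ((VB.tan m V.X).pull i)
    ((VB.ln L).pull i) (Df n m i) (ps h) :=
  ⟨hv.tan Z, hv.pull _ h.emb.hol (hv.tan V),
    hv.pull _ h.emb.hol (hv.tw V _ L (hv.triv V 1) h.lb), hv.df h.emb.hol, ps_hom h,
    fun z => h.emb.imm z _ _ (at_chart _) (at_chart _), ps_ex h, ps_surj h⟩

end NrmH

open NrmH in
/-- **NRM** -/
theorem nrm (hv : VBL) : NRM := by
  intro T hT m n V Z L s i h k
  have k1 := hT.ch.ses Z (ses hv h) (k + 1)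
  rw [hT.ch.pull h.emb.hol _ (hv.tan V), hT.ch.pull h.emb.hol (VB.ln L)
    (hv.tw V _ L (hv.triv V 1) h.lb), ps_ln hT hv V h.lb] at k1
  rw [map_sub, k1, add_sub_cancel_right]

end Vale.Agent.P280Z.Hr
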