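import Vale.Agent.P280Z.Ld.Iso
import Vale.Agent.P281Z.Pb.Api
import Vale.Agent.P281Z.Pb.Ps

/-!
# P280Z, block Hr: the degree of the projective space
-/

open scoped Manifold ContDiff Topology
open Set Filter Function
open Vale.Agent.P272.K Vale.Agent.P285.H281.FD Vale.Agent.P281Z
open Vale.Agent.P277Z (Hol at_chart hol_const)
open Vale.Agent.P277Z.Slc (dd dd_congr dd_mul)
open Vale.Agent.P277.HD (pull)

noncomputable section

namespace Vale.Agent.P280Z.Hr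

namespace Pd

variable {r : ℕ}

/-- the inclusion of the hyperplane -/
def up (v : Cm (r + 1)) : Cm (r + 1 + 1) := Fin.cons 0 v

theorem up_smul (c : ℂ) (v : Cm (r + 1)) : up (c • v) = c • up v :=
  funext (Fin.cases (mul_zero c).symm fun _ => rfl)

theorem up_ne {v : Cm (r + 1)} (h : v ≠ 0) : up v ≠ 0 := fun k =>
  h (funext fun j => congrFun k j.succ)

theorem hyp (S : PS (r + 1)) (S' : PS r) : ∃ φ : S'.P.X → S.P.X,
    Cut S.H (fun h p => S.x h p 0) φ ∧ LIso r S'.H (pull φ S.H) := by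
  have h0 : ∀ b, ∀ y ∈ S'.H.U b, ∀ j, Hol r (fun y => up (S'.x b y) j) y := fun b y k =>
    Fin.cases (hol_const 0 y) (S'.xhol k)
  have h1 : ∀ b, ∀ y ∈ S'.H.U b, up (S'.x b y) ≠ 0 := fun b y k => up_ne (S'.xnz b y k)
  obtain ⟨φ, h2, h3⟩ := S.lift S'.lb.isOpen S'.lb.cover h0 h1 fun b b' y k k' =>
    ⟨_, by rw [S'.x_chg k k', up_smul]⟩
  have h4 : ∀ y h, φ y ∈ S.H.U h → S.x h (φ y) 0 = 0 := fun y h k => by
    obtain ⟨b, hb⟩ := S'.lb.cover y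
    rw [h3 b y hb] at k ⊢
    exact of_not_not (mt (S.x_ne_iff (h1 b y hb) k 0).1 fun c => c rfl)
  refine ⟨φ, ⟨rfl, S.lb, S.sec 0, ⟨h2, fun y y' k => ?_, fun y => ?_, Set.ext fun p => ⟨?_, ?_⟩⟩,
    fun y h k e he c => ?_⟩, fun b h y => S.sc h (up (S'.x b y)),
    fun b h y k k' => S.sc_hol (h0 b y k) (h1 b y k) (h3 b y k ▸ k'),
    fun b h y k k' => S.sc_ne (h1 b y k) (h3 b y k ▸ k'), fun b b' h h' y k1 k2 k3 k4 => ?_⟩
  · obtain ⟨b, hb⟩ := S'.lb.cover y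
    obtain ⟨b', hb'⟩ := S'.lb.cover y'
    rw [h3 b y hb, h3 b' y' hb'] at k
    obtain ⟨c, hc⟩ := (S.pt_eq_iff (h1 b y hb) (h1 b' y' hb')).1 k
    exact S'.ext hb hb' ⟨c, funext fun j => congrFun hc j.succ⟩
  · obtain ⟨b, hb⟩ := S'.lb.cover y
    obtain ⟨l, hl⟩ := Function.ne_iff.1 (S'.xnz b y hb)
    refine ((S.imm_iff (h0 b y hb) (l := l.succ) hl (at_chart y)).2 fun ξ hξ => ?_).cng
      ((lb_near S'.lb hb).mono fun y' k => (h3 b y' k).symm)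
    obtain ⟨j, hj⟩ := (S'.imm_iff (S'.xhol hb) hl (at_chart y)).1 ((imm_id y).cng
      ((lb_near S'.lb hb).mono fun _ k => (S'.pt_x' k).symm)) ξ hξ
    exact ⟨j.succ, hj⟩
  · rintro ⟨y, rfl⟩ c
    obtain ⟨h, k⟩ := S.lb.cover (φ y)
    exact c h k (h4 y h k)
  · intro c
    obtain ⟨h, k⟩ := S.lb.cover p
    have k1 : up (Fin.tail (S.x h p)) = S.x h p := (congrArg (Fin.cons · _) (of_not_not (mt
      (nz_iff S.lb (fun a b => (S.sec 0).change a b p) k).2 c)).symm).trans (Fin.cons_self_tail _)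
    have k2 : Fin.tail (S.x h p) ≠ 0 := fun k2 => S.xnz h p k (by
      rw [← k1, k2, ← zero_smul ℂ (0 : Cm (r + 1)), up_smul, zero_smul])
    obtain ⟨b, hb⟩ := S'.lb.cover (S'.pt (Fin.tail (S.x h p)))
    obtain ⟨c, k3, k4⟩ := S'.x_pt' k2 hb
    exact ⟨_, by rw [h3 b _ hb, k4, up_smul, k1, S.pt_x h p c k k3]⟩
  · obtain ⟨l, hl⟩ := Function.ne_iff.1 (S.xnz h _ k)
    obtain ⟨b, hb⟩ := Fin.exists_succAbove_eq (x := 0) (y := l) fun c => hl (c ▸ h4 y h k)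
    refine ((S.ind k hl).2 e he).ne_zero b ?_
    simp only [hb, div_eq_inv_mul]
    rw [dd_mul ((S.xhol k l).inv hl) (S.xhol k 0) (h4 y h k) he, c]
    exact ContinuousLinearMap.ext fun _ => mul_zero _
  · have m1 := S.sc_spec (h := h) (h1 b y k1) (h3 b y k1 ▸ k3)
    have m2 := S.sc_spec (h := h') (h1 b' y k2) (h3 b' y k2 ▸ k4)
    rw [← h3 b y k1, S.x_chg k3 k4, smul_smul] at m1
    rw [← h3 b' y k2] at m2
    refine smul_left_injective ℂ (S.xnz h' _ k4) (m1.symm.trans ?_)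
    rw [S'.x_chg k1 k2, up_smul]
    exact (congrArg (_ • ·) m2).trans (smul_smul _ _ _)

end Pd

/-- the degree of the projective space -/
theorem ps_deg {T : CT} (hT : T.OK) : ∀ {r : ℕ} (S : PS r), T.int S.P (T.c1 S.P S.H ^ r) = 1
  | 0, S => by
    have : Subsingleton S.P.X := ⟨fun p q => by
      obtain ⟨v, hv, rfl⟩ := S.surj p
      obtain ⟨w, hw, rfl⟩ := S.surj q
      exact (S.pt_eq_iff' hv hw).2 fun a b => by rw [Subsingleton.elim (α := Fin 1) a b]⟩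
    have : Nonempty S.P.X := ⟨S.pt 0⟩
    rw [pow_zero, hT.rg.int_pt, Nat.card_unique, Nat.cast_one]
  | r + 1, S => by
    obtain ⟨φ, h1, t, h2⟩ := Pd.hyp S (Pb.Ps.ps r)
    rw [pow_succ', hT.pl h1, map_pow, ← hT.c1.pull h1.emb.hol _ S.lb,
      ← (Ld.iso _ _ _ t (Pb.Ps.ps r).lb (h1.emb.hol.lb S.lb) h2).1 T hT.c1]
    exact ps_deg hT _

end Vale.Agent.P280Z.Hr
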