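import Vale.Agent.P280Z.Hr.TopA
import Vale.Agent.P280Z.Hr.Sk
import Vale.Agent.P280Z.Hr.Fm4
import Vale.Agent.P280Z.Ld.Api

/-!
# P280Z, block Hr: the defect of the Riemann-Roch formula along ladders
-/

open scoped Manifold ContDiff Topology
open Set Filter
open Vale.Agent.P272.K Vale.Agent.P285.H281.FD Vale.Agent.P281Z Vale.Agent.P280Z.Ld
open Vale.Agent.P277Z (at_chart)
open Vale.Agent.P277Z.Slc (lin dd)
open Vale.Agent.P277.HD (pull)

noncomputable section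

namespace Vale.Agent.P280Z.Hr.Tp

variable {T : CT} {m n : ℕ}

/-- the defect -/
def cc (T : CT) {n : ℕ} (V : Mf n) (M : Bd V.X) : ℝ := (h0 n M : ℝ) - T.RR V (T.c1 V M)

/-- the theorem in dimension `n` -/
def HD (T : CT) (n : ℕ) : Prop := ∀ (V : Mf n) (M : Bd V.X), IsLB n M → Ap T V M → cc T V M = 0

section
variable {V : Mf m} {L L' M N A : Bd V.X}

theorem c1_iso (hL : LD) (hT : T.OK) (h : IsLB m L) (h' : IsLB m L') (e : LIso m L L') :
    T.c1 V L = T.c1 V L' := e.elim fun t k => (hL.iso V L L' t h h' k).1 T hT.c1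

theorem h0_iso (hL : LD) (h : IsLB m L) (h' : IsLB m L') (e : LIso m L L') : h0 m L = h0 m L' :=
  e.elim fun t k => (hL.iso V L L' t h h' k).2.elim fun Φ _ => Φ.finrank_eq.symm

theorem cc_iso (hL : LD) (hT : T.OK) (h : IsLB m L) (h' : IsLB m L') (e : LIso m L L') :
    cc T V L = cc T V L' := by rw [cc, cc, c1_iso hL hT h h' e, h0_iso hL h h' e]

theorem c1_ml (hL : LD) (hT : T.OK) {φ ψ} (h : Ml m M N A φ ψ) :
    T.c1 V M = T.c1 V N + T.c1 V A := by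
  rw [c1_iso hL hT h.lM (lb_mul h.lN h.lA) h.liso, hT.c1.mul V N A h.lN h.lA]

theorem c1_zp (hL : LD) (hT : T.OK) (h : IsLB m L) (k : ℤ) :
    T.c1 V (zp L k) = (k : ℝ) • T.c1 V L := by
  have e := hT.c1.lin V (fun _ : Unit => L) (fun _ => k) fun _ => h
  rw [Fintype.sum_unique] at e
  rw [← e]
  exact c1_iso hL hT (lb_zp h k) (lb_lin (fun _ => h) _) ((cls_eq (lb_zp h k)
    (lb_lin (fun _ => h) _)).1 (by rw [cls_zp h, cls_lin fun _ => h, Fintype.sum_unique]))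

theorem kc_add (hT : T.OK) {w a : T.H V} (h : T.Kc V w) (h' : T.Nn V a) : T.Kc V (w + a) :=
  hT.po.mono (hT.po.add h h') fun _ => inf_le_left

theorem nn_add (hT : T.OK) {w a : T.H V} (h : T.Nn V w) (h' : T.Nn V a) : T.Nn V (w + a) :=
  hT.po.mono (hT.po.add h h') fun _ => le_top

theorem nn_smul (hT : T.OK) {a : T.H V} (h : T.Nn V a) {c : ℝ} (hc : 0 ≤ c) : T.Nn V (c • a) := by
  rcases hc.eq_or_lt with rfl | k
  · rw [zero_smul]
    exact hT.po.zero V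
  · exact hT.po.smul c k h

theorem nn_of (hT : T.OK) {a : T.H V} (h : T.Kc V a) : T.Nn V a := hT.po.mono h fun _ => le_top

theorem nn_pull (hT : T.OK) {Z : Mf n} {f : Z.X → V.X} (hf : HolM n m f) {a : T.H V}
    (h : T.Nn V a) : T.Nn Z (T.pull hf a) := hT.po.mono (hT.po.pull hf h) fun _ => le_top

theorem kc_pull (hT : T.OK) {Z : Mf n} {f : Z.X → V.X} (hf : HolM n m f) (hi : ∀ z, Imm n m f z)
    {a : T.H V} (h : T.Kc V a) : T.Kc Z (T.pull hf a) :=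
  hT.po.mono (hT.po.pull hf h) fun z => by
    rw [Submodule.comap_bot]
    exact (LinearMap.ker_eq_bot.2 (hi z _ _ (at_chart _) (at_chart _))).le

theorem ap_ml (hL : LD) (hT : T.OK) {φ ψ} (h : Ml m M N A φ ψ) (hN : Ap T V N) (hA : Bpf m A) :
    Ap T V M := by
  rw [Ap, c1_ml hL hT h, add_sub_right_comm]
  exact kc_add hT hN (hT.c1.bpf V A h.lA hA)

theorem bpf_pull {Z : Mf n} {f : Z.X → V.X} (hf : HolM n m f) (h : Bpf m L) : Bpf n (pull f L) :=
  fun z => (h (f z)).elim fun s k => ⟨fun a y => s a (f y), hf.sec k.1, k.2⟩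

theorem ap_cut (hL : LD) (hT : T.OK) {Z : Mf n} {s : A.ι → V.X → ℂ} {i : Z.X → V.X}
    (h : Cut A s i) {φ ψ} (hM : Ml m M N A φ ψ) (hN : Ap T V N) : Ap T Z (pull i M) := by
  rw [Ap, hT.c1.pull h.emb.hol M hM.lM, (hL.adj h).2 T hT.c1, ← map_sub, c1_ml hL hT hM,
    add_sub_add_right_eq_sub]
  exact kc_pull hT _ h.emb.imm hN

theorem cc_step (hL : LD) (hT : T.OK) (hN : NRM) {Z : Mf n} {s : A.ι → V.X → ℂ} {i : Z.X → V.X}
    (h : Cut A s i) {φ ψ} (hM : Ml m M N A φ ψ) (k : Ap T V N) :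
    cc T V M - cc T V N = cc T Z (pull i M) := by
  rw [cc, cc, cc, hL.step T hT h M N φ ψ hM k, hT.c1.pull h.emb.hol M hM.lM, c1_ml hL hT hM,
    adjf hT h (hN T hT h)]
  push_cast
  ring

end

theorem ex_cut (hL : LD) (V : Mf (n + 1)) {A : Bd V.X} (hA : IsLB (n + 1) A) (h : Bpf (n + 1) A) :
    ∃ (s : A.ι → V.X → ℂ) (Z : Mf n) (i : Z.X → V.X), Cut A s i := by
  obtain ⟨r, s, h1, h2⟩ := hL.span V A {s | IsSec (n + 1) A s} hA (fun _ k => k) h
  obtain ⟨c, hc⟩ := (hL.ber V A (Fin r) s hA h1 (h2 ▸ countable_empty)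
    fun x k => (h2 ▸ k : x ∈ (∅ : Set V.X)).elim).exists
  exact ⟨_, hc⟩

theorem cc_inv (hL : LD) (hT : T.OK) (hN : NRM) (ih : HD T n) {V : Mf (n + 1)} {M N A : Bd V.X}
    {φ ψ} (hM : Ml (n + 1) M N A φ ψ) (k : Ap T V N) (hA : Bpf (n + 1) A) :
    cc T V M = cc T V N := by
  obtain ⟨s, Z, i, h⟩ := ex_cut hL V hM.lA hA
  rw [← sub_eq_zero, cc_step hL hT hN h hM k]
  exact ih Z _ (h.emb.hol.lb hM.lM) (ap_cut hL hT h hM k)

theorem ap_lin (hT : T.OK) {α : Type} [Fintype α] {W : Mf m} {N : Bd W.X} {H : α → Bd W.X}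
    (hN : IsLB m N) (hH : ∀ j, IsLB m (H j)) (hb : ∀ j, Bpf m (H j)) {k₀ : α → ℤ}
    (h : Ap T W (N.mul (lin H k₀))) (k : α → ℕ) : Ap T W (N.mul (lin H fun j => k₀ j + k j)) := by
  have e : ∀ s : Finset α, T.Nn W (∑ j ∈ s, (k j : ℝ) • T.c1 W (H j)) := fun s =>
    Finset.sum_induction _ _ (fun _ _ => nn_add hT) (hT.po.zero W) fun j _ =>
      nn_smul hT (hT.c1.bpf W _ (hH j) (hb j)) (Nat.cast_nonneg _)
  have := kc_add hT h (e Finset.univ)
  rw [hT.c1.mul W _ _ hN (lb_lin hH _), hT.c1.lin W H _ hH] at this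
  rw [Ap, hT.c1.mul W _ _ hN (lb_lin hH _), hT.c1.lin W H _ hH]
  simp only [Int.cast_add, Int.cast_natCast, add_smul, Finset.sum_add_distrib]
  rwa [← add_assoc, add_sub_right_comm]

/-- the ladder for the defect -/
theorem ladc (hL : LD) (hT : T.OK) (hN : NRM) {d : ℕ} (ih : HD T d) {α : Type} [Fintype α]
    [DecidableEq α] : ∀ (e m : ℕ), m = d + e → ∀ (W : Mf m) (N : Bd W.X) (H : α → Bd W.X)
    (k₀ : α → ℤ), IsLB m N → (∀ j, IsLB m (H j)) → (∀ j, Bpf m (H j)) →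
    Ap T W (N.mul (lin H k₀)) → Dr e fun k => cc T W (N.mul (lin H fun j => k₀ j + k j))
  | 0, _, rfl, W, _, _, _, h1, h2, h3, h4 => fun k =>
    ih W _ (lb_mul h1 (lb_lin h2 _)) (ap_lin hT h1 h2 h3 h4 k)
  | e + 1, _, rfl, W, N, H, k₀, h1, h2, h3, h4 => fun j => by
    obtain ⟨s, Z, i, h⟩ := ex_cut hL (n := d + e) W (h2 j) (h3 j)
    have key := ladc hL hT hN ih e (d + e) rfl Z (pull i N) (fun l => pull i (H l))
      (k₀ + Pi.single j 1) (h.emb.hol.lb h1) (fun l => h.emb.hol.lb (h2 l))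
      (fun l => bpf_pull h.emb.hol (h3 l)) (ap_cut hL hT h (ml_lin h1 h2 k₀ j) h4)
    refine (congrArg (Dr e) (funext fun k => ?_)).mp key
    have e1 : (fun l => k₀ l + ((k + Pi.single j 1 : α → ℕ) l : ℤ)) =
        (fun l => k₀ l + (k l : ℤ)) + Pi.single j 1 := funext fun l => by
      by_cases q : l = j <;> simp [q, add_assoc]
    have e2 : (fun l => (k₀ + Pi.single j 1 : α → ℤ) l + (k l : ℤ)) =
        (fun l => k₀ l + (k l : ℤ)) + Pi.single j 1 := funext fun l => add_right_comm _ _ _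
    dsimp only
    rw [e1, e2]
    exact (cc_step hL hT hN h (ml_lin h1 h2 _ j) (ap_lin hT h1 h2 h3 h4 k)).symm

theorem hd_zero (hL : LD) (hT : T.OK) : HD T 0 := fun V M h _ => by
  rw [cc, (hL.pt V M h).2.1, rr0 hT, sub_self]

end Vale.Agent.P280Z.Hr.Tp
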